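import Vale.Agent.P253.MathlibUsed

/-!
P253: complex-time integral curves on star domains and the partial complex-time flow.
-/

open scoped Manifold ContDiff Topology
open Set Metric Complex Filter IsManifold

set_option maxSynthPendingDepth 3
set_option linter.unusedSectionVars false

noncomputable section

namespace Vale.Agent.P253.H595

variable {E : Type*} [NormedAddCommGroup E] [NormedSpace ℂ E] [FiniteDimensional ℂ E]
  {M : Type*} [MetricSpace M] [ChartedSpace E M]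
  {P : (ℂ → M) → ℂ → Prop}

variable (E) in
/-- `P f ζ` is a local property of curves `f : ℂ → M` at `ζ` (an integral curve of a fixed
autonomous holomorphic equation) with a local complex flow and local uniqueness -/
structure LocFlow (P : (ℂ → M) → ℂ → Prop) : Prop where
  mdiff : ∀ {f : ℂ → M} {ζ : ℂ}, P f ζ → MDifferentiableAt 𝓘(ℂ, ℂ) 𝓘(ℂ, E) f ζ
  congr : ∀ {f g : ℂ → M} {ζ : ℂ}, P f ζ → g =ᶠ[𝓝 ζ] f → P g ζ
  shift : ∀ {f : ℂ → M} {ζ c : ℂ}, P f (ζ + c) → P (fun w => f (w + c)) ζ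
  loc : ∀ x₀ : M, ∃ δ > 0, ∃ U : Set M, IsOpen U ∧ x₀ ∈ U ∧ ∃ H : ℂ → M → M,
    (∀ x ∈ U, H 0 x = x) ∧
    (∀ x ∈ U, ∀ ζ ∈ ball (0:ℂ) δ, P (fun w => H w x) ζ) ∧
    ∀ x ∈ U, ∀ ζ ∈ ball (0:ℂ) δ,
      MDifferentiableAt (𝓘(ℂ, ℂ).prod 𝓘(ℂ, E)) 𝓘(ℂ, E) (fun q : ℂ × M => H q.1 q.2) (ζ, x)
  uniq : ∀ (f g : ℂ → M) (c : ℂ), (∀ᶠ ζ in 𝓝 c, P f ζ) → (∀ᶠ ζ in 𝓝 c, P g ζ) →
    f c = g c → f =ᶠ[𝓝 c] g

/-- uniqueness of integral curves -/
theorem eqOn_of_int (hZ : LocFlow E P) {U : Set ℂ} (hU : IsOpen U) (hUc : IsPreconnected U)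
    {f g : ℂ → M} (hf : ∀ ζ ∈ U, P f ζ) (hg : ∀ ζ ∈ U, P g ζ) {c : ℂ} (hc : c ∈ U)
    (h : f c = g c) : EqOn f g U := by
  set W : Set ℂ := {ζ | f =ᶠ[𝓝 ζ] g} with hW
  have hWo : IsOpen W := isOpen_setOfPred_eventually_nhds
  have hloc : ∀ ζ ∈ U, f ζ = g ζ → ζ ∈ W := fun ζ hζ h =>
    hZ.uniq f g ζ (by filter_upwards [hU.mem_nhds hζ] with w hw using hf w hw)
      (by filter_upwards [hU.mem_nhds hζ] with w hw using hg w hw) h
  have hsub : U ⊆ W := by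
    refine hUc.subset_of_closure_inter_subset hWo ⟨c, hc, hloc c hc h⟩ ?_
    rintro ζ ⟨hζ, hζU⟩
    refine hloc ζ hζU ?_
    have h1 : Tendsto f (𝓝[W] ζ) (𝓝 (f ζ)) :=
      (hZ.mdiff (hf ζ hζU)).continuousAt.tendsto.mono_left nhdsWithin_le_nhds
    have h2 : Tendsto g (𝓝[W] ζ) (𝓝 (g ζ)) :=
      (hZ.mdiff (hg ζ hζU)).continuousAt.tendsto.mono_left nhdsWithin_le_nhds
    have h3 : f =ᶠ[𝓝[W] ζ] g := by
      filter_upwards [self_mem_nhdsWithin] with w hw using hw.self_of_nhds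
    have : (𝓝[W] ζ).NeBot := mem_closure_iff_nhdsWithin_neBot.1 hζ
    exact tendsto_nhds_unique (h1.congr' h3) h2
  exact fun ζ hζ => (hsub hζ).self_of_nhds

/-- gluing of integral curves -/
theorem glue_int (hZ : LocFlow E P) {U V : Set ℂ} (hU : IsOpen U) (hV : IsOpen V)
    (hUV : IsPreconnected (U ∩ V)) {f g : ℂ → M} (hf : ∀ ζ ∈ U, P f ζ)
    (hg : ∀ ζ ∈ V, P g ζ) {c : ℂ} (hcU : c ∈ U) (hcV : c ∈ V) (h : f c = g c) :
    ∃ k : ℂ → M, (∀ ζ ∈ U ∪ V, P k ζ) ∧ EqOn k f U ∧ EqOn k g V := by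
  classical
  have hfg : EqOn f g (U ∩ V) := eqOn_of_int hZ (hU.inter hV) hUV (fun ζ hζ => hf ζ hζ.1)
    (fun ζ hζ => hg ζ hζ.2) ⟨hcU, hcV⟩ h
  set k : ℂ → M := fun ζ => if ζ ∈ U then f ζ else g ζ with hk
  have hkf : EqOn k f U := fun ζ hζ => if_pos hζ
  have hkg : EqOn k g V := by
    intro ζ hζ
    by_cases h1 : ζ ∈ U
    · rw [hkf h1, hfg ⟨h1, hζ⟩]
    · exact if_neg h1
  refine ⟨k, ?_, hkf, hkg⟩
  rintro ζ (h1 | h1)
  · exact hZ.congr (hf ζ h1) (hkf.eventuallyEq_of_mem (hU.mem_nhds h1))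
  · exact hZ.congr (hg ζ h1) (hkg.eventuallyEq_of_mem (hV.mem_nhds h1))

variable (P) in
/-- `f` is an integral curve on the open star domain `U`, starting at `x` -/
structure StarInt (U : Set ℂ) (f : ℂ → M) (x : M) : Prop where
  op : IsOpen U
  star : StarConvex ℝ 0 U
  zero : (0 : ℂ) ∈ U
  int : ∀ ζ ∈ U, P f ζ
  start : f 0 = x

variable (P) in
/-- domain of the partial complex-time flow -/
def DF : Set (ℂ × M) := {q | ∃ (U : Set ℂ) (f : ℂ → M), StarInt P U f q.2 ∧ q.1 ∈ U}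

open Classical in
variable (P) in
/-- the partial complex-time flow -/
def FF (ζ : ℂ) (x : M) : M := if h : (ζ, x) ∈ DF P then h.choose_spec.choose ζ else x

theorem StarInt.unique (hZ : LocFlow E P) {U V : Set ℂ} {f g : ℂ → M} {x : M}
    (hf : StarInt P U f x) (hg : StarInt P V g x) {ζ : ℂ} (hU : ζ ∈ U) (hV : ζ ∈ V) :
    f ζ = g ζ := by
  have h1 : StarConvex ℝ 0 (U ∩ V) := hf.star.inter hg.star
  have h2 : IsPreconnected (U ∩ V) :=
    (h1.isPathConnected ⟨hf.zero, hg.zero⟩).isConnected.isPreconnected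
  exact eqOn_of_int hZ (hf.op.inter hg.op) h2 (fun ζ hζ => hf.int ζ hζ.1)
    (fun ζ hζ => hg.int ζ hζ.2) (c := 0) ⟨hf.zero, hg.zero⟩ (by rw [hf.start, hg.start]) ⟨hU, hV⟩

theorem StarInt.mem_DF {U : Set ℂ} {f : ℂ → M} {x : M} (hf : StarInt P U f x) {ζ : ℂ}
    (hζ : ζ ∈ U) : (ζ, x) ∈ DF P := ⟨U, f, hf, hζ⟩

theorem StarInt.eq (hZ : LocFlow E P) {U : Set ℂ} {f : ℂ → M} {x : M} (hf : StarInt P U f x)
    {ζ : ℂ} (hζ : ζ ∈ U) : FF P ζ x = f ζ := by
  have hD : (ζ, x) ∈ DF P := hf.mem_DF hζ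
  rw [FF, dif_pos hD]
  have hs := hD.choose_spec.choose_spec
  exact hs.1.unique hZ hf hs.2 hζ

theorem FF_int (hZ : LocFlow E P) {ζ : ℂ} {x : M} (h : (ζ, x) ∈ DF P) :
    P (fun w => FF P w x) ζ := by
  obtain ⟨U, f, hf, hζ⟩ := h
  refine hZ.congr (hf.int ζ hζ) ?_
  filter_upwards [hf.op.mem_nhds hζ] with w hw using hf.eq hZ hw

theorem zero_mem_DF (hZ : LocFlow E P) (x : M) : ((0 : ℂ), x) ∈ DF P := by
  obtain ⟨δ, hδ, U, -, hx, H, h0, h1, -⟩ := hZ.loc x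
  exact ⟨ball 0 δ, fun w => H w x, ⟨isOpen_ball, (convex_ball 0 δ).starConvex (mem_ball_self hδ),
    mem_ball_self hδ, h1 x hx, h0 x hx⟩, mem_ball_self hδ⟩

theorem FF_zero (hZ : LocFlow E P) (x : M) : FF P 0 x = x := by
  obtain ⟨U, f, hf, h0⟩ := zero_mem_DF hZ x
  rw [hf.eq hZ h0, hf.start]

theorem isOpen_slice (x : M) : IsOpen {ζ : ℂ | (ζ, x) ∈ DF P} := by
  rw [isOpen_iff_mem_nhds]
  rintro ζ ⟨U, f, hf, hζ⟩
  filter_upwards [hf.op.mem_nhds hζ] with w hw using hf.mem_DF hw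

theorem star_slice (x : M) : StarConvex ℝ 0 {ζ : ℂ | (ζ, x) ∈ DF P} := by
  rintro ζ ⟨U, f, hf, hζ⟩ a b ha hb hab
  exact hf.mem_DF (hf.star hζ ha hb hab)

/-- integral curves near a segment -/
theorem mem_DF_of_segment (hZ : LocFlow E P) {V : Set ℂ} (hV : IsOpen V) {f : ℂ → M}
    (hf : ∀ ζ ∈ V, P f ζ) {ζ : ℂ} (hs : segment ℝ 0 ζ ⊆ V) :
    (ζ, f 0) ∈ DF P ∧ FF P ζ (f 0) = f ζ := by
  have hc : IsCompact (segment ℝ (0:ℂ) ζ) := by
    rw [segment_eq_image_lineMap]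
    exact isCompact_Icc.image (AffineMap.lineMap_continuous)
  obtain ⟨δ, hδ, hδV⟩ := hc.exists_thickening_subset_open hV hs
  have hsub : segment ℝ (0:ℂ) ζ ⊆ thickening δ (segment ℝ (0:ℂ) ζ) := self_subset_thickening hδ _
  have h0 : (0:ℂ) ∈ thickening δ (segment ℝ (0:ℂ) ζ) := hsub (left_mem_segment ℝ _ _)
  have hst : StarInt P (thickening δ (segment ℝ (0:ℂ) ζ)) f (f 0) :=
    ⟨isOpen_thickening, ((convex_segment 0 ζ).thickening δ).starConvex h0, h0,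
      fun w hw => hf w (hδV hw), rfl⟩
  have h1 : ζ ∈ thickening δ (segment ℝ (0:ℂ) ζ) := hsub (right_mem_segment ℝ _ _)
  exact ⟨hst.mem_DF h1, hst.eq hZ h1⟩

theorem mem_DF_of_segment' (hZ : LocFlow E P) {V : Set ℂ} (hV : IsOpen V) {f : ℂ → M}
    (hf : ∀ ζ ∈ V, P f ζ) {ζ : ℂ} {x : M} (hx : f 0 = x) (hs : segment ℝ 0 ζ ⊆ V) :
    (ζ, x) ∈ DF P ∧ FF P ζ x = f ζ := by
  subst hx
  exact mem_DF_of_segment hZ hV hf hs

/-- the group law along segments in the domain of one orbit -/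
theorem FF_add (hZ : LocFlow E P) {ζ ζ' : ℂ} {x : M}
    (h : ∀ r ∈ Icc (0:ℝ) 1, (ζ + r * ζ', x) ∈ DF P) :
    (ζ', FF P ζ x) ∈ DF P ∧ FF P ζ' (FF P ζ x) = FF P (ζ + ζ') x := by
  have hV : IsOpen {w : ℂ | (w + ζ, x) ∈ DF P} :=
    (isOpen_slice (P := P) x).preimage (continuous_id.add continuous_const)
  have h1 := mem_DF_of_segment' hZ hV (f := fun w => FF P (w + ζ) x) (ζ := ζ') (x := FF P ζ x)
    (fun w hw => hZ.shift (FF_int hZ hw)) (by simp only [zero_add]) ?_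
  · rw [add_comm ζ' ζ] at h1
    exact h1
  · rw [segment_eq_image]
    rintro w ⟨r, hr, rfl⟩
    have h2 := h r hr
    change ((1 - r) • (0:ℂ) + r • ζ' + ζ, x) ∈ DF P
    have h3 : (1 - r) • (0:ℂ) + r • ζ' + ζ = ζ + r * ζ' := by
      rw [smul_zero, zero_add, real_smul, add_comm]
    rw [h3]
    exact h2

/-- backwards along an orbit -/
theorem FF_neg (hZ : LocFlow E P) {ζ : ℂ} {x : M} (h : (ζ, x) ∈ DF P) :
    (-ζ, FF P ζ x) ∈ DF P ∧ FF P (-ζ) (FF P ζ x) = x := by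
  have h1 := FF_add hZ (ζ := ζ) (ζ' := -ζ) (x := x) (fun r hr => ?_)
  · rw [add_neg_cancel, FF_zero hZ] at h1
    exact h1
  · have h2 := star_slice (P := P) x h (a := r) (b := 1 - r) hr.1 (by linarith [hr.2]) (by ring)
    have h3 : r • (0:ℂ) + (1 - r) • ζ = ζ + r * -ζ := by
      rw [smul_zero, zero_add, real_smul]; push_cast; ring
    rw [h3] at h2
    exact h2

/-- small steps in radial direction -/
theorem FF_radial (hZ : LocFlow E P) {w t : ℂ} {x : M} (h : (w, x) ∈ DF P) {δ : ℝ} {g : ℂ → M}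
    (hg : ∀ ζ ∈ ball (0:ℂ) δ, P g ζ) {c : ℂ} (hc : c ∈ ball (0:ℂ) δ) (hgc : g c = FF P w x)
    {κ : ℝ} (hκ : 0 ≤ κ) (htw : t = κ * w) (htc : t - w + c ∈ ball (0:ℂ) δ) :
    (t, x) ∈ DF P ∧ FF P t x = g (t - w + c) := by
  set V : Set ℂ := {ζ : ℂ | ζ - w + c ∈ ball (0:ℂ) δ} with hVdef
  have hV : IsOpen V := isOpen_ball.preimage ((continuous_id.sub continuous_const).add
    continuous_const)
  have hVc : Convex ℝ V := by
    have h1 : V = ball (w - c) δ := by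
      ext ζ
      simp only [hVdef, mem_ofPred_eq, mem_ball_iff_norm, sub_zero]
      have : ζ - w + c = ζ - (w - c) := by ring
      rw [this]
    rw [h1]
    exact convex_ball _ _
  have hcs : IsCompact (segment ℝ (0:ℂ) w) := by
    rw [segment_eq_image_lineMap]
    exact isCompact_Icc.image (AffineMap.lineMap_continuous)
  have hsS : segment ℝ (0:ℂ) w ⊆ {ζ : ℂ | (ζ, x) ∈ DF P} := (star_slice (P := P) x).segment_subset h
  obtain ⟨ε, hε, hεV⟩ := hcs.exists_thickening_subset_open (isOpen_slice (P := P) x) hsS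
  set U : Set ℂ := thickening ε (segment ℝ (0:ℂ) w) with hUdef
  have hsub : segment ℝ (0:ℂ) w ⊆ U := self_subset_thickening hε _
  have hUc : Convex ℝ U := (convex_segment 0 w).thickening ε
  have hwV : w ∈ V := by
    simp only [hVdef, mem_ofPred_eq, sub_self, zero_add]; exact hc
  obtain ⟨k, hk, hkf, hkg⟩ := glue_int hZ (U := U) (V := V) isOpen_thickening hV
    (hUc.inter hVc).isPreconnected (f := fun ζ => FF P ζ x) (g := fun ζ => g (ζ - w + c))
    (fun ζ hζ => FF_int hZ (hεV hζ))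
    (fun ζ hζ => by
      have h1 : P g (ζ + (c - w)) := by
        apply hg
        have h2 : ζ + (c - w) = ζ - w + c := by ring
        rw [h2]; exact hζ
      have h2 := hZ.shift h1
      have h3 : (fun ζ => g (ζ - w + c)) = fun w' => g (w' + (c - w)) := by
        funext ζ; congr 1; ring
      rw [h3]; exact h2)
    (c := w) (hsub (right_mem_segment ℝ _ _)) hwV (by simp only [sub_self, zero_add, hgc])
  have h0U : (0:ℂ) ∈ U := hsub (left_mem_segment ℝ _ _)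
  have htV : t ∈ V := htc
  have hk0 : k 0 = x := by rw [hkf h0U]; exact FF_zero hZ x
  have hfin := mem_DF_of_segment' hZ (isOpen_thickening.union hV) hk (ζ := t) hk0 ?_
  · refine ⟨hfin.1, ?_⟩
    rw [hfin.2, hkg htV]
  · intro ζ hζ
    rw [segment_eq_image] at hζ
    obtain ⟨r, hr, rfl⟩ := hζ
    have e1 : (1 - r) • (0:ℂ) + r • t = (r * κ : ℝ) * w := by
      rw [smul_zero, zero_add, real_smul, htw]; push_cast; ring
    simp only [e1]
    rcases le_or_gt (r * κ) 1 with h1 | h1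
    · left
      apply hsub
      rw [segment_eq_image]
      refine ⟨r * κ, ⟨mul_nonneg hr.1 hκ, h1⟩, ?_⟩
      simp only [smul_zero, zero_add, real_smul]
    · right
      -- between `w` and `t`
      have hκ1 : 1 < κ := by
        by_contra h2
        push Not at h2
        have : r * κ ≤ 1 := by nlinarith [hr.1, hr.2]
        linarith
      have h2 : segment ℝ w t ⊆ V := hVc.segment_subset hwV htV
      apply h2
      rw [segment_eq_image]
      refine ⟨(r * κ - 1) / (κ - 1), ⟨div_nonneg (by linarith) (by linarith), ?_⟩, ?_⟩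
      · rw [div_le_one (by linarith)]
        nlinarith [hr.2]
      · simp only [real_smul, htw]
        have h3 : ((κ : ℂ) - 1) ≠ 0 := by
          have : (κ - 1 : ℝ) ≠ 0 := by linarith
          exact_mod_cast this
        push_cast
        field_simp
        ring

end Vale.Agent.P253.H595
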