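import Vale.Agent.P253.H595.Cfg
import Mathlib.Analysis.Convex.StrictConvexBetween
import Mathlib.Analysis.InnerProductSpace.Convex

/-!
P253: if every orbit is defined on a neighbourhood of `[0, 1]`, and `M` has the Liouville property
and no escaping families of discs, then the complex-time flow is complete.
-/

open scoped Manifold ContDiff Topology
open Set Metric Complex Filter IsManifold Vale.Agent.P253.Mfd

set_option maxSynthPendingDepth 3
set_option linter.unusedSectionVars false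

noncomputable section

namespace Vale.Agent.P253.H595

variable {E : Type*} [NormedAddCommGroup E] [NormedSpace ℂ E] [FiniteDimensional ℂ E]
  {M : Type*} [MetricSpace M] [ChartedSpace E M]
  {P : (ℂ → M) → ℂ → Prop}

variable (P) in
/-- the size of the largest ellipse with foci `0`, `1` on which the orbit of `x` is defined -/
def sE (x : M) : EReal := ⨅ (w : ℂ) (_ : (fw w, x) ∉ DF P), ((|w.im| : ℝ) : EReal)

theorem sE_nonneg (x : M) : 0 ≤ sE P x :=
  le_iInf₂ fun _ _ => EReal.coe_nonneg.2 (abs_nonneg _)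

theorem sE_le {x : M} {w : ℂ} (h : (fw w, x) ∉ DF P) : sE P x ≤ ((|w.im| : ℝ) : EReal) :=
  iInf₂_le (f := fun (w : ℂ) (_ : (fw w, x) ∉ DF P) => ((|w.im| : ℝ) : EReal)) w h

theorem le_sE {x : M} {T : EReal} (h : ∀ w, (fw w, x) ∉ DF P → T ≤ ((|w.im| : ℝ) : EReal)) :
    T ≤ sE P x := le_iInf₂ h

/-- the orbit is defined on the ellipse -/
theorem mem_DF_of_gg {x : M} {T : ℝ} (hT : 0 ≤ T) (h : (T : EReal) ≤ sE P x) {t : ℂ}
    (ht : gg t < Real.cosh T) : (t, x) ∈ DF P := by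
  by_contra hcon
  obtain ⟨w, rfl, -⟩ := exists_fw t
  have h1 := h.trans (sE_le hcon)
  have h2 : T ≤ |w.im| := by exact_mod_cast h1
  rw [gg_fw, Real.cosh_lt_cosh, abs_of_nonneg hT] at ht
  linarith

theorem gg_ge_one (t : ℂ) : 1 ≤ gg t := by
  unfold gg
  have h1 := norm_add_le t (1 - t)
  have h2 : t + (1 - t) = 1 := by ring
  rw [h2, norm_one] at h1
  exact h1

theorem mem_Icc_of_gg {t : ℂ} (h : gg t = 1) : ∃ r ∈ Icc (0:ℝ) 1, t = r := by
  have h1 : dist (0:ℂ) t + dist t 1 = dist (0:ℂ) 1 := by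
    unfold gg at h
    rw [dist_zero_left, dist_comm t 1, dist_eq_norm, dist_zero_left, norm_one]
    exact h
  rw [dist_add_dist_eq_iff] at h1
  obtain ⟨r, hr, hrt⟩ := h1
  refine ⟨r, hr, ?_⟩
  rw [← hrt]
  simp [AffineMap.lineMap_apply]

/-- the infimum is attained -/
theorem exists_obstruction (hI : ∀ (x : M), ∀ t ∈ Icc (0:ℝ) 1, ((t:ℂ), x) ∈ DF P) {x : M} {T : ℝ}
    (hT : sE P x = T) : 0 < T ∧ ∃ w₀ : ℂ, w₀.im = T ∧ (fw w₀, x) ∉ DF P ∧
      ∀ s ∈ Ico (0:ℝ) 1, ((s : ℂ) * fw w₀, x) ∈ DF P := by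
  set C : Set ℂ := {t | (t, x) ∉ DF P} with hC
  have hCc : IsClosed C := (isOpen_slice (P := P) x).isClosed_compl
  have hne : C.Nonempty := by
    by_contra h1
    rw [not_nonempty_iff_eq_empty] at h1
    have h2 : ∀ t : ℂ, (t, x) ∈ DF P := by
      intro t
      by_contra h3
      have : t ∈ C := h3
      rw [h1] at this
      exact this
    have h3 : sE P x = ⊤ := by
      refine top_le_iff.1 (le_sE fun w hw => absurd (h2 _) hw)
    rw [h3] at hT
    exact EReal.coe_ne_top _ hT.symm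
  obtain ⟨t₀, ht₀, hmin⟩ := exists_min_gg hCc hne
  obtain ⟨w₀, hw₀, him⟩ := exists_fw t₀
  have hout : (fw w₀, x) ∉ DF P := by rw [hw₀]; exact ht₀
  have h1 : sE P x = ((|w₀.im| : ℝ) : EReal) := by
    refine le_antisymm (sE_le hout) (le_sE fun w hw => ?_)
    have h2 := hmin (fw w) hw
    rw [← hw₀, gg_fw, gg_fw, Real.cosh_le_cosh] at h2
    exact_mod_cast h2
  have h2 : w₀.im = T := by
    rw [h1, abs_of_nonneg him] at hT
    exact_mod_cast hT
  have hgt : 1 < gg t₀ := by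
    refine lt_of_le_of_ne (gg_ge_one t₀) fun h3 => ?_
    obtain ⟨r, hr, hrt⟩ := mem_Icc_of_gg h3.symm
    exact ht₀ (hrt ▸ hI x r hr)
  have hTpos : 0 < T := by
    rcases him.eq_or_lt with h3 | h3
    · exfalso
      rw [← hw₀, gg_fw, ← h3, Real.cosh_zero] at hgt
      exact lt_irrefl _ hgt
    · rw [← h2]; exact h3
  refine ⟨hTpos, w₀, h2, hout, fun s hs => ?_⟩
  by_contra hcon
  have h3 := hmin _ hcon
  rw [hw₀] at h3
  have h4 : gg ((s:ℂ) * t₀) ≤ s * gg t₀ + (1 - s) := by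
    unfold gg
    have h5 : ‖(s:ℂ) * t₀‖ = s * ‖t₀‖ := by
      rw [norm_mul, norm_real, Real.norm_of_nonneg hs.1]
    have h6 : (1:ℂ) - s * t₀ = s * (1 - t₀) + ((1 - s : ℝ) : ℂ) := by push_cast; ring
    have h7 := norm_add_le ((s:ℂ) * (1 - t₀)) ((1 - s : ℝ) : ℂ)
    rw [← h6, norm_mul, norm_real, norm_real, Real.norm_of_nonneg hs.1,
      Real.norm_of_nonneg (by linarith [hs.2])] at h7
    rw [h5]
    linarith
  nlinarith [hs.1, hs.2]

theorem sE_pos (hI : ∀ (x : M), ∀ t ∈ Icc (0:ℝ) 1, ((t:ℂ), x) ∈ DF P) (x : M) : 0 < sE P x := by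
  refine lt_of_le_of_ne (sE_nonneg x) fun h => ?_
  have h1 : sE P x = ((0:ℝ) : EReal) := by rw [← h]; rfl
  exact lt_irrefl _ (exists_obstruction hI h1).1

theorem lsc_sE (hZ : LocFlow E P) : LowerSemicontinuous (sE P) := by
  intro x y hy
  obtain ⟨t, ht1, ht2⟩ := EReal.lt_iff_exists_real_btwn.1 hy
  rcases lt_or_ge t 0 with h0 | h0
  · refine Eventually.of_forall fun x' => lt_of_lt_of_le ht1 ?_
    refine le_trans ?_ (sE_nonneg x')
    exact_mod_cast h0.le
  obtain ⟨t', ht3, ht4⟩ := EReal.lt_iff_exists_real_btwn.1 ht2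
  have htt : t < t' := by exact_mod_cast ht3
  have h1 : ∀ τ ∈ {τ : ℂ | gg τ ≤ Real.cosh t}, ∀ᶠ z : M × ℂ in 𝓝 (x, τ), (z.2, z.1) ∈ DF P := by
    intro τ hτ
    have h2 : (τ, x) ∈ DF P := by
      refine mem_DF_of_gg (h0.trans htt.le) ht4.le (lt_of_le_of_lt hτ ?_)
      rw [Real.cosh_lt_cosh, abs_of_nonneg h0, abs_of_nonneg (h0.trans htt.le)]
      exact htt
    have h3 : ContinuousAt (fun z : M × ℂ => (z.2, z.1)) (x, τ) := by fun_prop
    exact h3.eventually ((isOpen_DF hZ).mem_nhds h2)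
  have h2 := (isCompact_gg_le (Real.cosh t)).eventually_forall_of_forall_eventually (x₀ := x)
    (P := fun (x' : M) (τ : ℂ) => (τ, x') ∈ DF P) h1
  filter_upwards [h2] with x' hx'
  refine lt_of_lt_of_le ht1 (le_sE fun w hw => ?_)
  by_contra hcon
  rw [not_le] at hcon
  have h3 : |w.im| < t := by exact_mod_cast hcon
  refine hw (hx' _ ?_)
  rw [gg_fw, Real.cosh_le_cosh, abs_of_nonneg h0]
  exact h3.le

theorem usc_neg_sE (hZ : LocFlow E P) : UpperSemicontinuous (fun x => -sE P x) := by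
  intro x y hy
  have h1 : -y < sE P x := EReal.neg_lt_comm.1 hy
  filter_upwards [lsc_sE hZ x (-y) h1] with x' hx'
  exact EReal.neg_lt_comm.1 hx'

theorem neg_sE_nonpos (x : M) : -sE P x ≤ 0 := by
  have h1 := EReal.neg_le_neg_iff.2 (sE_nonneg (P := P) x)
  simpa using h1

variable [IsManifold 𝓘(ℂ, E) 1 M] [IsManifold 𝓘(ℝ, E) ∞ M]

open Vale.Agent.P253.R2.H156 (KP NoTouch)

/-- the negative of the escape function is plurisubharmonic in the viscosity sense -/
theorem noTouch_sE (hKP : KP E M) (hZ : LocFlow E P)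
    (hI : ∀ (x : M), ∀ t ∈ Icc (0:ℝ) 1, ((t:ℂ), x) ∈ DF P) : NoTouch E (fun x => -sE P x) := by
  intro a h T c r hc hr ha hh hT h0 hle
  have hT' : sE P (a 0) = ((-T : ℝ) : EReal) := by
    have := congrArg (fun x : EReal => -x) hT
    simpa using this
  obtain ⟨hTpos, w₀, hw₀, hout, hrad⟩ := exists_obstruction hI hT'
  obtain ⟨G, Φ, c0, c1, U, r', hG, hΦ, hinj, hr', hU, hUr, hc0, hc1, hin, hout', hesc⟩ :=
    exists_config hZ (T := -T) hc hr ha hh h0 hw₀ hTpos hout hrad (fun z hz h1 t ht => by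
      refine mem_DF_of_gg h1 ?_ ht
      have h2 := EReal.neg_le_neg_iff.2 (hle z hz)
      rw [neg_neg] at h2
      refine le_trans (le_of_eq ?_) h2
      rw [← EReal.coe_neg]
      congr 1
      ring)
  exact hKP G Φ c0 c1 U r' hG hΦ hinj hr' hU hUr hc0 hc1 hin hout' hesc

/-- a constant escape function forces completeness -/
theorem DF_eq_univ (hZ : LocFlow E P) (hI : ∀ (x : M), ∀ t ∈ Icc (0:ℝ) 1, ((t:ℂ), x) ∈ DF P)
    {C : EReal} (hC : ∀ x, sE P x = C) : DF P = univ := by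
  rw [eq_univ_iff_forall]
  rintro ⟨ζ, x⟩
  have hCpos : 0 < C := by rw [← hC x]; exact sE_pos hI x
  obtain ⟨T, hT1, hT2⟩ := EReal.lt_iff_exists_real_btwn.1 hCpos
  have hT0 : 0 < T := by exact_mod_cast hT1
  have hcosh : 1 < Real.cosh T := Real.one_lt_cosh.2 hT0.ne'
  have hev : ∀ᶠ t in 𝓝 (0:ℂ), gg t < Real.cosh T := by
    have h1 := continuous_gg.tendsto 0
    have h2 : gg 0 = 1 := by unfold gg; simp
    rw [h2] at h1
    exact h1.eventually (gt_mem_nhds hcosh)
  obtain ⟨δ, hδ, hball⟩ := Metric.eventually_nhds_iff_ball.1 hev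
  have hsmall : ∀ t ∈ ball (0:ℂ) δ, ∀ x' : M, (t, x') ∈ DF P := fun t ht x' =>
    mem_DF_of_gg hT0.le (by rw [hC x']; exact hT2.le) (hball t ht)
  have hstep : ∀ n : ℕ, ∀ t : ℂ, ‖t‖ < (n + 1) * (δ / 2) → (t, x) ∈ DF P := by
    intro n
    induction n with
    | zero =>
      intro t ht
      refine hsmall t ?_ x
      rw [mem_ball_zero_iff]
      push_cast at ht
      linarith
    | succ n ih =>
      intro t ht
      push_cast at ht
      have hn2 : (0:ℝ) < n + 2 := by positivity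
      have hn1 : (0:ℝ) < n + 1 := by positivity
      set w : ℂ := (((n + 1) / (n + 2) : ℝ) : ℂ) * t with hw
      have hwn : ‖w‖ < (n + 1) * (δ / 2) := by
        rw [hw, norm_mul, norm_real, Real.norm_of_nonneg (by positivity), div_mul_eq_mul_div,
          div_lt_iff₀ hn2]
        nlinarith
      have hwD := ih w hwn
      have htw : t - w = ((1 / (n + 2) : ℝ) : ℂ) * t := by
        have h1 : ((n:ℂ) + 2) ≠ 0 := by exact_mod_cast hn2.ne'
        rw [hw]
        push_cast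
        field_simp
        ring
      have h1 := FF_radial hZ (w := w) (t := t) hwD (δ := δ) (g := fun ζ => FF P ζ (FF P w x))
        (fun ζ hζ => FF_int hZ (hsmall ζ hζ _)) (c := 0) (mem_ball_self hδ) (FF_zero hZ _)
        (κ := (n + 2) / (n + 1)) (by positivity)
        (by
          have h1 : ((n:ℂ) + 2) ≠ 0 := by exact_mod_cast hn2.ne'
          have h2 : ((n:ℂ) + 1) ≠ 0 := by exact_mod_cast hn1.ne'
          rw [hw]
          push_cast
          field_simp)
        (by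
          rw [add_zero, mem_ball_zero_iff, htw, norm_mul, norm_real,
            Real.norm_of_nonneg (by positivity), div_mul_eq_mul_div, one_mul, div_lt_iff₀ hn2]
          nlinarith)
      exact h1.1
  obtain ⟨n, hn⟩ := exists_nat_gt (‖ζ‖ / (δ / 2))
  refine hstep n ζ ?_
  rw [div_lt_iff₀ (by positivity)] at hn
  have : (n:ℝ) * (δ / 2) ≤ (n + 1) * (δ / 2) := by gcongr; linarith
  linarith

/-- **completeness**: orbits on a neighbourhood of `[0, 1]` and the two properties of `M` give a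
holomorphic action of `ℂ` -/
theorem complete (hKP : KP E M)
    (hL : ∀ u : M → EReal, UpperSemicontinuous u → (∀ x, u x ≤ 0) → NoTouch E u →
      ∃ C, ∀ x, u x = C) (hZ : LocFlow E P)
    (hI : ∀ (x : M), ∀ t ∈ Icc (0:ℝ) 1, ((t:ℂ), x) ∈ DF P) :
    DF P = univ ∧ (∀ x, FF P 0 x = x) ∧ (∀ s t x, FF P (s + t) x = FF P s (FF P t x)) ∧
      ContMDiff (𝓘(ℂ, ℂ).prod 𝓘(ℂ, E)) 𝓘(ℂ, E) 1 (fun q : ℂ × M => FF P q.1 q.2) := by
  obtain ⟨C, hC⟩ := hL _ (usc_neg_sE hZ) neg_sE_nonpos (noTouch_sE hKP hZ hI)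
  have hD : DF P = univ := DF_eq_univ hZ hI (C := -C) fun x => by rw [← hC x, neg_neg]
  have hm : ∀ q : ℂ × M, q ∈ DF P := fun q => hD ▸ mem_univ q
  refine ⟨hD, FF_zero hZ, fun s t x => ?_, fun q => ?_⟩
  · have h1 := (FF_add hZ (ζ := t) (ζ' := s) (x := x) fun r _ => hm _).2
    rw [h1, add_comm]
  · exact R2.H156.contMDiffAt_prod isOpen_univ (mem_univ q) fun p _ => mdiff_FF hZ (hm p)

end Vale.Agent.P253.H595
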