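import Vale.Agent.P253.H595.Star

/-!
P253: the partial complex-time flow is holomorphic on an open domain, and it diverges at the
first boundary point of the domain on a ray.
-/

open scoped Manifold ContDiff Topology
open Set Metric Complex Filter IsManifold

set_option maxSynthPendingDepth 3
set_option linter.unusedSectionVars false

noncomputable section

namespace Vale.Agent.P253.H595

variable {E : Type*} [NormedAddCommGroup E] [NormedSpace ℂ E] [FiniteDimensional ℂ E]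
  {M : Type*} [MetricSpace M] [ChartedSpace E M]
  {P : (ℂ → M) → ℂ → Prop}

theorem exists_local_FF (hZ : LocFlow E P) (x₀ : M) :
    ∃ δ > 0, ∃ U : Set M, IsOpen U ∧ x₀ ∈ U ∧
      ∀ x ∈ U, ∀ ζ ∈ ball (0:ℂ) δ, (ζ, x) ∈ DF P ∧
        MDifferentiableAt (𝓘(ℂ, ℂ).prod 𝓘(ℂ, E)) 𝓘(ℂ, E) (fun q : ℂ × M => FF P q.1 q.2) (ζ, x) := by
  obtain ⟨δ, hδ, U, hU, hx, H, h0, h1, h2⟩ := hZ.loc x₀
  have hst : ∀ x ∈ U, StarInt P (ball (0:ℂ) δ) (fun w => H w x) x := fun x hx =>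
    ⟨isOpen_ball, (convex_ball 0 δ).starConvex (mem_ball_self hδ), mem_ball_self hδ, h1 x hx,
      h0 x hx⟩
  refine ⟨δ, hδ, U, hU, hx, fun x hx ζ hζ => ⟨(hst x hx).mem_DF hζ, ?_⟩⟩
  refine (h2 x hx ζ hζ).congr_of_eventuallyEq ?_
  filter_upwards [(isOpen_ball (x := (0:ℂ)) (ε := δ)).prod hU |>.mem_nhds
    (show (ζ, x) ∈ ball (0:ℂ) δ ×ˢ U from ⟨hζ, hx⟩)] with q hq
  exact (hst q.2 hq.2).eq hZ hq.1

variable (E P) in
/-- good points: the partial flow is holomorphic near the point -/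
def QF : Set (ℂ × M) :=
  {q | ∀ᶠ p in 𝓝 q, p ∈ DF P ∧
    MDifferentiableAt (𝓘(ℂ, ℂ).prod 𝓘(ℂ, E)) 𝓘(ℂ, E) (fun q : ℂ × M => FF P q.1 q.2) p}

theorem isOpen_QF : IsOpen (QF E P) := isOpen_setOfPred_eventually_nhds

theorem mdiff_FF_of_QF {q : ℂ × M} (hq : q ∈ QF E P) :
    MDifferentiableAt (𝓘(ℂ, ℂ).prod 𝓘(ℂ, E)) 𝓘(ℂ, E) (fun q : ℂ × M => FF P q.1 q.2) q :=
  (Filter.Eventually.self_of_nhds hq).2

theorem zero_mem_QF (hZ : LocFlow E P) (x : M) : ((0:ℂ), x) ∈ QF E P := by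
  obtain ⟨δ, hδ, U, hU, hx, h1⟩ := exists_local_FF hZ x
  change ∀ᶠ p in 𝓝 ((0:ℂ), x), _
  filter_upwards [(isOpen_ball (x := (0:ℂ)) (ε := δ)).prod hU |>.mem_nhds
    (show ((0:ℂ), x) ∈ ball (0:ℂ) δ ×ˢ U from ⟨mem_ball_self hδ, hx⟩)] with q hq
  exact h1 q.2 hq.2 q.1 hq.1

/-- every point of the domain is good -/
theorem DF_subset_QF (hZ : LocFlow E P) : DF P ⊆ QF E P := by
  rintro ⟨ζ, x⟩ hζx
  set Z : Set ℝ := {s | ((s : ℂ) * ζ, x) ∈ QF E P} with hZdef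
  have hZo : IsOpen Z := by
    have hc : Continuous (fun s : ℝ => ((s : ℂ) * ζ, x)) := by fun_prop
    exact isOpen_QF.preimage hc
  have h0Z : (0:ℝ) ∈ Z := by
    simp only [hZdef, mem_ofPred_eq, ofReal_zero, zero_mul]
    exact zero_mem_QF hZ x
  have hseg : ∀ s ∈ Icc (0:ℝ) 1, ((s : ℂ) * ζ, x) ∈ DF P := by
    intro s hs
    have h1 := star_slice (P := P) x hζx (a := 1 - s) (b := s) (by linarith [hs.2]) hs.1 (by ring)
    rw [smul_zero, zero_add, real_smul] at h1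
    exact h1
  have hsub : Icc (0:ℝ) 1 ⊆ Z := by
    refine isPreconnected_Icc.subset_of_closure_inter_subset hZo ⟨0, ⟨le_rfl, zero_le_one⟩, h0Z⟩ ?_
    rintro s₁ ⟨hcl, hs₁⟩
    rcases hs₁.1.eq_or_lt with h0 | hpos
    · rw [← h0]; exact h0Z
    obtain ⟨δ, hδ, U, hU, hyU, hloc⟩ := exists_local_FF hZ (FF P ((s₁ : ℂ) * ζ) x)
    have hfc : ContinuousAt (fun s : ℝ => FF P ((s : ℂ) * ζ) x) s₁ := by
      have h1 : ContinuousAt (fun w => FF P w x) ((s₁ : ℂ) * ζ) :=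
        (hZ.mdiff (FF_int hZ (hseg s₁ hs₁))).continuousAt
      have h2 : ContinuousAt (fun s : ℝ => (s : ℂ) * ζ) s₁ := by fun_prop
      exact ContinuousAt.comp (g := fun w => FF P w x) (f := fun s : ℝ => (s : ℂ) * ζ) h1 h2
    have hev1 : ∀ᶠ s : ℝ in 𝓝 s₁, FF P ((s : ℂ) * ζ) x ∈ U := hfc.eventually (hU.mem_nhds hyU)
    have hev2 : ∀ᶠ s : ℝ in 𝓝 s₁, ((s₁ : ℂ) * ζ - (s : ℂ) * ζ) ∈ ball (0:ℂ) δ := by
      have h1 : Continuous (fun s : ℝ => ((s₁ : ℂ) * ζ - (s : ℂ) * ζ)) := by fun_prop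
      have h2 := h1.tendsto s₁
      simp only [sub_self] at h2
      exact h2.eventually (ball_mem_nhds 0 hδ)
    have hev3 : ∀ᶠ s : ℝ in 𝓝 s₁, 0 < s := lt_mem_nhds hpos
    obtain ⟨s, ⟨⟨h1, h2⟩, h3⟩, hsZ⟩ :=
      mem_closure_iff_nhds.1 hcl _ ((hev1.and hev2).and hev3)
    set κ : ℝ := s / s₁ with hκ
    have hκpos : 0 < κ := div_pos h3 hpos
    have hκs : (κ : ℂ) * ((s₁ : ℂ) * ζ) = (s : ℂ) * ζ := by
      have h4 : (s₁ : ℂ) ≠ 0 := by exact_mod_cast hpos.ne'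
      rw [hκ]
      push_cast
      field_simp
    set N : Set (ℂ × M) := {q | ((κ : ℂ) * q.1, q.2) ∈ QF E P} with hN
    have hNo : IsOpen N := isOpen_QF.preimage (by fun_prop)
    set Ψ : ℂ × M → ℂ × M := fun q => (q.1 - κ * q.1, FF P (κ * q.1) q.2) with hΨ
    have hΨd : ∀ q : ℂ × M, q ∈ N →
        MDifferentiableAt (𝓘(ℂ, ℂ).prod 𝓘(ℂ, E)) (𝓘(ℂ, ℂ).prod 𝓘(ℂ, E)) Ψ q := by
      intro q hq
      have h4 : MDifferentiableAt 𝓘(ℂ, ℂ) 𝓘(ℂ, ℂ) (fun ζ : ℂ => ζ - κ * ζ) q.1 :=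
        (differentiableAt_id.sub (differentiableAt_id.const_mul (κ : ℂ))).mdifferentiableAt
      have h5 : MDifferentiableAt 𝓘(ℂ, ℂ) 𝓘(ℂ, ℂ) (fun ζ : ℂ => κ * ζ) q.1 :=
        (differentiableAt_id.const_mul (κ : ℂ)).mdifferentiableAt
      have h6 : MDifferentiableAt (𝓘(ℂ, ℂ).prod 𝓘(ℂ, E)) (𝓘(ℂ, ℂ).prod 𝓘(ℂ, E))
          (fun q : ℂ × M => ((κ : ℂ) * q.1, q.2)) q :=
        (MDifferentiableAt.comp q (f := Prod.fst) (g := fun ζ : ℂ => (κ : ℂ) * ζ) h5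
          mdifferentiableAt_fst).prodMk mdifferentiableAt_snd
      exact (MDifferentiableAt.comp q (f := Prod.fst) (g := fun ζ : ℂ => ζ - κ * ζ) h4
        mdifferentiableAt_fst).prodMk
        (MDifferentiableAt.comp q (f := fun q : ℂ × M => ((κ : ℂ) * q.1, q.2))
          (g := fun q : ℂ × M => FF P q.1 q.2) (mdiff_FF_of_QF hq) h6)
    have hΨc : ContinuousOn Ψ N := fun q hq => (hΨd q hq).continuousAt.continuousWithinAt
    set R : Set (ℂ × M) := ball (0:ℂ) δ ×ˢ U with hR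
    have hRo : IsOpen R := isOpen_ball.prod hU
    have hGo : IsOpen (N ∩ Ψ ⁻¹' R) := hΨc.isOpen_inter_preimage hNo hRo
    have hmem : ((s₁ : ℂ) * ζ, x) ∈ N ∩ Ψ ⁻¹' R := by
      refine ⟨?_, ?_, ?_⟩
      · simp only [hN, mem_ofPred_eq, hκs]; exact hsZ
      · simp only [hΨ, hκs]; exact h2
      · simp only [hΨ, hκs]; exact h1
    have hDG : ∀ q ∈ N ∩ Ψ ⁻¹' R, q ∈ DF P ∧ FF P q.1 q.2 = FF P (Ψ q).1 (Ψ q).2 := by
      rintro q ⟨hq1, hq2⟩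
      have h4 : ((κ : ℂ) * q.1, q.2) ∈ DF P := (Filter.Eventually.self_of_nhds hq1).1
      have h5 := FF_radial hZ (w := (κ : ℂ) * q.1) (t := q.1) (x := q.2) h4 (δ := δ)
        (g := fun w => FF P w (FF P (κ * q.1) q.2))
        (fun ζ hζ => FF_int hZ (hloc _ hq2.2 ζ hζ).1) (c := 0) (mem_ball_self hδ)
        (FF_zero hZ _) (κ := κ⁻¹) (inv_nonneg.2 hκpos.le)
        (by
          have h6 : (κ : ℂ) ≠ 0 := by exact_mod_cast hκpos.ne'
          push_cast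
          field_simp)
        (by rw [add_zero]; exact hq2.1)
      rw [add_zero] at h5
      exact h5
    change ∀ᶠ p in 𝓝 ((s₁ : ℂ) * ζ, x), _
    filter_upwards [hGo.mem_nhds hmem] with p hp
    refine ⟨(hDG p hp).1, ?_⟩
    have h4 : MDifferentiableAt (𝓘(ℂ, ℂ).prod 𝓘(ℂ, E)) 𝓘(ℂ, E)
        (fun q : ℂ × M => FF P q.1 q.2) (Ψ p) := (hloc _ hp.2.2 _ hp.2.1).2
    refine (MDifferentiableAt.comp p (g := fun q : ℂ × M => FF P q.1 q.2) (f := Ψ) h4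
      (hΨd p hp.1)).congr_of_eventuallyEq ?_
    filter_upwards [hGo.mem_nhds hp] with q hq
    exact (hDG q hq).2
  have h1 := hsub (show (1:ℝ) ∈ Icc (0:ℝ) 1 from ⟨zero_le_one, le_rfl⟩)
  simpa only [hZdef, mem_ofPred_eq, ofReal_one, one_mul] using h1

theorem isOpen_DF (hZ : LocFlow E P) : IsOpen (DF P) := by
  rw [isOpen_iff_mem_nhds]
  intro q hq
  filter_upwards [DF_subset_QF hZ hq] with p hp using hp.1

theorem mdiff_FF (hZ : LocFlow E P) {q : ℂ × M} (hq : q ∈ DF P) :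
    MDifferentiableAt (𝓘(ℂ, ℂ).prod 𝓘(ℂ, E)) 𝓘(ℂ, E) (fun q : ℂ × M => FF P q.1 q.2) q :=
  mdiff_FF_of_QF (DF_subset_QF hZ hq)

theorem mdiff_slice (hZ : LocFlow E P) {ζ : ℂ} {x : M} (h : (ζ, x) ∈ DF P) :
    MDifferentiableAt 𝓘(ℂ, E) 𝓘(ℂ, E) (FF P ζ) x := by
  have h1 := mdiff_FF hZ h
  have h2 : MDifferentiableAt 𝓘(ℂ, E) (𝓘(ℂ, ℂ).prod 𝓘(ℂ, E)) (fun x : M => (ζ, x)) x :=
    mdifferentiableAt_const.prodMk mdifferentiableAt_id
  exact MDifferentiableAt.comp x (g := fun q : ℂ × M => FF P q.1 q.2)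
    (f := fun x : M => (ζ, x)) h1 h2

/-- At the first boundary point of the domain on a ray the flow diverges. -/
theorem tendsto_cocompact (hZ : LocFlow E P) {t₀ : ℂ} {x₀ : M} (h : (t₀, x₀) ∉ DF P)
    (hr : ∀ r ∈ Ico (0:ℝ) 1, ((r : ℂ) * t₀, x₀) ∈ DF P) :
    Tendsto (fun q : ℂ × M => FF P q.1 q.2) (𝓝[DF P] (t₀, x₀)) (cocompact M) := by
  by_contra hcon
  rw [hasBasis_cocompact.tendsto_right_iff] at hcon
  push Not at hcon
  obtain ⟨K, hK, hfr⟩ := hcon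
  have hfr' : ∃ᶠ q in 𝓝[DF P] (t₀, x₀), FF P q.1 q.2 ∈ K := by
    refine hfr.mono fun q hq => ?_
    simpa using hq
  obtain ⟨y, -, hy⟩ := hK.exists_mapClusterPt_of_frequently hfr'
  obtain ⟨δ, hδ, U, hU, hyU, hloc⟩ := exists_local_FF hZ y
  set ε : ℝ := min (1 / 2) (δ / (2 * (‖t₀‖ + 1))) with hε
  have hn : 0 < ‖t₀‖ + 1 := by positivity
  have hε0 : 0 < ε := lt_min (by norm_num) (by positivity)
  have hε1 : ε ≤ 1 / 2 := min_le_left _ _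
  have hεδ : ε * ‖t₀‖ < δ := by
    have h1 : ε ≤ δ / (2 * (‖t₀‖ + 1)) := min_le_right _ _
    rw [le_div_iff₀ (by positivity)] at h1
    nlinarith [norm_nonneg t₀]
  set κ : ℝ := 1 - ε with hκ
  have hκ0 : 0 < κ := by rw [hκ]; linarith
  have hκ1 : κ < 1 := by rw [hκ]; linarith
  set c : ℂ := ((κ : ℂ) - 1) * t₀ with hc
  have hcb : c ∈ ball (0:ℂ) δ := by
    rw [mem_ball_zero_iff, hc]
    have h1 : (κ : ℂ) - 1 = ((-ε : ℝ) : ℂ) := by rw [hκ]; push_cast; ring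
    rw [h1, norm_mul, norm_real, norm_neg, Real.norm_of_nonneg hε0.le]
    exact hεδ
  have hD1 : ((κ : ℂ) * t₀, x₀) ∈ DF P := hr κ ⟨hκ0.le, hκ1⟩
  have hcy : (c, y) ∈ DF P := (hloc y hyU c hcb).1
  obtain ⟨W, hW1, hW2⟩ := mapClusterPt_iff_ultrafilter.1 hy
  have hg1 : Tendsto (fun q : ℂ × M => FF P (κ * q.1) q.2) W (𝓝 (FF P (κ * t₀) x₀)) := by
    have h1 : ContinuousAt (fun q : ℂ × M => FF P q.1 q.2) (κ * t₀, x₀) :=
      (mdiff_FF hZ hD1).continuousAt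
    have h2 : ContinuousAt (fun q : ℂ × M => ((κ : ℂ) * q.1, q.2)) (t₀, x₀) := by fun_prop
    exact (ContinuousAt.comp (g := fun q : ℂ × M => FF P q.1 q.2)
      (f := fun q : ℂ × M => ((κ : ℂ) * q.1, q.2)) h1 h2).tendsto.mono_left
      (hW1.trans nhdsWithin_le_nhds)
  have hg2 : Tendsto (fun q : ℂ × M => FF P (((κ : ℂ) - 1) * q.1) (FF P q.1 q.2)) W
      (𝓝 (FF P c y)) := by
    have h1 : ContinuousAt (fun q : ℂ × M => FF P q.1 q.2) (c, y) :=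
      (mdiff_FF hZ hcy).continuousAt
    have h2 : Tendsto (fun q : ℂ × M => ((κ : ℂ) - 1) * q.1) W (𝓝 c) := by
      have h3 : ContinuousAt (fun q : ℂ × M => ((κ : ℂ) - 1) * q.1) (t₀, x₀) := by fun_prop
      exact h3.tendsto.mono_left (hW1.trans nhdsWithin_le_nhds)
    have h3 : Tendsto (fun q : ℂ × M => (((κ : ℂ) - 1) * q.1, FF P q.1 q.2)) W (𝓝 (c, y)) :=
      h2.prodMk_nhds hW2
    exact h1.tendsto.comp h3
  have hev : (fun q : ℂ × M => FF P (κ * q.1) q.2) =ᶠ[W]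
      (fun q : ℂ × M => FF P (((κ : ℂ) - 1) * q.1) (FF P q.1 q.2)) := by
    have h1 : ∀ᶠ q in (W : Filter (ℂ × M)), q ∈ DF P := hW1 self_mem_nhdsWithin
    filter_upwards [h1] with q hq
    have h2 := (FF_add hZ (ζ := q.1) (ζ' := ((κ : ℂ) - 1) * q.1) (x := q.2) (fun r hr' => by
      have h3 : q.1 + r * (((κ : ℂ) - 1) * q.1) = (((1 - r * (1 - κ)) : ℝ) : ℂ) * q.1 := by
        push_cast; ring
      rw [h3]
      have h4 : 0 ≤ r * (1 - κ) := mul_nonneg hr'.1 (by linarith)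
      have h5 : r * (1 - κ) ≤ 1 := by nlinarith [hr'.2, hr'.1]
      have h6 := star_slice (P := P) q.2 hq (a := r * (1 - κ)) (b := 1 - r * (1 - κ)) h4
        (by linarith) (by ring)
      rw [smul_zero, zero_add, real_smul] at h6
      exact h6)).2
    rw [h2]
    congr 1
    ring
  have heq : FF P c y = FF P (κ * t₀) x₀ := tendsto_nhds_unique (hg2.congr' hev.symm) hg1
  have hfin := FF_radial hZ (w := (κ : ℂ) * t₀) (t := t₀) (x := x₀) hD1 (δ := δ)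
    (g := fun w => FF P w y) (fun ζ hζ => FF_int hZ (hloc y hyU ζ hζ).1) (c := c) hcb heq
    (κ := κ⁻¹) (inv_nonneg.2 hκ0.le)
    (by
      have h6 : (κ : ℂ) ≠ 0 := by exact_mod_cast hκ0.ne'
      push_cast
      field_simp)
    (by
      have h6 : t₀ - κ * t₀ + c = 0 := by rw [hc]; ring
      rw [h6]
      exact mem_ball_self hδ)
  exact h hfin.1

end Vale.Agent.P253.H595
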