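import Vale.Agent.P253.MathlibUsed
import Mathlib.Analysis.SpecialFunctions.Trigonometric.DerivHyp

/-!
P253: the map `w ↦ (1 + cos w) / 2` from strips onto ellipses with foci `0` and `1`.
-/

open scoped Topology
open Set Metric Complex Filter

noncomputable section

namespace Vale.Agent.P253.H595

/-- the map from strips onto ellipses with foci `0`, `1` -/
def fw (w : ℂ) : ℂ := (1 + Complex.cos w) / 2

/-- the sum of the distances to the foci `0` and `1` -/
def gg (t : ℂ) : ℝ := ‖t‖ + ‖1 - t‖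

theorem continuous_gg : Continuous gg := by
  unfold gg; fun_prop

theorem continuous_fw : Continuous fw := by
  unfold fw; fun_prop

theorem hasStrictDerivAt_fw (w : ℂ) : HasStrictDerivAt fw (-Complex.sin w / 2) w := by
  unfold fw
  exact ((Complex.hasStrictDerivAt_cos w).const_add 1).div_const 2

theorem differentiable_fw : Differentiable ℂ fw := fun w =>
  (hasStrictDerivAt_fw w).hasDerivAt.differentiableAt

theorem fw_neg (w : ℂ) : fw (-w) = fw w := by
  unfold fw; rw [Complex.cos_neg]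

theorem gg_fw (w : ℂ) : gg (fw w) = Real.cosh w.im := by
  have e1 : fw w = Complex.cos (w / 2) ^ 2 := by
    unfold fw
    rw [Complex.cos_sq]
    have : 2 * (w / 2) = w := by ring
    rw [this]; ring
  have e2 : 1 - fw w = Complex.sin (w / 2) ^ 2 := by
    rw [e1, Complex.sin_sq]
  have h1 : ∀ u : ℂ, ‖Complex.cos u ^ 2‖ = Real.cos u.re ^ 2 * Real.cosh u.im ^ 2 +
      Real.sin u.re ^ 2 * Real.sinh u.im ^ 2 := by
    intro u
    rw [norm_pow, ← Complex.normSq_eq_norm_sq, Complex.cos_eq, Complex.normSq_apply]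
    simp only [← ofReal_cos, ← ofReal_sin, ← ofReal_cosh, ← ofReal_sinh, sub_re, sub_im, mul_re,
      mul_im, ofReal_re, ofReal_im, I_re, I_im]
    ring
  have h2 : ∀ u : ℂ, ‖Complex.sin u ^ 2‖ = Real.sin u.re ^ 2 * Real.cosh u.im ^ 2 +
      Real.cos u.re ^ 2 * Real.sinh u.im ^ 2 := by
    intro u
    rw [norm_pow, ← Complex.normSq_eq_norm_sq, Complex.sin_eq, Complex.normSq_apply]
    simp only [← ofReal_cos, ← ofReal_sin, ← ofReal_cosh, ← ofReal_sinh, add_re, add_im, mul_re,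
      mul_im, ofReal_re, ofReal_im, I_re, I_im]
    ring
  have h3 : w.im = 2 * (w / 2).im := by
    have : (w / 2).im = w.im / 2 := by simp
    rw [this]; ring
  unfold gg
  rw [e2, e1, h1, h2, h3, Real.cosh_two_mul]
  have h4 := Real.sin_sq_add_cos_sq (w / 2).re
  linear_combination (Real.cosh (w / 2).im ^ 2 + Real.sinh (w / 2).im ^ 2) * h4

theorem exists_fw (t : ℂ) : ∃ w : ℂ, fw w = t ∧ 0 ≤ w.im := by
  obtain ⟨w, hw⟩ := Complex.cos_surjective (2 * t - 1)
  have h1 : fw w = t := by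
    unfold fw; rw [hw]; ring
  rcases le_total 0 w.im with h | h
  · exact ⟨w, h1, h⟩
  · exact ⟨-w, by rw [fw_neg, h1], by rw [neg_im]; linarith⟩

theorem convex_gg (c : ℝ) : Convex ℝ {t : ℂ | gg t < c} := by
  have h1 : ConvexOn ℝ univ (fun t : ℂ => ‖t‖) := convexOn_univ_norm
  have h2 : ConvexOn ℝ univ (fun t : ℂ => ‖1 - t‖) := by
    have h3 := h1.comp_affineMap (AffineMap.const ℝ ℂ (1 : ℂ) - AffineMap.id ℝ ℂ)
    simpa [Function.comp_def] using h3
  have h4 := (h1.add h2).convex_lt c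
  simpa [gg] using h4

/-- closed sets have a point with minimal `gg` -/
theorem exists_min_gg {C : Set ℂ} (hC : IsClosed C) (hne : C.Nonempty) :
    ∃ t ∈ C, ∀ t' ∈ C, gg t ≤ gg t' := by
  obtain ⟨t₁, ht₁⟩ := hne
  have hK : IsCompact (C ∩ closedBall (0 : ℂ) (gg t₁)) :=
    (isCompact_closedBall (0 : ℂ) (gg t₁)).inter_left hC
  have ht₁K : t₁ ∈ C ∩ closedBall (0 : ℂ) (gg t₁) := by
    refine ⟨ht₁, ?_⟩
    rw [mem_closedBall_zero_iff]
    unfold gg
    linarith [norm_nonneg (1 - t₁)]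
  obtain ⟨t, ht, hmin⟩ := hK.exists_isMinOn ⟨t₁, ht₁K⟩ continuous_gg.continuousOn
  refine ⟨t, ht.1, fun t' ht' => ?_⟩
  by_cases h : t' ∈ closedBall (0 : ℂ) (gg t₁)
  · exact hmin ⟨ht', h⟩
  · rw [mem_closedBall_zero_iff, not_le] at h
    have h1 : gg t ≤ gg t₁ := hmin ht₁K
    have h2 : ‖t'‖ ≤ gg t' := by
      unfold gg; linarith [norm_nonneg (1 - t')]
    linarith

theorem isCompact_gg_le (c : ℝ) : IsCompact {t : ℂ | gg t ≤ c} := by
  refine (isCompact_closedBall (0 : ℂ) c).of_isClosed_subset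
    (isClosed_le continuous_gg continuous_const) fun t ht => ?_
  rw [mem_closedBall_zero_iff]
  have h1 : gg t ≤ c := ht
  unfold gg at h1
  linarith [norm_nonneg (1 - t)]

theorem sin_ne_zero_of_im {w : ℂ} (h : 0 < w.im) : Complex.sin w ≠ 0 := by
  rw [Complex.sin_ne_zero_iff]
  intro k hk
  rw [hk] at h
  simp at h

/-- a small step in the direction `- I * fw' w₀` decreases the imaginary part of the parameter -/
theorem exists_step {w₀ : ℂ} (h0 : 0 < w₀.im) :
    ∃ η > (0 : ℝ), ∃ ε > (0 : ℝ), ∀ w : ℂ, ‖w - w₀‖ < ε → ∀ s ∈ Icc (0 : ℝ) 1,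
      ∃ w' : ℂ, fw w' = fw w - s * (η * I * (-Complex.sin w₀ / 2)) ∧
        |w'.im| ≤ w.im - s * (η / 2) := by
  set d : ℂ := -Complex.sin w₀ / 2 with hd
  have hd0 : d ≠ 0 := by
    rw [hd]
    exact div_ne_zero (neg_ne_zero.2 (sin_ne_zero_of_im h0)) two_ne_zero
  have hs : HasStrictDerivAt fw d w₀ := hasStrictDerivAt_fw w₀
  set F : ℂ → ℂ := hs.localInverse fw d w₀ hd0 with hF
  have hFs : HasStrictDerivAt F d⁻¹ (fw w₀) := hs.to_localInverse hd0
  have hFl : ∀ᶠ w in 𝓝 w₀, F (fw w) = w := hs.eventually_left_inverse hd0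
  have hFr : ∀ᶠ t in 𝓝 (fw w₀), fw (F t) = t := hs.eventually_right_inverse hd0
  have hF0 : F (fw w₀) = w₀ := hFl.self_of_nhds
  have hFp : ∀ᶠ t in 𝓝 (fw w₀), 0 < (F t).im := by
    have h1 : ContinuousAt (fun t => (F t).im) (fw w₀) :=
      continuous_im.continuousAt.comp hFs.hasDerivAt.continuousAt
    have h2 := h1.tendsto
    rw [hF0] at h2
    exact h2.eventually (lt_mem_nhds h0)
  have hdn : 0 < ‖d‖ := norm_pos_iff.2 hd0
  have hc : 0 < 1 / (2 * ‖d‖) := by positivity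
  have hbd : ∀ᶠ p : ℂ × ℂ in 𝓝 (fw w₀, fw w₀),
      ‖F p.1 - F p.2 - d⁻¹ * (p.1 - p.2)‖ ≤ 1 / (2 * ‖d‖) * ‖p.1 - p.2‖ := by
    have h1 := hFs.hasStrictFDerivAt.isLittleO.def hc
    filter_upwards [h1] with p hp
    have h2 : (ContinuousLinearMap.toSpanSingleton ℂ d⁻¹) (p.1 - p.2) = d⁻¹ * (p.1 - p.2) := by
      rw [ContinuousLinearMap.toSpanSingleton_apply, smul_eq_mul, mul_comm]
    rw [← h2]
    exact hp
  obtain ⟨r, hr, hball⟩ := Metric.eventually_nhds_iff_ball.1 hbd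
  obtain ⟨r', hr', hball'⟩ := Metric.eventually_nhds_iff_ball.1 (hFr.and hFp)
  set ρ := min r r' with hρ
  have hρ0 : 0 < ρ := lt_min hr hr'
  have hcw : ∀ᶠ w in 𝓝 w₀, ‖fw w - fw w₀‖ < ρ / 2 := by
    have h1 : Tendsto (fun w => ‖fw w - fw w₀‖) (𝓝 w₀) (𝓝 0) := by
      have h2 : Continuous (fun w => ‖fw w - fw w₀‖) := by
        have := continuous_fw
        fun_prop
      have h3 := h2.tendsto w₀
      simpa using h3
    exact h1.eventually (gt_mem_nhds (by positivity))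
  obtain ⟨ε, hε, hbε⟩ := Metric.eventually_nhds_iff_ball.1 (hcw.and hFl)
  refine ⟨ρ / (4 * ‖d‖), by positivity, ε, hε, fun w hw s hs01 => ?_⟩
  set η : ℝ := ρ / (4 * ‖d‖) with hη
  have hη0 : 0 < η := by positivity
  obtain ⟨hw1, hw2⟩ := hbε w (by rw [mem_ball_iff_norm]; exact hw)
  set t : ℂ := fw w - s * (η * I * d) with ht
  have hn : ‖(s : ℂ) * (η * I * d)‖ = s * (η * ‖d‖) := by
    rw [norm_mul, norm_mul, norm_mul, norm_I, norm_real, norm_real, Real.norm_of_nonneg hs01.1,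
      Real.norm_of_nonneg hη0.le, mul_one]
  have hηd : η * ‖d‖ = ρ / 4 := by
    rw [hη]; field_simp
  have hn2 : ‖(s : ℂ) * (η * I * d)‖ ≤ ρ / 4 := by
    rw [hn, hηd]
    nlinarith [hs01.1, hs01.2]
  have htm : ‖t - fw w₀‖ < ρ := by
    have h1 : t - fw w₀ = (fw w - fw w₀) - s * (η * I * d) := by rw [ht]; ring
    rw [h1]
    have h2 := norm_sub_le (fw w - fw w₀) (s * (η * I * d))
    linarith
  have hwm : ‖fw w - fw w₀‖ < ρ := by linarith
  have hb := hball (t, fw w) (by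
    rw [mem_ball_iff_norm, Prod.norm_def, max_lt_iff]
    exact ⟨htm.trans_le (min_le_left _ _), hwm.trans_le (min_le_left _ _)⟩)
  obtain ⟨hr1, hr2⟩ := hball' t (by
    rw [mem_ball_iff_norm]; exact htm.trans_le (min_le_right _ _))
  refine ⟨F t, hr1, ?_⟩
  simp only [hw2] at hb
  have h1 : t - fw w = -(s * (η * I * d)) := by rw [ht]; ring
  rw [h1, norm_neg, hn] at hb
  have h2 : F t - w - d⁻¹ * -(s * (η * I * d)) = F t - w + s * η * I := by
    field_simp
    ring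
  rw [h2] at hb
  have h3 : 1 / (2 * ‖d‖) * (s * (η * ‖d‖)) = s * (η / 2) := by
    field_simp
  rw [h3] at hb
  have h4 : (F t - w + s * η * I).im = (F t).im - w.im + s * η := by simp
  have h5 := (abs_im_le_norm (F t - w + s * η * I)).trans hb
  rw [h4] at h5
  have h6 := (abs_le.1 h5).2
  rw [abs_of_pos hr2]
  linarith

end Vale.Agent.P253.H595
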