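import Vale.Agent.P253.R2.H156.Glob
import Vale.Agent.P253.H595.Dom
import Vale.Agent.P253.H595.Ell

/-!
P253: flow box along a holomorphic disc touching the graph of the ellipse radius.
-/

open scoped Manifold ContDiff Topology
open Set Metric Complex Filter IsManifold Vale.Agent.P253.Mfd

set_option maxSynthPendingDepth 3
set_option linter.unusedSectionVars false

noncomputable section

namespace Vale.Agent.P253.H595

variable {E : Type*} [NormedAddCommGroup E] [NormedSpace ℂ E] [FiniteDimensional ℂ E]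
  {M : Type*} [MetricSpace M] [ChartedSpace E M]
  [IsManifold 𝓘(ℂ, E) 1 M]
  {P : (ℂ → M) → ℂ → Prop}

theorem mdiff_chart {e : OpenPartialHomeomorph M E} (he : e ∈ maximalAtlas 𝓘(ℂ, E) 1 M) {x : M}
    (hx : x ∈ e.source) : MDifferentiableAt 𝓘(ℂ, E) 𝓘(ℂ, E) e x :=
  ((contMDiffOn_of_mem_maximalAtlas he).contMDiffAt
    (e.open_source.mem_nhds hx)).mdifferentiableAt (by simp)

theorem mdiff_chart_symm {e : OpenPartialHomeomorph M E} (he : e ∈ maximalAtlas 𝓘(ℂ, E) 1 M) {z : E}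
    (hz : z ∈ e.target) : MDifferentiableAt 𝓘(ℂ, E) 𝓘(ℂ, E) e.symm z :=
  ((contMDiffOn_symm_of_mem_maximalAtlas he).contMDiffAt
    (e.open_target.mem_nhds hz)).mdifferentiableAt (by simp)

variable (P) in
/-- the flow in a chart -/
def KE (e : OpenPartialHomeomorph M E) (u : ℂ × E) : E := e (FF P u.1 (e.symm u.2))

variable (P) in
/-- the domain of the flow in a chart -/
def KO (e : OpenPartialHomeomorph M E) : Set (ℂ × E) :=
  {u | u.2 ∈ e.target ∧ (u.1, e.symm u.2) ∈ DF P ∧ FF P u.1 (e.symm u.2) ∈ e.source}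

theorem isOpen_KO (hZ : LocFlow E P) {e : OpenPartialHomeomorph M E} : IsOpen (KO P e) := by
  have h1 : ContinuousOn (fun u : ℂ × E => (u.1, e.symm u.2)) {u | u.2 ∈ e.target} :=
    continuousOn_fst.prodMk (e.continuousOn_symm.comp continuousOn_snd fun u hu => hu)
  have h2 : IsOpen ({u : ℂ × E | u.2 ∈ e.target} ∩ (fun u : ℂ × E => (u.1, e.symm u.2)) ⁻¹' DF P) :=
    h1.isOpen_inter_preimage (e.open_target.preimage continuous_snd) (isOpen_DF hZ)
  have h3 : ContinuousOn (fun u : ℂ × E => FF P u.1 (e.symm u.2))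
      ({u : ℂ × E | u.2 ∈ e.target} ∩ (fun u : ℂ × E => (u.1, e.symm u.2)) ⁻¹' DF P) := by
    have h4 : ContinuousOn (fun q : ℂ × M => FF P q.1 q.2) (DF P) := fun q hq =>
      (mdiff_FF hZ hq).continuousAt.continuousWithinAt
    exact h4.comp (h1.mono inter_subset_left) fun u hu => hu.2
  have h5 := h3.isOpen_inter_preimage h2 e.open_source
  have h6 : KO P e = ({u : ℂ × E | u.2 ∈ e.target} ∩
      (fun u : ℂ × E => (u.1, e.symm u.2)) ⁻¹' DF P) ∩
      (fun u : ℂ × E => FF P u.1 (e.symm u.2)) ⁻¹' e.source := by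
    ext u
    simp only [KO, mem_ofPred_eq, mem_inter_iff, mem_preimage, and_assoc]
  rw [h6]
  exact h5

theorem differentiableAt_KE (hZ : LocFlow E P) {e : OpenPartialHomeomorph M E}
    (he : e ∈ maximalAtlas 𝓘(ℂ, E) 1 M) {u : ℂ × E} (hu : u ∈ KO P e) :
    DifferentiableAt ℂ (KE P e) u := by
  have h3 : MDifferentiableAt 𝓘(ℂ, ℂ × E) (𝓘(ℂ, ℂ).prod 𝓘(ℂ, E))
      (fun u : ℂ × E => (u.1, e.symm u.2)) u := by
    refine MDifferentiableAt.prodMk differentiableAt_fst.mdifferentiableAt ?_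
    exact MDifferentiableAt.comp u (g := e.symm) (f := Prod.snd)
      (mdiff_chart_symm he hu.1) differentiableAt_snd.mdifferentiableAt
  have h4 : MDifferentiableAt 𝓘(ℂ, ℂ × E) 𝓘(ℂ, E)
      (fun u : ℂ × E => e (FF P u.1 (e.symm u.2))) u :=
    MDifferentiableAt.comp u (g := e) (f := fun u : ℂ × E => FF P u.1 (e.symm u.2))
      (mdiff_chart he hu.2.2)
      (MDifferentiableAt.comp u (g := fun q : ℂ × M => FF P q.1 q.2)
        (f := fun u : ℂ × E => (u.1, e.symm u.2)) (mdiff_FF hZ hu.2.1) h3)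
  exact h4.differentiableAt

theorem zero_mem_KO (hZ : LocFlow E P) {e : OpenPartialHomeomorph M E} {y : E}
    (hy : y ∈ e.target) : ((0:ℂ), y) ∈ KO P e :=
  ⟨hy, zero_mem_DF hZ _, by simp only [FF_zero hZ]; exact e.map_target hy⟩

variable (P) in
/-- the generator in a chart -/
def vE (e : OpenPartialHomeomorph M E) (y : E) : E := fderiv ℂ (KE P e) (0, y) (1, 0)

theorem continuousOn_vE (hZ : LocFlow E P) {e : OpenPartialHomeomorph M E}
    (he : e ∈ maximalAtlas 𝓘(ℂ, E) 1 M) : ContinuousOn (vE P e) e.target := by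
  have hCE : CompleteSpace E := FiniteDimensional.complete ℂ E
  have h1 : ContDiffOn ℂ ∞ (KE P e) (KO P e) := contDiffOn_of_differentiableOn_complex
    (isOpen_KO hZ) fun u hu => (differentiableAt_KE hZ he hu).differentiableWithinAt
  have h2 : ContinuousOn (fderiv ℂ (KE P e)) (KO P e) :=
    h1.continuousOn_fderiv_of_isOpen (isOpen_KO hZ) (by simp)
  have h3 : ContinuousOn (fun y : E => fderiv ℂ (KE P e) (0, y)) e.target :=
    h2.comp (by fun_prop) fun y hy => zero_mem_KO hZ hy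
  exact h3.clm_apply continuousOn_const

/-- the flow in a chart, at time `0` -/
theorem hasFDerivAt_KE (hZ : LocFlow E P) {e : OpenPartialHomeomorph M E}
    (he : e ∈ maximalAtlas 𝓘(ℂ, E) 1 M) {y : E} (hy : y ∈ e.target) :
    HasFDerivAt (KE P e)
      ((ContinuousLinearMap.smulRight (1 : ℂ →L[ℂ] ℂ) (vE P e y)).coprod
        (ContinuousLinearMap.id ℂ E)) (0, y) := by
  have h5 := (differentiableAt_KE hZ he (zero_mem_KO hZ hy)).hasFDerivAt
  set L := fderiv ℂ (KE P e) (0, y) with hL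
  have e1 : L.comp (ContinuousLinearMap.inl ℂ ℂ E) =
      ContinuousLinearMap.smulRight (1 : ℂ →L[ℂ] ℂ) (vE P e y) := by
    ext
    simp [vE, hL]
  have e2 : L.comp (ContinuousLinearMap.inr ℂ ℂ E) = ContinuousLinearMap.id ℂ E := by
    have h6 : HasFDerivAt (fun w : E => KE P e (0, w))
        (L.comp (ContinuousLinearMap.inr ℂ ℂ E)) y :=
      HasFDerivAt.comp (g := KE P e)
        (f := fun w : E => ((0 : ℂ), w)) y h5 (hasFDerivAt_prodMk_right (0 : ℂ) y)
    refine h6.unique ((hasFDerivAt_id y).congr_of_eventuallyEq ?_)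
    filter_upwards [e.open_target.mem_nhds hy] with w hw
    simp only [KE]
    rw [FF_zero hZ, e.right_inv hw, id]
  have e3 : L = (ContinuousLinearMap.smulRight (1 : ℂ →L[ℂ] ℂ) (vE P e y)).coprod
      (ContinuousLinearMap.id ℂ E) := by
    rw [← e1, ← e2]
    ext u <;> simp
  rwa [e3] at h5

/-- derivative of an orbit in a chart at time `0` -/
theorem hasDerivAt_orbit (hZ : LocFlow E P) {e : OpenPartialHomeomorph M E}
    (he : e ∈ maximalAtlas 𝓘(ℂ, E) 1 M) {x : M} (hx : x ∈ e.source) :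
    HasDerivAt (fun ζ => e (FF P ζ x)) (vE P e (e x)) 0 := by
  have h1 := hasFDerivAt_KE hZ he (e.map_source hx)
  have h2 : HasDerivAt (fun ζ : ℂ => (ζ, e x)) ((1 : ℂ), (0 : E)) 0 :=
    (hasDerivAt_id (0:ℂ)).prodMk (hasDerivAt_const _ _)
  have h3 := HasFDerivAt.comp_hasDerivAt (0:ℂ) (f := fun ζ : ℂ => (ζ, e x)) h1 h2
  simp only [ContinuousLinearMap.coprod_apply, ContinuousLinearMap.smulRight_apply,
    one_apply_eq_self, one_smul, ContinuousLinearMap.id_apply, add_zero] at h3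
  refine h3.congr_of_eventuallyEq (Eventually.of_forall fun ζ => ?_)
  simp only [KE, Function.comp_apply, e.left_inv hx]

/-- at a zero of the generator the orbit is constant, defined for all times -/
theorem all_of_zero (hZ : LocFlow E P) {x₀ : M}
    (h : vE P (chartAt E x₀) (chartAt E x₀ x₀) = 0) (t : ℂ) : (t, x₀) ∈ DF P := by
  have he : chartAt E x₀ ∈ maximalAtlas 𝓘(ℂ, E) 1 M := chart_mem_maximalAtlas x₀
  set e := chartAt E x₀ with hedef
  have hx₀ : x₀ ∈ e.source := mem_chart_source E x₀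
  obtain ⟨δ, hδ, U, hU, hxU, hloc⟩ := exists_local_FF hZ x₀
  have hoc : ContinuousAt (fun ζ : ℂ => FF P ζ x₀) 0 :=
    (hZ.mdiff (FF_int hZ (zero_mem_DF hZ x₀))).continuousAt
  have hev : ∀ᶠ ζ in 𝓝 (0:ℂ), FF P ζ x₀ ∈ e.source := by
    apply hoc.eventually
    apply e.open_source.mem_nhds
    simpa only [FF_zero hZ] using hx₀
  obtain ⟨δ', hδ', hball⟩ := Metric.eventually_nhds_iff_ball.1 (hev.and (ball_mem_nhds (0:ℂ) hδ))
  have hder : ∀ ζ ∈ ball (0:ℂ) δ', HasDerivAt (fun ζ => e (FF P ζ x₀)) 0 ζ := by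
    intro ζ hζ
    obtain ⟨h1, h2⟩ := hball ζ hζ
    have hD : (ζ, x₀) ∈ DF P := (hloc x₀ hxU ζ h2).1
    -- the derivative of `w ↦ e (FF ζ (FF w x₀))`
    have h3 : DifferentiableAt ℂ (fun y => e (FF P ζ (e.symm y))) (e x₀) := by
      have h4 : MDifferentiableAt 𝓘(ℂ, E) 𝓘(ℂ, E) e.symm (e x₀) :=
        mdiff_chart_symm he (e.map_source hx₀)
      have h5 : MDifferentiableAt 𝓘(ℂ, E) 𝓘(ℂ, E) (FF P ζ) (e.symm (e x₀)) := by
        rw [e.left_inv hx₀]; exact mdiff_slice hZ hD
      have h6 : MDifferentiableAt 𝓘(ℂ, E) 𝓘(ℂ, E) e (FF P ζ (e.symm (e x₀))) := by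
        rw [e.left_inv hx₀]; exact mdiff_chart he h1
      exact (h6.comp (e x₀) (h5.comp (e x₀) h4)).differentiableAt
    have h4 := hasDerivAt_orbit hZ he hx₀
    rw [h] at h4
    have h3' : HasFDerivAt (fun y => e (FF P ζ (e.symm y)))
        (fderiv ℂ (fun y => e (FF P ζ (e.symm y))) (e x₀)) ((fun w => e (FF P w x₀)) 0) := by
      simp only [FF_zero hZ]
      exact h3.hasFDerivAt
    have h5 := HasFDerivAt.comp_hasDerivAt (0:ℂ) (f := fun w => e (FF P w x₀)) h3' h4
    rw [map_zero] at h5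
    have h6 : HasDerivAt (fun w => e (FF P (w + ζ) x₀)) 0 0 := by
      refine h5.congr_of_eventuallyEq ?_
      have h7 : ∀ᶠ w in 𝓝 (0:ℂ), w + ζ ∈ ball (0:ℂ) δ := by
        have h8 : ContinuousAt (fun w : ℂ => w + ζ) 0 := by fun_prop
        apply h8.eventually
        simp only [zero_add]
        exact isOpen_ball.mem_nhds h2
      filter_upwards [h7, hev, ball_mem_nhds (0:ℂ) hδ] with w hw hw2 hw3
      simp only [Function.comp_apply, e.left_inv hw2]
      have h8 := (FF_add hZ (ζ := w) (ζ' := ζ) (x := x₀) fun r hr => ?_).2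
      · rw [h8]
      · refine (hloc x₀ hxU _ ?_).1
        have h9 := (convex_ball (0:ℂ) δ) hw3 hw (a := 1 - r) (b := r) (by linarith [hr.2]) hr.1
          (by ring)
        have h10 : (1 - r) • w + r • (w + ζ) = w + r * ζ := by
          simp only [real_smul]; push_cast; ring
        rwa [h10] at h9
    have h7 : HasDerivAt (fun w : ℂ => w - ζ) 1 ζ := (hasDerivAt_id ζ).sub_const ζ
    have h6' : HasDerivAt (fun w => e (FF P (w + ζ) x₀)) 0 (ζ - ζ) := by rwa [sub_self]
    have h8 := HasDerivAt.scomp (h := fun w : ℂ => w - ζ) ζ h6' h7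
    rw [smul_zero] at h8
    refine h8.congr_of_eventuallyEq (Eventually.of_forall fun w => ?_)
    simp only [Function.comp_apply, sub_add_cancel]
  have hconst : ∀ ζ ∈ ball (0:ℂ) δ', FF P ζ x₀ = x₀ := by
    intro ζ hζ
    have h1 : e (FF P ζ x₀) = e (FF P 0 x₀) := by
      refine (convex_ball (0:ℂ) δ').is_const_of_fderivWithin_eq_zero (𝕜 := ℂ)
        (f := fun ζ => e (FF P ζ x₀)) ?_ ?_ hζ (mem_ball_self hδ')
      · exact fun s hs => (hder s hs).differentiableAt.differentiableWithinAt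
      · intro s hs
        rw [fderivWithin_of_isOpen isOpen_ball hs]
        have := (hder s hs).hasFDerivAt.fderiv
        rw [this]
        simp
    rw [FF_zero hZ] at h1
    exact e.injOn (hball ζ hζ).1 hx₀ h1
  have hP0 : P (fun _ => x₀) 0 := by
    refine hZ.congr (FF_int hZ (zero_mem_DF hZ x₀)) ?_
    filter_upwards [ball_mem_nhds (0:ℂ) hδ'] with ζ hζ using (hconst ζ hζ).symm
  have hP : ∀ ζ : ℂ, P (fun _ => x₀) ζ := by
    intro ζ
    have h1 : P (fun _ => x₀) (ζ + -ζ) := by rwa [add_neg_cancel]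
    exact hZ.shift h1
  exact StarInt.mem_DF (U := univ) (f := fun _ => x₀) ⟨isOpen_univ, starConvex_univ 0, mem_univ _,
    fun ζ _ => hP ζ, rfl⟩ (mem_univ t)

end Vale.Agent.P253.H595
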