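import Vale.Agent.P253.Bdl.B2

/-!
P253: the local complex-time flow of a holomorphic vector field on an open set of `E`.
-/

open scoped Manifold ContDiff Topology
open Set Metric Complex Filter IsManifold Vale.Agent.P253.Mfd

set_option maxSynthPendingDepth 3
set_option linter.unusedSectionVars false

noncomputable section

namespace Vale.Agent.P253.H595

variable {E : Type*} [NormedAddCommGroup E] [NormedSpace ℂ E] [FiniteDimensional ℂ E]

/-- a holomorphic field is Lipschitz near every point -/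
theorem exists_lip {V : E → E} {U : Set E} (hU : IsOpen U) (hV : DifferentiableOn ℂ V U) {z₀ : E}
    (hz₀ : z₀ ∈ U) : ∃ r > 0, ball z₀ r ⊆ U ∧ ∃ K : NNReal, LipschitzOnWith K V (ball z₀ r) := by
  have hCE : CompleteSpace E := FiniteDimensional.complete ℂ E
  have hVs : ContDiffAt ℂ 1 V z₀ :=
    ((contDiffOn_of_differentiableOn_complex hU hV).contDiffAt (hU.mem_nhds hz₀)).of_le (by simp)
  obtain ⟨K, t₁, ht₁, hK⟩ := (hVs.restrict_scalars ℝ).exists_lipschitzOnWith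
  obtain ⟨r₀, hr₀, hr₀t⟩ := Metric.mem_nhds_iff.1 (inter_mem ht₁ (hU.mem_nhds hz₀))
  exact ⟨r₀, hr₀, fun z hz => (hr₀t hz).2, K, hK.mono fun z hz => (hr₀t hz).1⟩

/-- ODE uniqueness for multiples of a Lipschitz field -/
theorem ode_unique {V : E → E} {S : Set E} {K : NNReal} (hKL : LipschitzOnWith K V S) {b : ℝ}
    (hb : 0 ≤ b) (η : ℂ) {f g : ℝ → E}
    (h1 : ContinuousOn f (Icc 0 b))
    (h2 : ∀ s ∈ Ico 0 b, HasDerivWithinAt f (η • V (f s)) (Ici s) s) (h3 : ∀ s ∈ Ico 0 b, f s ∈ S)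
    (h4 : ContinuousOn g (Icc 0 b))
    (h5 : ∀ s ∈ Ico 0 b, HasDerivWithinAt g (η • V (g s)) (Ici s) s) (h6 : ∀ s ∈ Ico 0 b, g s ∈ S)
    (h7 : f 0 = g 0) : f b = g b := by
  have hL : LipschitzOnWith (‖η‖₊ * K) (fun y => η • V y) S := by
    refine LipschitzOnWith.of_dist_le_mul fun x hx y hy => ?_
    rw [dist_eq_norm, ← smul_sub, norm_smul, NNReal.coe_mul, coe_nnnorm, mul_assoc]
    refine mul_le_mul_of_nonneg_left ?_ (norm_nonneg _)
    rw [← dist_eq_norm]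
    exact hKL.dist_le_mul x hx y hy
  exact ODE_solution_unique_of_mem_Icc_right (v := fun _ y => η • V y)
    (s := fun _ => S) (K := ‖η‖₊ * K) (fun _ _ => hL) h1 h2 h3 h4 h5 h6 h7 ⟨hb, le_rfl⟩

/-- the local complex-time flow of a holomorphic vector field -/
theorem exists_complex_flow {V : E → E} {U : Set E} (hU : IsOpen U) (hV : DifferentiableOn ℂ V U)
    {z₀ : E} (hz₀ : z₀ ∈ U) :
    ∃ δ > 0, ∃ r' > 0, ball z₀ r' ⊆ U ∧ ∃ Hc : ℂ → E → E,
      DifferentiableOn ℂ (fun q : ℂ × E => Hc q.1 q.2) (ball 0 δ ×ˢ ball z₀ r') ∧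
      (∀ ζ ∈ ball (0:ℂ) δ, ∀ z ∈ ball z₀ r', Hc ζ z ∈ U) ∧
      (∀ z ∈ ball z₀ r', Hc 0 z = z) ∧
      ∀ z ∈ ball z₀ r', ∀ ζ ∈ ball (0:ℂ) δ, HasDerivAt (fun ζ => Hc ζ z) (V (Hc ζ z)) ζ := by
  have hCE : CompleteSpace E := FiniteDimensional.complete ℂ E
  obtain ⟨r₀, hr₀, hr₀U, K, hKL⟩ := exists_lip hU hV hz₀
  have hU' : IsOpen ((univ : Set ℂ) ×ˢ ball z₀ r₀) := isOpen_univ.prod isOpen_ball
  have hv' : DifferentiableOn ℂ (fun q : ℂ × E => ((0 : ℂ), q.1 • V q.2))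
      ((univ : Set ℂ) ×ˢ ball z₀ r₀) := by
    refine DifferentiableOn.prodMk (differentiableOn_const _) ?_
    refine DifferentiableOn.smul differentiableOn_fst ?_
    exact (hV.mono hr₀U).comp differentiableOn_snd (fun q hq => hq.2)
  obtain ⟨ε, hε, ρ', hρ', Y, hball, hY, hYd, -⟩ := exists_holoFlow hU' hv'
    (x₀ := ((0 : ℂ), z₀)) ⟨mem_univ _, mem_ball_self hr₀⟩
  set s₀ : ℝ := ε / 2 with hs₀
  have hs₀pos : 0 < s₀ := by positivity
  have hs₀m : s₀ ∈ Ioo (-ε) ε := ⟨by rw [hs₀]; linarith, by rw [hs₀]; linarith⟩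
  have hprod : ∀ (η : ℂ) (z : E), ‖η‖ < ρ' → z ∈ ball z₀ ρ' → (η, z) ∈ ball ((0 : ℂ), z₀) ρ' := by
    intro η z h1 h2
    rw [Metric.mem_ball, Prod.dist_eq, max_lt_iff]
    exact ⟨by simpa using h1, h2⟩
  have hfst : ∀ q ∈ ball ((0 : ℂ), z₀) ρ', ∀ s ∈ Ioo (-ε) ε, (Y s q).1 = q.1 := by
    intro q hq s hs
    have hd : ∀ s ∈ Ioo (-ε) ε, HasDerivAt (fun s => (Y s q).1) 0 s := fun s hs =>
      ((hY q hq).2 s hs).2.fst
    have h1 := (convex_Ioo (-ε) ε).is_const_of_fderivWithin_eq_zero (𝕜 := ℝ)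
      (f := fun s => (Y s q).1) (fun s hs => (hd s hs).differentiableAt.differentiableWithinAt)
      (fun s hs => by
        rw [fderivWithin_of_isOpen isOpen_Ioo hs]
        have := (hd s hs).hasFDerivAt.fderiv
        rw [this]
        simp) hs (show (0:ℝ) ∈ Ioo (-ε) ε from ⟨by linarith, hε⟩)
    rw [h1, (hY q hq).1]
  have hYder : ∀ (η : ℂ) (z : E), ‖η‖ < ρ' → z ∈ ball z₀ ρ' → ∀ s ∈ Ioo (-ε) ε,
      HasDerivAt (fun s => (Y s (η, z)).2) (η • V ((Y s (η, z)).2)) s := by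
    intro η z h1 h2 s hs
    have h3 := ((hY _ (hprod η z h1 h2)).2 s hs).2.snd
    have h4 := hfst _ (hprod η z h1 h2) s hs
    simp only [h4] at h3
    exact h3
  have hYin : ∀ (η : ℂ) (z : E), ‖η‖ < ρ' → z ∈ ball z₀ ρ' → ∀ s ∈ Ioo (-ε) ε,
      (Y s (η, z)).2 ∈ ball z₀ r₀ := fun η z h1 h2 s hs => (((hY _ (hprod η z h1 h2)).2 s hs).1).2
  -- scaling
  have hA : ∀ (η : ℂ) (z : E), ‖η‖ < ρ' → z ∈ ball z₀ ρ' → ∀ c ∈ Icc (0:ℝ) 1,
      (Y s₀ ((c : ℂ) * η, z)).2 = (Y (c * s₀) (η, z)).2 := by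
    intro η z h1 h2 c hc
    have hcη : ‖(c : ℂ) * η‖ < ρ' := by
      rw [norm_mul, norm_real, Real.norm_of_nonneg hc.1]
      refine lt_of_le_of_lt ?_ h1
      have := norm_nonneg η
      nlinarith [hc.2]
    have hsub : ∀ s ∈ Icc 0 s₀, s ∈ Ioo (-ε) ε := fun s hs =>
      ⟨by linarith [hs.1], hs.2.trans_lt hs₀m.2⟩
    have hsub' : ∀ s ∈ Icc 0 s₀, c * s ∈ Ioo (-ε) ε := fun s hs =>
      ⟨by nlinarith [hs.1, hc.1], by nlinarith [hs.1, hs.2, hc.1, hc.2, hs₀m.2]⟩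
    have hd1 : ∀ s ∈ Icc 0 s₀, HasDerivAt (fun s => (Y s ((c : ℂ) * η, z)).2)
        (((c : ℂ) * η) • V ((Y s ((c : ℂ) * η, z)).2)) s := fun s hs =>
      hYder _ z hcη h2 s (hsub s hs)
    have hd2 : ∀ s ∈ Icc 0 s₀, HasDerivAt (fun s => (Y (c * s) (η, z)).2)
        (((c : ℂ) * η) • V ((Y (c * s) (η, z)).2)) s := by
      intro s hs
      have h3 := hYder η z h1 h2 (c * s) (hsub' s hs)
      have h4 : HasDerivAt (fun s : ℝ => c * s) c s := by
        simpa using (hasDerivAt_id s).const_mul c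
      have h5 := HasDerivAt.scomp (h := fun s : ℝ => c * s) s h3 h4
      have h6 : ((c : ℂ) * η) • V ((Y (c * s) (η, z)).2) =
          c • (η • V ((Y (c * s) (η, z)).2)) := by
        rw [mul_smul]; rfl
      rw [h6]
      exact h5
    exact ode_unique hKL hs₀pos.le ((c : ℂ) * η)
      (f := fun s => (Y s ((c : ℂ) * η, z)).2) (g := fun s => (Y (c * s) (η, z)).2)
      (fun s hs => (hd1 s hs).continuousAt.continuousWithinAt)
      (fun s hs => (hd1 s ⟨hs.1, hs.2.le⟩).hasDerivWithinAt)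
      (fun s hs => hYin _ z hcη h2 s (hsub s ⟨hs.1, hs.2.le⟩))
      (fun s hs => (hd2 s hs).continuousAt.continuousWithinAt)
      (fun s hs => (hd2 s ⟨hs.1, hs.2.le⟩).hasDerivWithinAt)
      (fun s hs => hYin _ z h1 h2 _ (hsub' s ⟨hs.1, hs.2.le⟩))
      (by
        have h3 := (hY _ (hprod _ z hcη h2)).1
        have h4 := (hY _ (hprod _ z h1 h2)).1
        simp only [mul_zero, h3, h4])
  -- the derivative in the parameter
  have hkd : ∀ z ∈ ball z₀ ρ', DifferentiableOn ℂ (fun η : ℂ => (Y s₀ (η, z)).2) (ball 0 ρ') := by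
    intro z hz
    have h1 : DifferentiableOn ℂ (fun η : ℂ => (η, z)) (ball 0 ρ') := by fun_prop
    have h2 := (hYd s₀ hs₀m).comp h1 (fun η hη => hprod η z (by simpa using hη) hz)
    exact h2.snd
  have hB1 : ∀ z ∈ ball z₀ ρ', ∀ η : ℂ, ‖η‖ < ρ' / 2 → η ≠ 0 →
      deriv (fun η : ℂ => (Y s₀ (η, z)).2) η = (s₀ : ℂ) • V ((Y s₀ (η, z)).2) := by
    intro z hz η hη hη0
    have h2η : ‖2 * η‖ < ρ' := by
      rw [norm_mul, Complex.norm_two]; linarith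
    have hη' : η ∈ ball (0:ℂ) ρ' := by rw [mem_ball_zero_iff]; linarith
    have h1 : HasDerivAt (fun η : ℂ => (Y s₀ (η, z)).2) (deriv (fun η : ℂ => (Y s₀ (η, z)).2) η)
        (((1 / 2 : ℝ) : ℂ) * (2 * η)) := by
      have e1 : (((1 / 2 : ℝ) : ℂ) * (2 * η)) = η := by push_cast; ring
      rw [e1]
      exact ((hkd z hz).differentiableAt (isOpen_ball.mem_nhds hη')).hasDerivAt
    have h2 : HasDerivAt (fun c : ℝ => (c : ℂ) * (2 * η)) (2 * η) (1 / 2 : ℝ) := by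
      simpa using ((hasDerivAt_id (1 / 2 : ℝ)).ofReal_comp).mul_const (2 * η)
    have h3 := HasDerivAt.scomp (h := fun c : ℝ => (c : ℂ) * (2 * η)) (1 / 2 : ℝ) h1 h2
    have h4 : HasDerivAt (fun c : ℝ => (Y (c * s₀) (2 * η, z)).2)
        (s₀ • ((2 * η) • V ((Y (1 / 2 * s₀) (2 * η, z)).2))) (1 / 2 : ℝ) := by
      have h5 := hYder (2 * η) z h2η hz (1 / 2 * s₀) ⟨by linarith, by linarith [hs₀m.2]⟩
      have h6 : HasDerivAt (fun c : ℝ => c * s₀) s₀ (1 / 2 : ℝ) := by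
        simpa using (hasDerivAt_id (1 / 2 : ℝ)).mul_const s₀
      exact HasDerivAt.scomp (h := fun c : ℝ => c * s₀) (1 / 2 : ℝ) h5 h6
    have h5 : ((fun η : ℂ => (Y s₀ (η, z)).2) ∘ fun c : ℝ => (c : ℂ) * (2 * η)) =ᶠ[𝓝 (1 / 2 : ℝ)]
        (fun c : ℝ => (Y (c * s₀) (2 * η, z)).2) := by
      filter_upwards [Icc_mem_nhds (show (0:ℝ) < 1 / 2 by norm_num)
        (show (1 / 2 : ℝ) < 1 by norm_num)] with c hc
      exact hA (2 * η) z h2η hz c hc
    have h6 := h3.unique (h4.congr_of_eventuallyEq h5)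
    have h7 := hA (2 * η) z h2η hz (1 / 2) ⟨by norm_num, by norm_num⟩
    have e1 : (((1 / 2 : ℝ) : ℂ) * (2 * η)) = η := by push_cast; ring
    rw [e1] at h7
    rw [← h7] at h6
    have h8 : s₀ • ((2 * η) • V ((Y s₀ (η, z)).2)) = (2 * η) • ((s₀ : ℂ) • V ((Y s₀ (η, z)).2)) := by
      rw [Complex.coe_smul, smul_comm]
    rw [h8] at h6
    exact smul_right_injective E (mul_ne_zero two_ne_zero hη0) h6
  have hB : ∀ z ∈ ball z₀ ρ', ∀ η : ℂ, ‖η‖ < ρ' / 2 →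
      deriv (fun η : ℂ => (Y s₀ (η, z)).2) η = (s₀ : ℂ) • V ((Y s₀ (η, z)).2) := by
    intro z hz η hη
    rcases eq_or_ne η 0 with rfl | hη0
    · have h0 : (0:ℂ) ∈ ball (0:ℂ) ρ' := mem_ball_self hρ'
      have h1 : ContinuousAt (deriv (fun η : ℂ => (Y s₀ (η, z)).2)) 0 :=
        (((hkd z hz).analyticAt (isOpen_ball.mem_nhds h0)).deriv).continuousAt
      have h2 : ContinuousAt (fun η : ℂ => (s₀ : ℂ) • V ((Y s₀ (η, z)).2)) 0 := by
        refine ContinuousAt.const_smul ?_ _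
        have h3 : ContinuousAt (fun η : ℂ => (Y s₀ (η, z)).2) 0 :=
          ((hkd z hz).differentiableAt (isOpen_ball.mem_nhds h0)).continuousAt
        have h4 : ContinuousAt V ((Y s₀ (0, z)).2) :=
          (hV.differentiableAt (hU.mem_nhds (hr₀U
            (hYin 0 z (by simpa using hρ') hz s₀ hs₀m)))).continuousAt
        exact ContinuousAt.comp (g := V) (f := fun η : ℂ => (Y s₀ (η, z)).2) h4 h3
      have h3 : (deriv (fun η : ℂ => (Y s₀ (η, z)).2)) =ᶠ[𝓝[≠] 0]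
          (fun η : ℂ => (s₀ : ℂ) • V ((Y s₀ (η, z)).2)) := by
        have h4 : ∀ᶠ η in 𝓝 (0:ℂ), ‖η‖ < ρ' / 2 := by
          filter_upwards [ball_mem_nhds (0:ℂ) (half_pos hρ')] with η hη
          rwa [mem_ball_zero_iff] at hη
        filter_upwards [h4.filter_mono nhdsWithin_le_nhds, self_mem_nhdsWithin] with η h5 h6
        exact hB1 z hz η h5 h6
      exact tendsto_nhds_unique ((h1.tendsto.mono_left nhdsWithin_le_nhds).congr' h3)
        (h2.tendsto.mono_left nhdsWithin_le_nhds)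
    · exact hB1 z hz η hη hη0
  -- the flow
  set δ : ℝ := s₀ * (ρ' / 2) with hδ
  have hδpos : 0 < δ := by positivity
  set r' : ℝ := min ρ' r₀ with hr'
  have hr'pos : 0 < r' := lt_min hρ' hr₀
  have hr'ρ : r' ≤ ρ' := min_le_left _ _
  have hnorm : ∀ ζ : ℂ, ‖ζ‖ < δ → ‖(s₀⁻¹ : ℂ) * ζ‖ < ρ' / 2 := by
    intro ζ hζ
    rw [norm_mul, norm_inv, norm_real, Real.norm_eq_abs, abs_of_pos hs₀pos]
    calc s₀⁻¹ * ‖ζ‖ < s₀⁻¹ * (s₀ * (ρ' / 2)) := by
          have := inv_pos.2 hs₀pos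
          exact mul_lt_mul_of_pos_left hζ this
      _ = ρ' / 2 := by field_simp
  refine ⟨δ, hδpos, r', hr'pos, fun z hz => hr₀U (ball_subset_ball (min_le_right _ _) hz),
    fun ζ z => (Y s₀ ((s₀⁻¹ : ℂ) * ζ, z)).2, ?_, ?_, ?_, ?_⟩
  · have h1 : DifferentiableOn ℂ (fun q : ℂ × E => ((s₀⁻¹ : ℂ) * q.1, q.2))
        (ball 0 δ ×ˢ ball z₀ r') := by fun_prop
    have h2 := (hYd s₀ hs₀m).comp h1 (fun q hq =>
      hprod _ _ (by linarith [hnorm q.1 (by simpa using hq.1)]) (ball_subset_ball hr'ρ hq.2))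
    exact h2.snd
  · intro ζ hζ z hz
    exact hr₀U (hYin _ z (by linarith [hnorm ζ (by simpa using hζ)]) (ball_subset_ball hr'ρ hz)
      s₀ hs₀m)
  · intro z hz
    have h1 := hA 0 z (by simpa using hρ') (ball_subset_ball hr'ρ hz) 0 ⟨le_rfl, zero_le_one⟩
    have h2 := (hY _ (hprod 0 z (by simpa using hρ') (ball_subset_ball hr'ρ hz))).1
    simp only [mul_zero, zero_mul, h2] at h1
    simp only [mul_zero]
    exact h1
  · intro z hz ζ hζ
    have hζ' := hnorm ζ (by simpa using hζ)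
    have hm : (s₀⁻¹ : ℂ) * ζ ∈ ball (0:ℂ) ρ' := by rw [mem_ball_zero_iff]; linarith
    have h1 := ((hkd z (ball_subset_ball hr'ρ hz)).differentiableAt
      (isOpen_ball.mem_nhds hm)).hasDerivAt
    rw [hB z (ball_subset_ball hr'ρ hz) _ hζ'] at h1
    have h2 : HasDerivAt (fun ζ : ℂ => (s₀⁻¹ : ℂ) * ζ) (s₀⁻¹ : ℂ) ζ := by
      simpa using (hasDerivAt_id ζ).const_mul (s₀⁻¹ : ℂ)
    have h3 := HasDerivAt.scomp (h := fun ζ : ℂ => (s₀⁻¹ : ℂ) * ζ) ζ h1 h2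
    have h4 : (s₀ : ℂ) ≠ 0 := by exact_mod_cast hs₀pos.ne'
    rw [smul_smul, inv_mul_cancel₀ h4, one_smul] at h3
    exact h3

end Vale.Agent.P253.H595
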