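import Vale.Agent.P253.H595.Box

/-!
P253: the escaping family of discs in a flow box.
-/

open scoped Manifold ContDiff Topology
open Set Metric Complex Filter IsManifold Vale.Agent.P253.Mfd

set_option maxSynthPendingDepth 3
set_option linter.unusedSectionVars false

noncomputable section

namespace Vale.Agent.P253.H595

variable {E : Type*} [NormedAddCommGroup E] [NormedSpace ℂ E] [FiniteDimensional ℂ E]
  {M : Type*} [MetricSpace M] [ChartedSpace E M]
  [IsManifold 𝓘(ℂ, E) 1 M]
  {P : (ℂ → M) → ℂ → Prop}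

theorem gg_half : gg (1 / 2) = 1 := by
  unfold gg
  norm_num

/-- A holomorphic disc touching the graph of the escape function gives a family of discs in a flow
box which leaves the domain at one point only. -/
theorem exists_config (hZ : LocFlow E P) {a : ℂ → M} {h : ℂ → ℂ} {T c r : ℝ} (hc : 0 < c)
    (hr : 0 < r) (ha : ∀ z ∈ closedBall (0:ℂ) r, MDifferentiableAt 𝓘(ℂ, ℂ) 𝓘(ℂ, E) a z)
    (hh : ∀ z ∈ closedBall (0:ℂ) r, DifferentiableAt ℂ h z) (h0 : h 0 = 0) {w₀ : ℂ}
    (hw₀ : w₀.im = T) (hTpos : 0 < T) (hout : (fw w₀, a 0) ∉ DF P)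
    (hrad : ∀ s ∈ Ico (0:ℝ) 1, ((s : ℂ) * fw w₀, a 0) ∈ DF P)
    (hle : ∀ z ∈ closedBall (0:ℂ) r, 0 ≤ T - (h z).re + c * ‖z‖ ^ 2 →
      ∀ t, gg t < Real.cosh (T - (h z).re + c * ‖z‖ ^ 2) → (t, a z) ∈ DF P) :
    ∃ (G : Set E) (Φ : E → M) (c0 c1 : ℂ → E) (U : Set ℂ) (r' : ℝ), IsOpen G ∧
      MDifferentiableOn 𝓘(ℂ, E) 𝓘(ℂ, E) Φ G ∧
      (∀ x ∈ G, Function.Injective (mfderiv 𝓘(ℂ, E) 𝓘(ℂ, E) Φ x)) ∧ 0 < r' ∧ IsOpen U ∧
      closedBall 0 r' ⊆ U ∧ DifferentiableOn ℂ c0 U ∧ DifferentiableOn ℂ c1 U ∧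
      (∀ s ∈ Icc (0:ℝ) 1, ∀ z ∈ closedBall (0:ℂ) r', (s, z) ≠ (0, 0) → c0 z + s • c1 z ∈ G) ∧
      c0 0 ∉ G ∧ Tendsto Φ (𝓝[G] (c0 0)) (cocompact M) := by
  set x₀ := a 0 with hx₀def
  have he : chartAt E x₀ ∈ maximalAtlas 𝓘(ℂ, E) 1 M := chart_mem_maximalAtlas x₀
  have hξ0 : vE P (chartAt E x₀) (chartAt E x₀ x₀) ≠ 0 := fun h1 => hout (all_of_zero hZ h1 _)
  set e := chartAt E x₀ with hedef
  have hx₀ : x₀ ∈ e.source := mem_chart_source E x₀
  set z₀ := e x₀ with hz₀
  set ξ := vE P e z₀ with hξdef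
  have hξ : ξ ≠ 0 := hξ0
  obtain ⟨l, hl⟩ := SeparatingDual.exists_eq_one (R := ℂ) hξ
  set p : E → E := fun v => z₀ + (v - l v • ξ) with hp
  set q : E → ℂ × M := fun v => (l v, e.symm (p v)) with hq
  have hcv : ContinuousOn (fun y => l (vE P e y)) e.target :=
    l.continuous.comp_continuousOn (continuousOn_vE hZ he)
  set W : Set E := e.target ∩ (fun y => l (vE P e y)) ⁻¹' {0}ᶜ with hW
  have hWo : IsOpen W := hcv.isOpen_inter_preimage e.open_target isOpen_compl_singleton
  have hz₀W : z₀ ∈ W := by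
    refine ⟨e.map_source hx₀, ?_⟩
    simp only [mem_preimage, mem_compl_iff, mem_singleton_iff]
    rw [← hξdef, hl]; exact one_ne_zero
  have hpc : Continuous p := by fun_prop
  have hpd : Differentiable ℂ p := by
    intro v; fun_prop
  have hpW : IsOpen (p ⁻¹' W) := hWo.preimage hpc
  have hqd : ∀ v, p v ∈ W → MDifferentiableAt 𝓘(ℂ, E) (𝓘(ℂ, ℂ).prod 𝓘(ℂ, E)) q v := by
    intro v hv
    refine MDifferentiableAt.prodMk l.differentiableAt.mdifferentiableAt ?_
    exact MDifferentiableAt.comp v (g := e.symm) (f := p) (mdiff_chart_symm he hv.1)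
      (hpd v).mdifferentiableAt
  have hqc : ContinuousOn q (p ⁻¹' W) := fun v hv => (hqd v hv).continuousAt.continuousWithinAt
  set G : Set E := p ⁻¹' W ∩ q ⁻¹' DF P with hG
  have hGo : IsOpen G := hqc.isOpen_inter_preimage hpW (isOpen_DF hZ)
  set Φ : E → M := fun v => FF P (l v) (e.symm (p v)) with hΦ
  have hΦd : ∀ v ∈ G, MDifferentiableAt 𝓘(ℂ, E) 𝓘(ℂ, E) Φ v := fun v hv =>
    MDifferentiableAt.comp v (g := fun q : ℂ × M => FF P q.1 q.2) (f := q) (mdiff_FF hZ hv.2)
      (hqd v hv.1)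
  -- derivative of the flow near time zero
  have hKp : ∀ v, p v ∈ W → HasFDerivAt
      (fun u : E => e (FF P (-l v + l u) (e.symm (p u))))
      (((ContinuousLinearMap.smulRight (1 : ℂ →L[ℂ] ℂ) (vE P e (p v))).coprod
        (ContinuousLinearMap.id ℂ E)).comp
        (l.prod (ContinuousLinearMap.id ℂ E - ContinuousLinearMap.smulRight l ξ))) v := by
    intro v hv
    have h1 : HasFDerivAt (fun u : E => (-l v + l u, p u))
        (l.prod (ContinuousLinearMap.id ℂ E - ContinuousLinearMap.smulRight l ξ)) v := by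
      refine HasFDerivAt.prodMk (l.hasFDerivAt.const_add _) ?_
      refine HasFDerivAt.const_add _ ?_
      exact (hasFDerivAt_id v).sub (l.hasFDerivAt.smul_const ξ)
    have h2 := hasFDerivAt_KE hZ he hv.1
    have h3 : ((-l v + l v, p v) : ℂ × E) = (0, p v) := by rw [neg_add_cancel]
    rw [← h3] at h2
    exact HasFDerivAt.comp (g := KE P e)
      (f := fun u : E => (-l v + l u, p u)) v h2 h1
  have hKv : ∀ (v : E) (w : E), (((ContinuousLinearMap.smulRight (1 : ℂ →L[ℂ] ℂ)
      (vE P e (p v))).coprod (ContinuousLinearMap.id ℂ E)).comp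
        (l.prod (ContinuousLinearMap.id ℂ E - ContinuousLinearMap.smulRight l ξ))) w =
      l w • vE P e (p v) + (w - l w • ξ) := by
    intro v w
    simp
  -- injectivity of the differential
  have hinj : ∀ v ∈ G, Function.Injective (mfderiv 𝓘(ℂ, E) 𝓘(ℂ, E) Φ v) := by
    intro v hv
    obtain ⟨hback, hbackeq⟩ := FF_neg hZ hv.2
    have hev : (fun u : E => e (FF P (-l v) (Φ u))) =ᶠ[𝓝 v]
        (fun u : E => e (FF P (-l v + l u) (e.symm (p u)))) := by
      have h1 : ∀ s ∈ Icc (0:ℝ) 1, ∀ᶠ up : E × ℝ in 𝓝 (v, s),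
          (l up.1 + up.2 * (-l v), e.symm (p up.1)) ∈ DF P := by
        intro s hs
        have h2 : ContinuousAt (fun up : E × ℝ => (l up.1 + up.2 * (-l v), e.symm (p up.1)))
            (v, s) := by
          refine ContinuousAt.prodMk (by fun_prop) ?_
          have h3 : ContinuousAt e.symm (p v) := e.continuousAt_symm hv.1.1
          exact ContinuousAt.comp (f := fun up : E × ℝ => p up.1) (g := e.symm) h3 (by fun_prop)
        refine h2.eventually ((isOpen_DF hZ).mem_nhds ?_)
        have h4 := star_slice (P := P) _ hv.2 (a := s) (b := 1 - s) hs.1 (by linarith [hs.2])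
          (by ring)
        have h5 : s • (0:ℂ) + (1 - s) • l v = l v + s * (-l v) := by
          rw [smul_zero, zero_add, real_smul]; push_cast; ring
        rw [h5] at h4
        exact h4
      have h2 := isCompact_Icc.eventually_forall_of_forall_eventually (x₀ := v)
        (P := fun (u : E) (s : ℝ) => (l u + s * (-l v), e.symm (p u)) ∈ DF P) h1
      filter_upwards [h2] with u hu
      have h3 := (FF_add hZ (ζ := l u) (ζ' := -l v) (x := e.symm (p u)) hu).2
      simp only [hΦ]
      rw [h3, add_comm]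
    have hd1 := (hKp v hv.1).congr_of_eventuallyEq hev
    have hd2 : MDifferentiableAt 𝓘(ℂ, E) 𝓘(ℂ, E) (fun x => e (FF P (-l v) x)) (Φ v) := by
      refine MDifferentiableAt.comp (Φ v) (g := e) (f := FF P (-l v)) ?_
        (mdiff_slice hZ hback)
      have h1 : FF P (-l v) (Φ v) = e.symm (p v) := hbackeq
      rw [h1]
      exact mdiff_chart he (e.map_target hv.1.1)
    have hd3 := (hd2.hasMFDerivAt.comp v (hΦd v hv).hasMFDerivAt)
    have hd4 : HasMFDerivAt 𝓘(ℂ, E) 𝓘(ℂ, E) (fun u : E => e (FF P (-l v) (Φ u))) v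
        (((ContinuousLinearMap.smulRight (1 : ℂ →L[ℂ] ℂ)
      (vE P e (p v))).coprod (ContinuousLinearMap.id ℂ E)).comp
        (l.prod (ContinuousLinearMap.id ℂ E - ContinuousLinearMap.smulRight l ξ))) :=
      hd1.hasMFDerivAt
    have hd5 := hasMFDerivAt_unique hd3 hd4
    rw [injective_iff_map_eq_zero]
    intro (w : E) hw
    have h1 := congrArg (fun A : E →L[ℂ] E => A w) hd5
    have h2 : l w • vE P e (p v) + (w - l w • ξ) = 0 := by
      refine (hKv v w).symm.trans (Eq.trans h1.symm ?_)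
      change (mfderiv 𝓘(ℂ, E) 𝓘(ℂ, E) (fun x => e (FF P (-l v) x)) (Φ v))
        (mfderiv 𝓘(ℂ, E) 𝓘(ℂ, E) Φ v w) = 0
      rw [hw, map_zero]
    have h3 := congrArg l h2
    simp only [map_add, map_sub, map_smul, hl, smul_eq_mul, mul_one, sub_self, add_zero,
      map_zero] at h3
    have h4 : l w = 0 := by
      rcases mul_eq_zero.1 h3 with h | h
      · exact h
      · exact absurd h hv.1.2
    rw [h4, zero_smul, zero_smul, sub_zero, zero_add] at h2
    exact h2
  -- the local inverse of the flow box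
  have hp0 : p 0 = z₀ := by simp [hp]
  have h0G : (0 : E) ∈ G := by
    refine ⟨?_, ?_⟩
    · rw [mem_preimage, hp0]; exact hz₀W
    · rw [mem_preimage]
      have : q 0 = (0, x₀) := by simp only [hq, hp0, map_zero, hz₀, e.left_inv hx₀]
      rw [this]; exact zero_mem_DF hZ _
  have hΦ0 : Φ 0 = x₀ := by
    simp only [hΦ, hp0, map_zero, hz₀, e.left_inv hx₀]
    exact FF_zero hZ _
  have hΦc : ContinuousOn Φ G := fun v hv => (hΦd v hv).continuousAt.continuousWithinAt
  set O : Set E := G ∩ Φ ⁻¹' e.source with hO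
  have hOo : IsOpen O := hΦc.isOpen_inter_preimage hGo e.open_source
  have h0O : (0 : E) ∈ O := ⟨h0G, by rw [mem_preimage, hΦ0]; exact hx₀⟩
  have hψd : DifferentiableOn ℂ (fun u => e (Φ u)) O := fun u hu =>
    (MDifferentiableAt.comp u (g := e) (f := Φ) (mdiff_chart he hu.2)
      (hΦd u hu.1)).differentiableAt.differentiableWithinAt
  have hψ0 : HasFDerivAt (fun u => e (Φ u)) (ContinuousLinearMap.id ℂ E) 0 := by
    have h1 := hKp 0 (by rw [hp0]; exact hz₀W)
    have h2 : (((ContinuousLinearMap.smulRight (1 : ℂ →L[ℂ] ℂ)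
        (vE P e (p 0))).coprod (ContinuousLinearMap.id ℂ E)).comp
        (l.prod (ContinuousLinearMap.id ℂ E - ContinuousLinearMap.smulRight l ξ))) =
        ContinuousLinearMap.id ℂ E := by
      ext w
      rw [hKv, hp0, ← hξdef]
      simp
    rw [h2] at h1
    refine h1.congr_of_eventuallyEq (Eventually.of_forall fun u => ?_)
    simp only [hΦ, map_zero, neg_zero, zero_add]
  obtain ⟨Ψ, hΨ0, hΨO, hΨe, hΨs⟩ := exists_inverse_chart hOo hψd h0O hψ0
  have hΨ00 : Ψ 0 = z₀ := by rw [hΨe, hΦ0]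
  have hz₀T : z₀ ∈ Ψ.target := by rw [← hΨ00]; exact Ψ.map_source hΨ0
  set b : ℂ → E := fun z => Ψ.symm (e (a z)) with hb
  have hb0 : b 0 = 0 := by
    simp only [hb]
    rw [← hx₀def, ← hz₀, ← hΨ00, Ψ.left_inv hΨ0]
  -- a good neighbourhood of zero
  have hball : closedBall (0:ℂ) r ∈ 𝓝 (0:ℂ) := closedBall_mem_nhds 0 hr
  have h0b : (0:ℂ) ∈ closedBall (0:ℂ) r := mem_closedBall_self hr.le
  have hac : ContinuousAt a 0 := (ha 0 h0b).continuousAt
  have hev1 : ∀ᶠ z in 𝓝 (0:ℂ), a z ∈ e.source := hac.eventually (e.open_source.mem_nhds hx₀)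
  have heac : ContinuousAt (fun z => e (a z)) 0 := (e.continuousAt hx₀).comp hac
  have hev2 : ∀ᶠ z in 𝓝 (0:ℂ), e (a z) ∈ Ψ.target :=
    heac.eventually (Ψ.open_target.mem_nhds hz₀T)
  have hev3 : ∀ᶠ z in 𝓝 (0:ℂ), ‖h z‖ < T / 2 := by
    have h1 : ContinuousAt (fun z => ‖h z‖) 0 := (hh 0 h0b).continuousAt.norm
    have h2 : Tendsto (fun z => ‖h z‖) (𝓝 0) (𝓝 0) := by
      have h3 := h1.tendsto
      rwa [h0, norm_zero] at h3
    exact h2.eventually (gt_mem_nhds (by positivity))
  have hcosh : 1 < Real.cosh (T / 2) := Real.one_lt_cosh.2 (by positivity)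
  have hev4 : ∀ᶠ z in 𝓝 (0:ℂ), gg (-l (b z)) < Real.cosh (T / 2) := by
    have h1 : ContinuousAt b 0 :=
      ContinuousAt.comp (g := Ψ.symm) (f := fun z => e (a z)) (Ψ.continuousAt_symm hz₀T) heac
    have h2 : ContinuousAt (fun z => gg (-l (b z))) 0 := by
      have h3 : ContinuousAt (fun z => -l (b z)) 0 :=
        (ContinuousAt.comp (g := l) (f := b) l.continuous.continuousAt h1).neg
      exact ContinuousAt.comp (g := gg) (f := fun z => -l (b z)) continuous_gg.continuousAt h3
    have h3 : gg (-l (b 0)) = 1 := by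
      rw [hb0, map_zero]
      unfold gg
      simp
    have h4 := h2.tendsto
    rw [h3] at h4
    exact h4.eventually (gt_mem_nhds hcosh)
  obtain ⟨r₁, hr₁, hgood⟩ := Metric.eventually_nhds_iff_ball.1
    ((((hev1.and hev2).and hev3).and (show ∀ᶠ z in 𝓝 (0:ℂ), z ∈ closedBall (0:ℂ) r from hball)).and
      hev4)
  have hbd : ∀ z ∈ ball (0:ℂ) r₁, DifferentiableAt ℂ b z := by
    intro z hz
    obtain ⟨⟨⟨⟨h1, h2⟩, -⟩, h4⟩, -⟩ := hgood z hz
    have h5 : DifferentiableAt ℂ (fun z => e (a z)) z :=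
      (MDifferentiableAt.comp z (g := e) (f := a) (mdiff_chart he h1) (ha z h4)).differentiableAt
    exact DifferentiableAt.comp z (g := Ψ.symm) (f := fun z => e (a z))
      ((hΨs _ h2).differentiableAt (by simp)) h5
  have hbO : ∀ z ∈ ball (0:ℂ) r₁, b z ∈ O ∧ Φ (b z) = a z := by
    intro z hz
    obtain ⟨⟨⟨⟨h1, h2⟩, -⟩, h4⟩, -⟩ := hgood z hz
    have h5 : b z ∈ O := hΨO (Ψ.map_target h2)
    refine ⟨h5, ?_⟩
    have h6 : e (Φ (b z)) = e (a z) := by
      rw [← hΨe]
      exact Ψ.right_inv h2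
    exact e.injOn h5.2 h1 h6
  set m : ℂ → ℂ := fun z => fw (w₀ - I * h z) with hm
  have hmd : ∀ z ∈ ball (0:ℂ) r₁, DifferentiableAt ℂ m z := by
    intro z hz
    have h1 := hh z (hgood z hz).1.2
    have h2 : DifferentiableAt ℂ (fun z => w₀ - I * h z) z :=
      (differentiableAt_const _).sub (h1.const_mul I)
    exact DifferentiableAt.comp z (g := fw) (f := fun z => w₀ - I * h z) (differentiable_fw _) h2
  have hm0 : m 0 = fw w₀ := by simp only [hm, h0, mul_zero, sub_zero]
  refine ⟨G, Φ, fun z => m z • ξ + b z, fun z => ((1 / 2 : ℂ) - m z) • ξ, ball 0 r₁,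
    r₁ / 2, hGo, fun v hv => (hΦd v hv).mdifferentiableWithinAt, hinj, by positivity, isOpen_ball,
    closedBall_subset_ball (by linarith), ?_, ?_, ?_, ?_, ?_⟩
  · intro z hz
    exact (((hmd z hz).smul_const ξ).add (hbd z hz)).differentiableWithinAt
  · intro z hz
    exact (((differentiableAt_const _).sub (hmd z hz)).smul_const ξ).differentiableWithinAt
  · rintro s hs z hz hsz
    have hz' : z ∈ ball (0:ℂ) r₁ := closedBall_subset_ball (by linarith) hz
    obtain ⟨hbz, hΦb⟩ := hbO z hz'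
    obtain ⟨⟨⟨-, h3⟩, h4⟩, h4'⟩ := hgood z hz'
    set v : E := m z • ξ + b z + s • (((1 / 2 : ℂ) - m z) • ξ) with hv
    set μ : ℂ := m z + (s : ℂ) * ((1 / 2 : ℂ) - m z) with hμ
    have hveq : v = μ • ξ + b z := by
      have h5 : s • (((1 / 2 : ℂ) - m z) • ξ) = ((s : ℂ) * ((1 / 2 : ℂ) - m z)) • ξ := by
        rw [mul_smul]; rfl
      rw [hv, h5, hμ, add_smul]
      abel
    have hlv : l v = μ + l (b z) := by
      rw [hveq, map_add, map_smul, hl, smul_eq_mul, mul_one]
    have hpv : p v = p (b z) := by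
      simp only [hp]
      rw [hlv, hveq, add_smul μ (l (b z)) ξ, add_sub_add_left_eq_sub]
    set R : ℝ := T - (h z).re + c * ‖z‖ ^ 2 with hR
    have habs : |(h z).re| < T / 2 := (abs_re_le_norm _).trans_lt h3
    have hre := abs_lt.1 habs
    have hz0 : 0 ≤ c * ‖z‖ ^ 2 := by positivity
    have hRT : T / 2 < R := by rw [hR]; linarith [hre.2]
    have hggm : gg (m z) = Real.cosh (T - (h z).re) := by
      simp only [hm]
      rw [gg_fw]
      congr 1
      rw [sub_im, hw₀]
      simp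
    have hggμ : gg μ ≤ (1 - s) * Real.cosh (T - (h z).re) + s := by
      have h5 : ConvexOn ℝ univ gg := by
        have h1 : ConvexOn ℝ univ (fun t : ℂ => ‖t‖) := convexOn_univ_norm
        have h2 : ConvexOn ℝ univ (fun t : ℂ => ‖1 - t‖) := by
          have h3 := h1.comp_affineMap (AffineMap.const ℝ ℂ (1 : ℂ) - AffineMap.id ℝ ℂ)
          simpa [Function.comp_def] using h3
        exact h1.add h2
      obtain ⟨-, h5c⟩ := h5
      have h6 := h5c (mem_univ (m z)) (mem_univ (1 / 2 : ℂ)) (a := 1 - s) (b := s)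
        (by linarith [hs.2]) hs.1 (by ring)
      have h7 : (1 - s) • m z + s • (1 / 2 : ℂ) = μ := by
        rw [hμ]; simp only [real_smul]; push_cast; ring
      rw [h7, gg_half, hggm, smul_eq_mul, smul_eq_mul, mul_one] at h6
      exact h6
    have hTh : 0 < T - (h z).re := by linarith [hre.2]
    have hggμ2 : gg μ < Real.cosh R := by
      rcases hs.1.eq_or_lt with h5 | h5
      · have hzne : z ≠ 0 := by
          rintro rfl
          exact hsz (by rw [← h5])
        have h6 : 0 < c * ‖z‖ ^ 2 := by positivity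
        have h7 : Real.cosh (T - (h z).re) < Real.cosh R := by
          rw [Real.cosh_lt_cosh, abs_of_pos hTh, abs_of_pos (by linarith), hR]
          linarith
        rw [← h5] at hggμ
        linarith
      · have h6 : 1 < Real.cosh (T - (h z).re) := Real.one_lt_cosh.2 hTh.ne'
        have h7 : Real.cosh (T - (h z).re) ≤ Real.cosh R := by
          rw [Real.cosh_le_cosh, abs_of_pos hTh, abs_of_pos (by linarith), hR]
          linarith
        nlinarith
    have hgb : gg (-l (b z)) < Real.cosh R := by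
      have h7 : Real.cosh (T / 2) ≤ Real.cosh R := by
        rw [Real.cosh_le_cosh, abs_of_pos (by positivity), abs_of_pos (by linarith)]
        linarith
      linarith
    refine ⟨?_, ?_⟩
    · rw [mem_preimage, hpv]; exact hbz.1.1
    · rw [mem_preimage]
      have h5 : q v = (μ + l (b z), e.symm (p (b z))) := by simp only [hq, hlv, hpv]
      rw [h5]
      have h6 : FF P (l (b z)) (e.symm (p (b z))) = a z := hΦb
      have h7 : (l (b z), e.symm (p (b z))) ∈ DF P := hbz.1.2
      obtain ⟨h8, h9⟩ := FF_neg hZ h7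
      rw [h6] at h8 h9
      have h10 := (FF_add hZ (ζ := -l (b z)) (ζ' := μ + l (b z)) (x := a z) fun s' hs' => ?_).1
      · rw [h9] at h10
        exact h10
      · refine hle z h4 (by linarith) _ ?_
        have h11 := (convex_gg (Real.cosh R)) (show -l (b z) ∈ _ from hgb)
          (show μ ∈ _ from hggμ2) (a := 1 - s') (b := s') (by linarith [hs'.2]) hs'.1 (by ring)
        have h12 : (1 - s') • -l (b z) + s' • μ = -l (b z) + s' * (μ + l (b z)) := by
          simp only [real_smul]; push_cast; ring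
        rw [h12] at h11
        exact h11
  all_goals
    have hc00 : m 0 • ξ + b 0 = fw w₀ • ξ := by rw [hm0, hb0, add_zero]
    have hl0 : l (fw w₀ • ξ) = fw w₀ := by rw [map_smul, hl, smul_eq_mul, mul_one]
    have hp0' : p (fw w₀ • ξ) = z₀ := by simp only [hp, hl0, sub_self, add_zero]
    have hq0 : q (fw w₀ • ξ) = (fw w₀, x₀) := by
      simp only [hq, hl0, hp0', hz₀, e.left_inv hx₀]
    simp only [hc00]
  · intro hG0
    have h1 := hG0.2
    rw [mem_preimage, hq0] at h1
    exact hout h1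
  · have h1 : Tendsto q (𝓝[G] (fw w₀ • ξ)) (𝓝[DF P] (fw w₀, x₀)) := by
      refine tendsto_nhdsWithin_of_tendsto_nhds_of_eventually_within _ ?_ ?_
      · have h2 : ContinuousAt q (fw w₀ • ξ) := (hqd _ (by rw [hp0']; exact hz₀W)).continuousAt
        have h3 := h2.tendsto
        rw [hq0] at h3
        exact h3.mono_left nhdsWithin_le_nhds
      · filter_upwards [self_mem_nhdsWithin] with v hv using hv.2
    exact (tendsto_cocompact hZ hout hrad).comp h1

end Vale.Agent.P253.H595
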