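import Vale.Agent.P253.H595.CFlow
import Vale.Agent.P253.H595.Box

/-!
P253: holomorphic vector fields on a complex manifold: integral curves in complex time.
-/

open scoped Manifold ContDiff Topology
open Set Metric Complex Filter IsManifold Vale.Agent.P253.Mfd

set_option maxSynthPendingDepth 3
set_option linter.unusedSectionVars false

noncomputable section

namespace Vale.Agent.P253.H595

variable {E : Type*} [NormedAddCommGroup E] [NormedSpace ℂ E]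
  {M : Type*} [TopologicalSpace M] [ChartedSpace E M]

/-- the components of the vector field `Z` in the chart `e`, at the point `x` -/
def comps (Z : (x : M) → TangentSpace 𝓘(ℂ, E) x) (e : OpenPartialHomeomorph M E) (x : M) : E :=
  mfderiv 𝓘(ℂ, E) 𝓘(ℂ, E) e x (Z x)

/-- `Z` is a holomorphic vector field: its components in every holomorphic chart are holomorphic
functions of the coordinates -/
def IsHolField (Z : (x : M) → TangentSpace 𝓘(ℂ, E) x) : Prop :=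
  ∀ e ∈ maximalAtlas 𝓘(ℂ, E) 1 M, DifferentiableOn ℂ (fun z : E => comps Z e (e.symm z)) e.target

/-- `f` is at `ζ` an integral curve in complex time of the vector field `Z` -/
def IntAt (Z : (x : M) → TangentSpace 𝓘(ℂ, E) x) (f : ℂ → M) (ζ : ℂ) : Prop :=
  HasMFDerivAt 𝓘(ℂ, ℂ) 𝓘(ℂ, E) f ζ ((1 : ℂ →L[ℂ] ℂ).smulRight (Z (f ζ)))

variable {Z : (x : M) → TangentSpace 𝓘(ℂ, E) x}

theorem IntAt.congr {f g : ℂ → M} {ζ : ℂ} (h : IntAt Z f ζ) (hg : g =ᶠ[𝓝 ζ] f) :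
    IntAt Z g ζ := by
  have h1 : g ζ = f ζ := hg.self_of_nhds
  have h2 := HasMFDerivAt.congr_of_eventuallyEq h hg
  unfold IntAt
  rw [h1]
  exact h2

theorem IntAt.shift {f : ℂ → M} {ζ c : ℂ} (h : IntAt Z f (ζ + c)) :
    IntAt Z (fun w => f (w + c)) ζ := by
  have h1 : HasMFDerivAt 𝓘(ℂ, ℂ) 𝓘(ℂ, ℂ) (fun w : ℂ => w + c) ζ (1 : ℂ →L[ℂ] ℂ) := by
    have h2 : HasFDerivAt (fun w : ℂ => w + c) (1 : ℂ →L[ℂ] ℂ) ζ :=
      (hasFDerivAt_id ζ).add_const c
    exact h2.hasMFDerivAt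
  have h2 := HasMFDerivAt.comp ζ (g := f) (f := fun w : ℂ => w + c) h h1
  exact h2

variable [IsManifold 𝓘(ℂ, E) 1 M]

theorem mdiff_of_mem {e : OpenPartialHomeomorph M E} (he : e ∈ maximalAtlas 𝓘(ℂ, E) 1 M) {x : M}
    (hx : x ∈ e.source) : MDifferentiableAt 𝓘(ℂ, E) 𝓘(ℂ, E) e x :=
  ((contMDiffOn_of_mem_maximalAtlas he).contMDiffAt
    (e.open_source.mem_nhds hx)).mdifferentiableAt (by simp)

theorem mdiff_symm_of_mem {e : OpenPartialHomeomorph M E} (he : e ∈ maximalAtlas 𝓘(ℂ, E) 1 M)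
    {z : E} (hz : z ∈ e.target) : MDifferentiableAt 𝓘(ℂ, E) 𝓘(ℂ, E) e.symm z :=
  ((contMDiffOn_symm_of_mem_maximalAtlas he).contMDiffAt
    (e.open_target.mem_nhds hz)).mdifferentiableAt (by simp)

/-- an integral curve in a chart -/
theorem IntAt.hasDerivAt {e : OpenPartialHomeomorph M E} (he : e ∈ maximalAtlas 𝓘(ℂ, E) 1 M)
    {f : ℂ → M} {ζ : ℂ} (h : IntAt Z f ζ) (hs : f ζ ∈ e.source) :
    HasDerivAt (fun w => e (f w)) (comps Z e (f ζ)) ζ := by
  have h1 := (mdiff_of_mem he hs).hasMFDerivAt.comp ζ h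
  let L : ℂ →L[ℂ] E := (mfderiv 𝓘(ℂ, E) 𝓘(ℂ, E) e (f ζ)).comp
      ((1 : ℂ →L[ℂ] ℂ).smulRight (Z (f ζ)))
  have h2 : HasFDerivAt (fun w => e (f w)) L ζ := hasMFDerivAt_iff_hasFDerivAt.1 h1
  have h3 : L 1 = comps Z e (f ζ) := by
    change mfderiv 𝓘(ℂ, E) 𝓘(ℂ, E) e (f ζ) ((1 : ℂ) • Z (f ζ)) = _
    rw [one_smul]
    rfl
  rw [← h3]
  exact h2.hasDerivAt

theorem mfderiv_symm_comps {e : OpenPartialHomeomorph M E} (he : e ∈ maximalAtlas 𝓘(ℂ, E) 1 M)
    {x : M} (hx : x ∈ e.source) :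
    (mfderiv 𝓘(ℂ, E) 𝓘(ℂ, E) e.symm (e x) : E → E) (comps (E := E) Z e x) = (Z x : E) := by
  have h1 := (mdiff_symm_of_mem he (e.map_source hx)).hasMFDerivAt.comp x
    (mdiff_of_mem he hx).hasMFDerivAt
  have h2 : (e.symm ∘ e) =ᶠ[𝓝 x] (id : M → M) := by
    filter_upwards [e.open_source.mem_nhds hx] with y hy using e.left_inv hy
  have h3 := (hasMFDerivAt_id (I := 𝓘(ℂ, E)) x).congr_of_eventuallyEq h2
  have h4 := hasMFDerivAt_unique h1 h3
  exact congrArg (fun L : E →L[ℂ] E => L (Z x)) h4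

/-- a curve which is an integral curve in a chart -/
theorem intAt_of_hasDerivAt {e : OpenPartialHomeomorph M E} (he : e ∈ maximalAtlas 𝓘(ℂ, E) 1 M)
    {y : ℂ → E} {ζ : ℂ} (hs : y ζ ∈ e.target)
    (h : HasDerivAt y (comps Z e (e.symm (y ζ))) ζ) : IntAt Z (fun w => e.symm (y w)) ζ := by
  have h1 : HasMFDerivAt 𝓘(ℂ, ℂ) 𝓘(ℂ, E) y ζ
      ((1 : ℂ →L[ℂ] ℂ).smulRight (comps (E := E) Z e (e.symm (y ζ)))) := h.hasFDerivAt.hasMFDerivAt
  have h2 := (mdiff_symm_of_mem he hs).hasMFDerivAt.comp ζ h1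
  have h4 := mfderiv_symm_comps (Z := Z) he (e.map_target hs)
  rw [e.right_inv hs] at h4
  let T : E →L[ℂ] E := mfderiv 𝓘(ℂ, E) 𝓘(ℂ, E) e.symm (y ζ)
  have h3 : T.comp ((1 : ℂ →L[ℂ] ℂ).smulRight (comps Z e (e.symm (y ζ)))) =
      (1 : ℂ →L[ℂ] ℂ).smulRight (Z (e.symm (y ζ)) : E) := by
    ext
    change T ((1 : ℂ) • comps Z e (e.symm (y ζ))) = (1 : ℂ) • (Z (e.symm (y ζ)) : E)
    rw [one_smul, one_smul]
    exact h4
  exact h2.congr_mfderiv h3

variable [FiniteDimensional ℂ E]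

/-- local uniqueness of integral curves -/
theorem IntAt.uniq {M : Type*} [MetricSpace M] [ChartedSpace E M] [IsManifold 𝓘(ℂ, E) 1 M]
    {Z : (x : M) → TangentSpace 𝓘(ℂ, E) x} (hZ : IsHolField Z) {f g : ℂ → M} {c : ℂ}
    (hf : ∀ᶠ ζ in 𝓝 c, IntAt Z f ζ) (hg : ∀ᶠ ζ in 𝓝 c, IntAt Z g ζ) (h : f c = g c) :
    f =ᶠ[𝓝 c] g := by
  have he : chartAt E (f c) ∈ maximalAtlas 𝓘(ℂ, E) 1 M := chart_mem_maximalAtlas (f c)
  set e := chartAt E (f c) with hedef
  have hsf : f c ∈ e.source := mem_chart_source E (f c)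
  have hsg : g c ∈ e.source := h ▸ hsf
  obtain ⟨r, hr, hrU, K, hK⟩ := exists_lip e.open_target (hZ e he) (e.map_source hsf)
  have key : ∀ {k : ℂ → M}, (∀ᶠ ζ in 𝓝 c, IntAt Z k ζ) → k c = f c →
      ∀ᶠ ζ in 𝓝 c, k ζ ∈ e.source ∧ e (k ζ) ∈ ball (e (f c)) r ∧
        HasDerivAt (fun w => e (k w)) ((fun z : E => comps Z e (e.symm z)) (e (k ζ))) ζ := by
    intro k hk hkc
    have hks : k c ∈ e.source := hkc ▸ hsf
    have hkcont : ContinuousAt k c := hk.self_of_nhds.mdifferentiableAt.continuousAt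
    have h1 : ∀ᶠ ζ in 𝓝 c, k ζ ∈ e.source := hkcont.eventually (e.open_source.mem_nhds hks)
    have h2 : ∀ᶠ ζ in 𝓝 c, e (k ζ) ∈ ball (e (f c)) r := by
      have h3 : ContinuousAt (fun ζ => e (k ζ)) c :=
        ContinuousAt.comp (g := e) (f := k) (e.continuousAt hks) hkcont
      refine h3.eventually ?_
      change ball (e (f c)) r ∈ 𝓝 (e (k c))
      rw [hkc]
      exact ball_mem_nhds _ hr
    filter_upwards [hk, h1, h2] with ζ h3 h4 h5
    refine ⟨h4, h5, ?_⟩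
    have h6 := h3.hasDerivAt he h4
    simp only [e.left_inv h4]
    exact h6
  obtain ⟨δ, hδ, hball⟩ := Metric.eventually_nhds_iff_ball.1 ((key hf rfl).and (key hg h.symm))
  filter_upwards [ball_mem_nhds c hδ] with ζ hζ
  -- along the segment from `c` to `ζ`
  have hseg : ∀ s ∈ Icc (0:ℝ) 1, c + s * (ζ - c) ∈ ball c δ := by
    intro s hs
    have h1 := (convex_ball c δ) (mem_ball_self hδ) hζ (a := 1 - s) (b := s) (by linarith [hs.2])
      hs.1 (by ring)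
    have h2 : (1 - s) • c + s • ζ = c + s * (ζ - c) := by
      simp only [real_smul]; push_cast; ring
    rwa [h2] at h1
  have hd : ∀ {k : ℂ → M}, (∀ w ∈ ball c δ, k w ∈ e.source ∧ e (k w) ∈ ball (e (f c)) r ∧
      HasDerivAt (fun w => e (k w)) ((fun z : E => comps Z e (e.symm z)) (e (k w))) w) →
      ∀ s ∈ Icc (0:ℝ) 1, HasDerivAt (fun s : ℝ => e (k (c + s * (ζ - c))))
        ((ζ - c) • (fun z : E => comps Z e (e.symm z)) (e (k (c + s * (ζ - c))))) s := by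
    intro k hk s hs
    have h1 := (hk _ (hseg s hs)).2.2
    have h2 : HasDerivAt (fun s : ℝ => c + (s : ℂ) * (ζ - c)) (ζ - c) s := by
      simpa using (((hasDerivAt_id s).ofReal_comp).mul_const (ζ - c)).const_add c
    exact HasDerivAt.scomp (h := fun s : ℝ => c + (s : ℂ) * (ζ - c)) s h1 h2
  have hfd := hd (k := f) fun w hw => (hball w hw).1
  have hgd := hd (k := g) fun w hw => (hball w hw).2
  have h1 := ode_unique hK zero_le_one (ζ - c)
    (f := fun s : ℝ => e (f (c + s * (ζ - c)))) (g := fun s : ℝ => e (g (c + s * (ζ - c))))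
    (fun s hs => (hfd s hs).continuousAt.continuousWithinAt)
    (fun s hs => (hfd s ⟨hs.1, hs.2.le⟩).hasDerivWithinAt)
    (fun s hs => (hball _ (hseg s ⟨hs.1, hs.2.le⟩)).1.2.1)
    (fun s hs => (hgd s hs).continuousAt.continuousWithinAt)
    (fun s hs => (hgd s ⟨hs.1, hs.2.le⟩).hasDerivWithinAt)
    (fun s hs => (hball _ (hseg s ⟨hs.1, hs.2.le⟩)).2.2.1)
    (by simp only [ofReal_zero, zero_mul, add_zero, h])
  have e1 : c + ((1:ℝ) : ℂ) * (ζ - c) = ζ := by push_cast; ring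
  simp only [e1] at h1
  exact e.injOn (hball ζ hζ).1.1 (hball ζ hζ).2.1 h1

/-- the local complex flow of a holomorphic vector field -/
theorem locFlow_of_field {M : Type*} [MetricSpace M] [ChartedSpace E M] [IsManifold 𝓘(ℂ, E) 1 M]
    {Z : (x : M) → TangentSpace 𝓘(ℂ, E) x} (hZ : IsHolField Z) : LocFlow E (IntAt Z) where
  mdiff h := h.mdifferentiableAt
  congr h hg := h.congr hg
  shift h := h.shift
  uniq _ _ _ hf hg h := IntAt.uniq hZ hf hg h
  loc x₀ := by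
    have he : chartAt E x₀ ∈ maximalAtlas 𝓘(ℂ, E) 1 M := chart_mem_maximalAtlas x₀
    set e := chartAt E x₀ with hedef
    have hx₀ : x₀ ∈ e.source := mem_chart_source E x₀
    obtain ⟨δ, hδ, r, hr, hrU, Hc, hd, hin, h0, hder⟩ :=
      exists_complex_flow e.open_target (hZ e he) (e.map_source hx₀)
    set U := e.source ∩ e ⁻¹' (ball (e x₀) r) with hU
    have hUo : IsOpen U := e.continuousOn.isOpen_inter_preimage e.open_source isOpen_ball
    refine ⟨δ, hδ, U, hUo, ⟨hx₀, mem_ball_self hr⟩, fun ζ x => e.symm (Hc ζ (e x)), ?_, ?_, ?_⟩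
    · intro x hx
      simp only [h0 (e x) hx.2]
      exact e.left_inv hx.1
    · intro x hx ζ hζ
      exact intAt_of_hasDerivAt he (hin ζ hζ _ hx.2) (hder _ hx.2 ζ hζ)
    · intro x hx ζ hζ
      have h1 : DifferentiableAt ℂ (fun q : ℂ × E => Hc q.1 q.2) (ζ, e x) :=
        (hd (ζ, e x) ⟨hζ, hx.2⟩).differentiableAt ((isOpen_ball.prod isOpen_ball).mem_nhds ⟨hζ, hx.2⟩)
      have h2 : MDifferentiableAt (𝓘(ℂ, ℂ).prod 𝓘(ℂ, E)) 𝓘(ℂ, ℂ × E)
          (fun q : ℂ × M => (q.1, e q.2)) (ζ, x) :=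
        mdifferentiableAt_fst.prodMk_space
          (MDifferentiableAt.comp (ζ, x) (f := Prod.snd) (g := e) (mdiff_of_mem he hx.1)
            mdifferentiableAt_snd)
      have h3 : MDifferentiableAt 𝓘(ℂ, ℂ × E) 𝓘(ℂ, E) (fun q : ℂ × E => Hc q.1 q.2) (ζ, e x) :=
        h1.mdifferentiableAt
      have h4 : MDifferentiableAt 𝓘(ℂ, E) 𝓘(ℂ, E) e.symm (Hc ζ (e x)) :=
        mdiff_symm_of_mem he (hin ζ hζ _ hx.2)
      exact MDifferentiableAt.comp (ζ, x) (g := e.symm)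
        (f := fun q : ℂ × M => Hc q.1 (e q.2)) h4
        (MDifferentiableAt.comp (ζ, x) (g := fun q : ℂ × E => Hc q.1 q.2)
          (f := fun q : ℂ × M => (q.1, e q.2)) h3 h2)

end Vale.Agent.P253.H595
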