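import Vale.Agent.P253.S445.Attr
import Vale.Agent.P253.H595.Vf

/-!
P253: the linear part of a holomorphic vector field at an attracting zero and the differentials of
its flow.
-/

open scoped Manifold ContDiff Topology Bundle
open Set Metric Complex Filter IsManifold Bundle Vale.Agent.P253.Mfd Vale.Agent.P253.CStar

set_option maxSynthPendingDepth 3
set_option linter.unusedSectionVars false

noncomputable section

namespace Vale.Agent.P253.H595

open Vale.Agent.P253.R2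

variable {E : Type*} [NormedAddCommGroup E] [NormedSpace ℂ E]
  {M : Type*} [MetricSpace M] [ChartedSpace E M]
  {Z : (x : M) → TangentSpace 𝓘(ℂ, E) x}

/-- the linear part of the vector field `Z` at the point `p`, in the preferred chart at `p` (at a
zero of `Z` it does not depend on the chart, as an endomorphism of the tangent space) -/
def linPart (Z : (x : M) → TangentSpace 𝓘(ℂ, E) x) (p : M) : E →L[ℂ] E :=
  fderiv ℂ (fun z : E => comps Z (chartAt E p) ((chartAt E p).symm z)) (chartAt E p p)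

variable (E) in
/-- `p` is a zero of the vector field `Z` at which the linear part is
`c diag (m_1, ..., m_n)` in a basis of the tangent space, with a complex number `c ≠ 0` and integers
`m_j > 0` such that `m_i < 2 m_j` for all `i`, `j` -/
def IsRadialZero (Z : (x : M) → TangentSpace 𝓘(ℂ, E) x) (p : M) : Prop :=
  (Z p : E) = 0 ∧
  ∃ c : ℂ, c ≠ 0 ∧
    ∃ (b : Module.Basis (Fin (Module.finrank ℂ E)) ℂ E) (m : Fin (Module.finrank ℂ E) → ℕ),
      (∀ j, 0 < m j) ∧ (∀ i j, m i < 2 * m j) ∧ ∀ j, linPart Z p (b j) = (c * m j) • b j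

variable [FiniteDimensional ℂ E] [IsManifold 𝓘(ℂ, E) 1 M] {ψ : ℂ → M → M} {p : M}

theorem fixed_of_zero (hZ : IsHolField Z) (hψ : IsHolCFlow E ψ)
    (hint : ∀ x ζ, IntAt Z (fun w => ψ w x) ζ) (hp : (Z p : E) = 0) (ζ : ℂ) : ψ ζ p = p := by
  have h1 : ∀ ζ, IntAt Z (fun _ : ℂ => p) ζ := by
    intro ζ
    have h2 : HasMFDerivAt 𝓘(ℂ, ℂ) 𝓘(ℂ, E) (fun _ : ℂ => p) ζ
        (0 : TangentSpace 𝓘(ℂ, ℂ) ζ →L[ℂ] TangentSpace 𝓘(ℂ, E) p) :=
      hasMFDerivAt_const _ _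
    refine h2.congr_mfderiv ?_
    let z : E := Z p
    have h3 : (0 : ℂ →L[ℂ] E) = (1 : ℂ →L[ℂ] ℂ).smulRight z := by
      have h4 : z = 0 := hp
      rw [h4]
      ext
      simp
    exact h3
  exact eqOn_of_int (locFlow_of_field hZ) isOpen_univ isPreconnected_univ
    (fun w _ => hint p w) (fun w _ => h1 w) (mem_univ (0:ℂ)) (hψ.zero p) (mem_univ ζ)

/-- the derivative at time `0` of the differentials of the flow at a fixed point is the linear
part of the vector field -/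
theorem hasDerivAt_mfderiv_zero (hψ : IsHolCFlow E ψ)
    (hint : ∀ x ζ, IntAt Z (fun w => ψ w x) ζ) (hfix : ∀ ζ, ψ ζ p = p) (v : E) :
    HasDerivAt (fun ζ => (mfderiv 𝓘(ℂ, E) 𝓘(ℂ, E) (ψ ζ) p : E → E) v) (linPart Z p v) 0 := by
  have hCE : CompleteSpace E := FiniteDimensional.complete ℂ E
  have hem : chartAt E p ∈ maximalAtlas 𝓘(ℂ, E) 1 M := chart_mem_maximalAtlas p
  have hps : p ∈ (chartAt E p).source := mem_chart_source E p
  have hT := S445.mfderiv_fixed hψ hfix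
  have hlin' : fderiv ℂ (fun z : E => comps Z (chartAt E p) ((chartAt E p).symm z))
      (chartAt E p p) v = linPart Z p v := rfl
  set e := chartAt E p with he
  set z₀ := e p with hz₀
  let T : ℂ → E →L[ℂ] E := fun ζ => mfderiv 𝓘(ℂ, E) 𝓘(ℂ, E) (ψ ζ) p
  have hT' : ∀ ζ, HasFDerivAt (fun w => HC ψ e e (ζ, w)) (T ζ) z₀ := hT
  have hΩ : IsOpen (HCΩ ψ e e) := S445.isOpen_HCΩ' hψ
  have hmem : ∀ ζ : ℂ, (ζ, z₀) ∈ HCΩ ψ e e := fun ζ =>
    ⟨e.map_source hps, by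
      simp only [hz₀]
      rw [e.left_inv hps, hfix]
      exact hps⟩
  have hsm : ContDiffOn ℂ ∞ (HC ψ e e) (HCΩ ψ e e) := S445.contDiffOn_HC_top hψ hem hem
  have h1 : ∀ ζ, T ζ v = fderiv ℂ (HC ψ e e) (ζ, z₀) (0, v) := by
    intro ζ
    have h3 := S445.hasFDerivAt_HC_right' hψ hem hem (hmem ζ)
    have h4 : T ζ = (fderiv ℂ (HC ψ e e) (ζ, z₀)).comp (ContinuousLinearMap.inr ℂ ℂ E) :=
      (hT' ζ).unique h3
    rw [h4]
    rfl
  have hsm0 : ContDiffAt ℂ ∞ (HC ψ e e) (0, z₀) := hsm.contDiffAt (hΩ.mem_nhds (hmem 0))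
  have hfd : DifferentiableAt ℂ (fderiv ℂ (HC ψ e e)) (0, z₀) :=
    ((hsm.fderiv_of_isOpen (m := ∞) hΩ (by simp)).contDiffAt
      (hΩ.mem_nhds (hmem 0))).differentiableAt (by simp)
  have hsymm : IsSymmSndFDerivAt ℂ (HC ψ e e) (0, z₀) :=
    hsm0.isSymmSndFDerivAt (by
      rw [minSmoothness_of_isRCLikeNormedField]
      exact WithTop.coe_le_coe.2 le_top)
  have h2 : HasDerivAt (fun ζ : ℂ => fderiv ℂ (HC ψ e e) (ζ, z₀) (0, v))
      (fderiv ℂ (fderiv ℂ (HC ψ e e)) (0, z₀) (1, 0) (0, v)) 0 := by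
    have h3 : HasDerivAt (fun ζ : ℂ => (ζ, z₀)) ((1 : ℂ), (0 : E)) 0 :=
      (hasDerivAt_id (0:ℂ)).prodMk (hasDerivAt_const _ _)
    have h4 := HasFDerivAt.comp_hasDerivAt (0:ℂ) (f := fun ζ : ℂ => (ζ, z₀)) hfd.hasFDerivAt h3
    have h5 := h4.clm_apply (hasDerivAt_const (0:ℂ) ((0 : ℂ), v))
    simp only [map_zero, add_zero, Function.comp_apply] at h5
    exact h5
  have h3 : fderiv ℂ (fderiv ℂ (HC ψ e e)) (0, z₀) (1, 0) (0, v) =
      fderiv ℂ (fderiv ℂ (HC ψ e e)) (0, z₀) (0, v) (1, 0) := hsymm _ _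
  have h4 : fderiv ℂ (fderiv ℂ (HC ψ e e)) (0, z₀) (0, v) (1, 0) =
      fderiv ℂ (fun z : E => comps Z e (e.symm z)) z₀ v := by
    have h5 : HasFDerivAt (fun z : E => fderiv ℂ (HC ψ e e) (0, z) (1, 0))
        (((ContinuousLinearMap.apply ℂ E ((1 : ℂ), (0 : E))).comp
          (fderiv ℂ (fderiv ℂ (HC ψ e e)) (0, z₀))).comp (ContinuousLinearMap.inr ℂ ℂ E)) z₀ := by
      have h6 := (ContinuousLinearMap.apply ℂ E ((1 : ℂ), (0 : E))).hasFDerivAt.comp (0, z₀)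
        hfd.hasFDerivAt
      exact HasFDerivAt.comp z₀ h6 (hasFDerivAt_prodMk_right (0:ℂ) z₀)
    have h6 : (fun z : E => comps Z e (e.symm z)) =ᶠ[𝓝 z₀]
        (fun z : E => fderiv ℂ (HC ψ e e) (0, z) (1, 0)) := by
      have h7 : ∀ᶠ z in 𝓝 z₀, (0, z) ∈ HCΩ ψ e e := by
        have h8 : ContinuousAt (fun z : E => ((0:ℂ), z)) z₀ := by fun_prop
        exact h8.eventually (hΩ.mem_nhds (hmem 0))
      filter_upwards [h7] with z hz
      have h8 : HasDerivAt (fun ζ : ℂ => HC ψ e e (ζ, z)) (comps Z e (ψ 0 (e.symm z))) 0 :=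
        (hint (e.symm z) 0).hasDerivAt hem hz.2
      rw [hψ.zero] at h8
      have h9 : HasDerivAt (fun ζ : ℂ => HC ψ e e (ζ, z)) (fderiv ℂ (HC ψ e e) (0, z) (1, 0)) 0 := by
        have h10 : HasFDerivAt (HC ψ e e) (fderiv ℂ (HC ψ e e) (0, z)) (0, z) :=
          ((hsm.contDiffAt (hΩ.mem_nhds hz)).differentiableAt (by simp)).hasFDerivAt
        have h11 : HasDerivAt (fun ζ : ℂ => (ζ, z)) ((1 : ℂ), (0 : E)) 0 :=
          (hasDerivAt_id (0:ℂ)).prodMk (hasDerivAt_const _ _)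
        exact HasFDerivAt.comp_hasDerivAt (0:ℂ) (f := fun ζ : ℂ => (ζ, z)) h10 h11
      exact h8.unique h9
    rw [(h5.congr_of_eventuallyEq h6).fderiv]
    rfl
  rw [h3, h4, hlin'] at h2
  exact h2.congr_of_eventuallyEq (Eventually.of_forall fun ζ => h1 ζ)

/-- the differentials of the flow at a fixed point form a group -/
theorem mfderiv_group (hψ : IsHolCFlow E ψ) (hfix : ∀ ζ, ψ ζ p = p) (s t : ℂ) (v : E) :
    (mfderiv 𝓘(ℂ, E) 𝓘(ℂ, E) (ψ (t + s)) p : E → E) v =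
      (mfderiv 𝓘(ℂ, E) 𝓘(ℂ, E) (ψ t) p : E → E)
        ((mfderiv 𝓘(ℂ, E) 𝓘(ℂ, E) (ψ s) p : E → E) v) := by
  have h1 : ψ (t + s) = ψ t ∘ ψ s := funext fun x => hψ.add t s x
  have h2 : MDifferentiableAt 𝓘(ℂ, E) 𝓘(ℂ, E) (ψ s) p := S445.cflow_mdiff hψ s p
  let Ts : E →L[ℂ] E := mfderiv 𝓘(ℂ, E) 𝓘(ℂ, E) (ψ s) p
  let Tt : E →L[ℂ] E := mfderiv 𝓘(ℂ, E) 𝓘(ℂ, E) (ψ t) p
  have h3 : ∀ q : M, q = p → HasMFDerivAt 𝓘(ℂ, E) 𝓘(ℂ, E) (ψ t) q Tt := by
    rintro _ rfl
    exact (S445.cflow_mdiff hψ t _).hasMFDerivAt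
  have h4 : HasMFDerivAt 𝓘(ℂ, E) 𝓘(ℂ, E) (ψ t ∘ ψ s) p (Tt.comp Ts) :=
    (h3 _ (hfix s)).comp p h2.hasMFDerivAt
  rw [h1]
  have h5 : (mfderiv 𝓘(ℂ, E) 𝓘(ℂ, E) (ψ t ∘ ψ s) p : E →L[ℂ] E) = Tt.comp Ts := h4.mfderiv
  exact congrArg (fun L : E →L[ℂ] E => L v) h5

/-- the differential at time `0` -/
theorem mfderiv_time_zero (hψ : IsHolCFlow E ψ) (v : E) :
    (mfderiv 𝓘(ℂ, E) 𝓘(ℂ, E) (ψ 0) p : E → E) v = v := by
  have h1 : ψ 0 = id := funext hψ.zero
  rw [h1, mfderiv_id]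
  rfl

/-- the differentials of the flow on an eigenvector of the linear part -/
theorem mfderiv_eigen (hψ : IsHolCFlow E ψ)
    (hint : ∀ x ζ, IntAt Z (fun w => ψ w x) ζ) (hfix : ∀ ζ, ψ ζ p = p) {v : E} {c : ℂ}
    (hv : linPart Z p v = c • v) (t : ℂ) :
    (mfderiv 𝓘(ℂ, E) 𝓘(ℂ, E) (ψ t) p : E → E) v = exp (c * t) • v := by
  let T : ℂ → E →L[ℂ] E := fun ζ => mfderiv 𝓘(ℂ, E) 𝓘(ℂ, E) (ψ ζ) p
  have hgroup : ∀ s t : ℂ, ∀ v, T (t + s) v = T t (T s v) := fun s t v =>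
    mfderiv_group hψ hfix s t v
  have hder0 : HasDerivAt (fun ζ => T ζ v) (c • v) 0 :=
    hv ▸ hasDerivAt_mfderiv_zero hψ hint hfix v
  -- the differential equation
  have hder : ∀ t : ℂ, HasDerivAt (fun ζ => T ζ v) (c • T t v) t := by
    intro t
    have h1 : HasDerivAt (fun s => T t (T s v)) (T t (c • v)) 0 :=
      (T t).hasFDerivAt.comp_hasDerivAt (0:ℂ) hder0
    rw [map_smul] at h1
    have h2 : HasDerivAt (fun s : ℂ => s - t) 1 t := (hasDerivAt_id t).sub_const t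
    have h1' : HasDerivAt (fun s => T t (T s v)) (c • T t v) (t - t) := by
      rwa [sub_self]
    have h3 := HasDerivAt.scomp (h := fun s : ℂ => s - t) t h1' h2
    rw [one_smul] at h3
    refine h3.congr_of_eventuallyEq (Eventually.of_forall fun s => ?_)
    have h4 : t + (s - t) = s := by ring
    have h5 := hgroup (s - t) t v
    rw [h4] at h5
    simp only [Function.comp_apply, h5]
  have hconst : ∀ t : ℂ, exp (-c * t) • T t v = exp (-c * 0) • T 0 v := by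
    intro t
    have h1 : ∀ s : ℂ, HasDerivAt (fun s => exp (-c * s) • T s v) 0 s := by
      intro s
      have h2 : HasDerivAt (fun s : ℂ => exp (-c * s)) (exp (-c * s) * (-c)) s := by
        have h3 : HasDerivAt (fun s : ℂ => -c * s) (-c) s := by
          simpa using (hasDerivAt_id s).const_mul (-c)
        exact h3.cexp
      have h4 := h2.smul (hder s)
      have h5 : exp (-c * s) • (c • T s v) + (exp (-c * s) * (-c)) • T s v = 0 := by
        rw [smul_smul, ← add_smul]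
        have : exp (-c * s) * c + exp (-c * s) * (-c) = 0 := by ring
        rw [this, zero_smul]
      rw [h5] at h4
      exact h4
    exact is_const_of_deriv_eq_zero (fun s => (h1 s).differentiableAt) (fun s => (h1 s).deriv) t 0
  have hT0 : T 0 v = v := mfderiv_time_zero hψ v
  have h1 := hconst t
  rw [hT0, mul_zero, Complex.exp_zero, one_smul] at h1
  have h4 : exp (c * t) • (exp (-c * t) • T t v) = T t v := by
    rw [smul_smul, ← Complex.exp_add]
    have : c * t + -c * t = 0 := by ring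
    rw [this, Complex.exp_zero, one_smul]
  have h5 : T t v = exp (c * t) • v := by rw [← h4, h1]
  exact h5

/-- a holomorphic action of `ℂ` with rescaled time -/
theorem rescale (hψ : IsHolCFlow E ψ) (a : ℂ) : IsHolCFlow E (fun ζ x => ψ (a * ζ) x) where
  zero x := by rw [mul_zero, hψ.zero]
  add s t x := by rw [mul_add, hψ.add]
  holo := by
    have h1 : ContMDiff (𝓘(ℂ, ℂ).prod 𝓘(ℂ, E)) 𝓘(ℂ, ℂ) 1 (fun q : ℂ × M => a * q.1) :=
      (contDiff_const.mul contDiff_id : ContDiff ℂ 1 (fun ζ : ℂ => a * ζ)).contMDiff.comp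
        contMDiff_fst
    exact hψ.holo.comp (h1.prodMk contMDiff_snd)

/-- the differentials of the rescaled flow at a radial zero -/
theorem isAttrFixedPoint_of_zero (hZ : IsHolField Z) (hψ : IsHolCFlow E ψ)
    (hint : ∀ x ζ, IntAt Z (fun w => ψ w x) ζ) (hp : IsRadialZero E Z p) :
    ∃ a : ℂ, a ≠ 0 ∧ S445.IsAttrFixedPoint E (fun t x => ψ (a * t) x) p := by
  obtain ⟨hp0, c, hc, b, m, hm, hpinch, hlin⟩ := hp
  have hfix := fixed_of_zero hZ hψ hint hp0
  refine ⟨-c⁻¹, neg_ne_zero.2 (inv_ne_zero hc), fun t _ => hfix _, b, m, hm, hpinch,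
    fun t _ j => ?_⟩
  have h1 := mfderiv_eigen hψ hint hfix (hlin j) (-c⁻¹ * t)
  have h2 : (c * m j) * (-c⁻¹ * t) = -(t * m j) := by field_simp
  rw [h2] at h1
  exact h1

end Vale.Agent.P253.H595
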