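import Vale.Agent.P253.H595.Growth
import Vale.Agent.P253.H595.Zero
import Vale.Agent.P253.H565.FunAttr

/-!
P253: uniformization from a holomorphic vector field of almost linear growth with an attracting
zero; the converse.
-/

open scoped Manifold ContDiff Topology Bundle
open Set Metric Complex Filter IsManifold Bundle Manifold Vale.Agent.P253.Mfd
  Vale.Agent.P253.CStar

set_option maxSynthPendingDepth 3
set_option linter.unusedSectionVars false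

noncomputable section

namespace Vale.Agent.P253.H595

open Vale.Agent.P253.R2

variable {E : Type*} [NormedAddCommGroup E] [NormedSpace ℂ E] [FiniteDimensional ℂ E]
  {M : Type*} [MetricSpace M] [ChartedSpace E M] [IsManifold 𝓘(ℂ, E) 1 M]
  {Z : (x : M) → TangentSpace 𝓘(ℂ, E) x} {ψ : ℂ → M → M} {p : M}

/-! ### the generator of a holomorphic action of `ℂ` -/

/-- the generator of a holomorphic action of `ℂ` -/
def gen (ψ : ℂ → M → M) (x : M) : TangentSpace 𝓘(ℂ, E) x :=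
  (mfderiv 𝓘(ℂ, ℂ) 𝓘(ℂ, E) (fun ζ => ψ ζ x) 0 : ℂ → E) (1 : ℂ)

theorem orbit_mdiff (hψ : IsHolCFlow E ψ) (x : M) :
    MDifferentiable 𝓘(ℂ, ℂ) 𝓘(ℂ, E) (fun ζ => ψ ζ x) := by
  have h1 : ContMDiff 𝓘(ℂ, ℂ) (𝓘(ℂ, ℂ).prod 𝓘(ℂ, E)) 1 (fun ζ : ℂ => (ζ, x)) :=
    contMDiff_id.prodMk contMDiff_const
  exact (hψ.holo.comp h1).mdifferentiable (by simp)

theorem gen_int_zero (hψ : IsHolCFlow E ψ) (y : M) :
    IntAt (gen (E := E) ψ) (fun u => ψ u y) 0 := by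
  refine (orbit_mdiff hψ y 0).hasMFDerivAt.congr_mfderiv ?_
  let L : ℂ →L[ℂ] E := mfderiv 𝓘(ℂ, ℂ) 𝓘(ℂ, E) (fun u => ψ u y) 0
  have h2 : (gen (E := E) ψ (ψ 0 y) : E) = L 1 :=
    congrArg (fun y => (gen (E := E) ψ y : E)) (hψ.zero y)
  have h3 : L = (1 : ℂ →L[ℂ] ℂ).smulRight (gen (E := E) ψ (ψ 0 y) : E) := by
    rw [h2]
    ext
    change L 1 = (1 : ℂ) • L 1
    rw [one_smul]
  exact h3

theorem gen_int (hψ : IsHolCFlow E ψ) (x : M) (ζ : ℂ) :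
    IntAt (gen (E := E) ψ) (fun w => ψ w x) ζ := by
  have h1 : IntAt (gen (E := E) ψ) (fun u => ψ u (ψ ζ x)) (ζ + -ζ) := by
    rw [add_neg_cancel]
    exact gen_int_zero hψ _
  refine h1.shift.congr (Eventually.of_forall fun w => ?_)
  simp only
  rw [← hψ.add]
  congr 1
  ring

theorem gen_field (hψ : IsHolCFlow E ψ) : IsHolField (gen (E := E) ψ) := by
  intro e he
  have hsm := S445.contDiffOn_HC_top hψ he he
  have hΩ : IsOpen (HCΩ ψ e e) := S445.isOpen_HCΩ' hψ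
  have hmem : ∀ z ∈ e.target, ((0:ℂ), z) ∈ HCΩ ψ e e := fun z hz =>
    ⟨hz, by
      change ψ 0 (e.symm z) ∈ e.source
      rw [hψ.zero]
      exact e.map_target hz⟩
  have heq : ∀ z ∈ e.target,
      comps (gen (E := E) ψ) e (e.symm z) = fderiv ℂ (HC ψ e e) (0, z) (1, 0) := by
    intro z hz
    have h8 : HasDerivAt (fun ζ : ℂ => HC ψ e e (ζ, z))
        (comps (gen (E := E) ψ) e (ψ 0 (e.symm z))) 0 :=
      (gen_int hψ (e.symm z) 0).hasDerivAt he (hmem z hz).2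
    rw [hψ.zero] at h8
    have h10 : HasFDerivAt (HC ψ e e) (fderiv ℂ (HC ψ e e) (0, z)) (0, z) :=
      ((hsm.contDiffAt (hΩ.mem_nhds (hmem z hz))).differentiableAt (by simp)).hasFDerivAt
    have h11 : HasDerivAt (fun ζ : ℂ => (ζ, z)) ((1 : ℂ), (0 : E)) 0 :=
      (hasDerivAt_id (0:ℂ)).prodMk (hasDerivAt_const _ _)
    exact h8.unique (HasFDerivAt.comp_hasDerivAt (0:ℂ) (f := fun ζ : ℂ => (ζ, z)) h10 h11)
  have hd : DifferentiableOn ℂ (fun z : E => fderiv ℂ (HC ψ e e) (0, z) (1, 0)) e.target := by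
    intro z hz
    have h1 : DifferentiableAt ℂ (fderiv ℂ (HC ψ e e)) (0, z) :=
      ((hsm.fderiv_of_isOpen (m := ∞) hΩ (by simp)).contDiffAt
        (hΩ.mem_nhds (hmem z hz))).differentiableAt (by simp)
    have h2 : DifferentiableAt ℂ (fun z : E => ((0:ℂ), z)) z := by fun_prop
    have h3 : DifferentiableAt ℂ (fun z : E => fderiv ℂ (HC ψ e e) (0, z)) z :=
      DifferentiableAt.comp (g := fderiv ℂ (HC ψ e e)) (f := fun z : E => ((0:ℂ), z)) z h1 h2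
    exact (h3.clm_apply (differentiableAt_const _)).differentiableWithinAt
  exact hd.congr heq

/-! ### the converse -/

/-- the homotheties transported to `M`, in complex time -/
def hthom (F : M ≃ₘ^1⟮𝓘(ℂ, E), 𝓘(ℂ, E)⟯ E) (ζ : ℂ) (x : M) : M :=
  F.symm (exp (-ζ) • F x)

theorem hthom_flow (F : M ≃ₘ^1⟮𝓘(ℂ, E), 𝓘(ℂ, E)⟯ E) : IsHolCFlow E (hthom F) where
  zero x := by simp [hthom]
  add s t x := by
    simp only [hthom, F.apply_symm_apply, smul_smul, ← exp_add]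
    congr 3
    ring
  holo := by
    have h3 : ContMDiff (𝓘(ℂ, ℂ).prod 𝓘(ℂ, E)) 𝓘(ℂ, ℂ) 1 (fun q : ℂ × M => exp (-q.1)) := by
      have h4 : ContDiff ℂ 1 (fun t : ℂ => exp (-t)) := contDiff_neg.cexp
      exact h4.contMDiff.comp contMDiff_fst
    have h5 : ContMDiff (𝓘(ℂ, ℂ).prod 𝓘(ℂ, E)) 𝓘(ℂ, E) 1 (fun q : ℂ × M => F q.2) :=
      F.contMDiff.comp contMDiff_snd
    have h6 : ContMDiff (𝓘(ℂ, ℂ).prod 𝓘(ℂ, E)) 𝓘(ℂ, E) 1
        (fun q : ℂ × M => exp (-q.1) • F q.2) := by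
      have h7 : ContDiff ℂ 1 (fun q : ℂ × E => q.1 • q.2) :=
        (ContinuousLinearMap.lsmul ℂ ℂ (E := E)).isBoundedBilinearMap.contDiff
      exact h7.contMDiff.comp (h3.prodMk_space h5)
    exact F.symm.contMDiff.comp h6

theorem hthom_fix (F : M ≃ₘ^1⟮𝓘(ℂ, E), 𝓘(ℂ, E)⟯ E) (ζ : ℂ) :
    hthom F ζ (F.symm 0) = F.symm 0 := by simp [hthom]

theorem hthom_mfderiv (F : M ≃ₘ^1⟮𝓘(ℂ, E), 𝓘(ℂ, E)⟯ E) (ζ : ℂ) (v : E) :
    (mfderiv 𝓘(ℂ, E) 𝓘(ℂ, E) (hthom F ζ) (F.symm 0) : E → E) v = exp (-ζ) • v := by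
  let T1 : E →L[ℂ] E := mfderiv 𝓘(ℂ, E) 𝓘(ℂ, E) F (F.symm 0)
  let T2 : E →L[ℂ] E := mfderiv 𝓘(ℂ, E) 𝓘(ℂ, E) F.symm 0
  have h1 : HasMFDerivAt 𝓘(ℂ, E) 𝓘(ℂ, E) F (F.symm 0) T1 :=
    ((F.contMDiff.mdifferentiable (by simp)) _).hasMFDerivAt
  have h2 : ∀ y : E, y = 0 → HasMFDerivAt 𝓘(ℂ, E) 𝓘(ℂ, E) F.symm y T2 := by
    rintro _ rfl
    exact ((F.symm.contMDiff.mdifferentiable (by simp)) _).hasMFDerivAt
  have hF0 : F (F.symm 0) = 0 := F.apply_symm_apply 0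
  have h3 : HasMFDerivAt 𝓘(ℂ, E) 𝓘(ℂ, E) (F.symm ∘ F) (F.symm 0) (T2.comp T1) :=
    (h2 _ hF0).comp _ h1
  have h4 : (F.symm ∘ F : M → M) = id := funext fun x => F.symm_apply_apply x
  rw [h4] at h3
  have h5 : (T2.comp T1 : E →L[ℂ] E) = ContinuousLinearMap.id ℂ E :=
    hasMFDerivAt_unique h3 (hasMFDerivAt_id _)
  set a : ℂ := exp (-ζ) with ha
  have h6 : HasMFDerivAt 𝓘(ℂ, E) 𝓘(ℂ, E) (fun z : E => a • z) (F (F.symm 0))
      (a • ContinuousLinearMap.id ℂ E) :=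
    ((hasFDerivAt_id (𝕜 := ℂ) (F (F.symm 0))).const_smul a).hasMFDerivAt
  have h7 : HasMFDerivAt 𝓘(ℂ, E) 𝓘(ℂ, E) (F.symm ∘ (fun z : E => a • z) ∘ F) (F.symm 0)
      (T2.comp ((a • ContinuousLinearMap.id ℂ E).comp T1)) :=
    (h2 _ (by simp [hF0])).comp _ (h6.comp _ h1)
  have h8 : (mfderiv 𝓘(ℂ, E) 𝓘(ℂ, E) (hthom F ζ) (F.symm 0) : E →L[ℂ] E) =
      T2.comp ((a • ContinuousLinearMap.id ℂ E).comp T1) := h7.mfderiv
  have h9 : (mfderiv 𝓘(ℂ, E) 𝓘(ℂ, E) (hthom F ζ) (F.symm 0) : E →L[ℂ] E) v =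
      a • (T2.comp T1) v := by
    rw [h8]
    change T2 (a • T1 v) = a • T2 (T1 v)
    exact map_smul T2 _ _
  rw [h5] at h9
  exact h9

theorem hthom_attr (F : M ≃ₘ^1⟮𝓘(ℂ, E), 𝓘(ℂ, E)⟯ E) :
    IsRadialZero E (gen (E := E) (hthom F)) (F.symm 0) := by
  refine ⟨?_, -1, by simp, Module.finBasis ℂ E, fun _ => 1, fun _ => one_pos,
    fun _ _ => by norm_num, fun j => ?_⟩
  · have h1 : (fun ζ => hthom F ζ (F.symm 0)) = fun _ => F.symm 0 :=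
      funext fun ζ => hthom_fix F ζ
    have h2 : HasMFDerivAt 𝓘(ℂ, ℂ) 𝓘(ℂ, E) (fun ζ => hthom F ζ (F.symm 0)) 0
        (0 : ℂ →L[ℂ] E) := by
      rw [h1]
      exact hasMFDerivAt_const _ _
    have h3 : (mfderiv 𝓘(ℂ, ℂ) 𝓘(ℂ, E) (fun ζ => hthom F ζ (F.symm 0)) 0 : ℂ →L[ℂ] E) = 0 :=
      h2.mfderiv
    exact congrArg (fun L : ℂ →L[ℂ] E => L (1 : ℂ)) h3
  · have h1 := hasDerivAt_mfderiv_zero (hthom_flow F) (gen_int (hthom_flow F)) (hthom_fix F)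
      (Module.finBasis ℂ E j)
    have h2 : HasDerivAt (fun ζ : ℂ => exp (-ζ) • Module.finBasis ℂ E j)
        (-(1:ℂ) • Module.finBasis ℂ E j) 0 := by
      have h3 : HasDerivAt (fun ζ : ℂ => exp (-ζ)) (exp (-0) * (-1)) 0 :=
        ((hasDerivAt_id (0:ℂ)).neg).cexp
      have h4 := h3.smul_const (Module.finBasis ℂ E j)
      have h5 : exp (-0) * (-1) = -(1:ℂ) := by simp
      rw [h5] at h4
      exact h4
    have h3 : (fun ζ : ℂ => exp (-ζ) • Module.finBasis ℂ E j) =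
        fun ζ => (mfderiv 𝓘(ℂ, E) 𝓘(ℂ, E) (hthom F ζ) (F.symm 0) : E → E)
          (Module.finBasis ℂ E j) := funext fun ζ => (hthom_mfderiv F ζ _).symm
    rw [h3] at h2
    have h4 := h1.unique h2
    rw [Nat.cast_one, mul_one]
    exact h4

/-! ### the conjugation of the vector field -/

theorem hasDerivAt_ray {f : ℂ → E} {v : E} (a : ℂ) (h : HasDerivAt f v 0) :
    HasDerivAt (fun t : ℝ => f (a * t)) (a • v) 0 := by
  have h2 : HasDerivAt (fun t : ℝ => a * (t:ℂ)) a 0 := by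
    simpa using ((hasDerivAt_id (0:ℝ)).ofReal_comp).const_mul a
  have h0 : HasDerivAt f v (a * ((0:ℝ):ℂ)) := by simpa using h
  exact HasDerivAt.scomp (0:ℝ) h0 h2

/-- a biholomorphic map which conjugates the flow along a ray to its differentials maps the vector
field to its linear part -/
theorem conj_field (hψ : IsHolCFlow E ψ)
    (hint : ∀ x ζ, IntAt Z (fun w => ψ w x) ζ) (hfix : ∀ ζ, ψ ζ p = p)
    (F : M ≃ₘ^1⟮𝓘(ℂ, E), 𝓘(ℂ, E)⟯ E) {a : ℂ} (ha : a ≠ 0)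
    (hF : ∀ t : ℝ, 0 ≤ t → ∀ x : M, F (ψ (a * t) x) =
      (mfderiv 𝓘(ℂ, E) 𝓘(ℂ, E) (ψ (a * t)) p : E → E) (F x)) (x : M) :
    (mfderiv 𝓘(ℂ, E) 𝓘(ℂ, E) F x : E → E) (Z x) = linPart Z p (F x) := by
  let v : E := (mfderiv 𝓘(ℂ, E) 𝓘(ℂ, E) F x : E → E) (Z x)
  let w : E := linPart Z p (F x)
  have h1 : HasDerivAt (fun ζ => F (ψ ζ x)) v 0 := by
    have h2 : ∀ y : M, y = x → HasMFDerivAt 𝓘(ℂ, E) 𝓘(ℂ, E) F y
        (mfderiv 𝓘(ℂ, E) 𝓘(ℂ, E) F x : E →L[ℂ] E) := by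
      rintro _ rfl
      exact ((F.contMDiff.mdifferentiable (by simp)) _).hasMFDerivAt
    have h3 := (h2 _ (hψ.zero x)).comp (0:ℂ) (hint x 0)
    let S : E →L[ℂ] E := mfderiv 𝓘(ℂ, E) 𝓘(ℂ, E) F x
    let L : ℂ →L[ℂ] E := S.comp ((1 : ℂ →L[ℂ] ℂ).smulRight (Z (ψ 0 x) : E))
    have h4 : HasFDerivAt (fun ζ => F (ψ ζ x)) L 0 := hasMFDerivAt_iff_hasFDerivAt.1 h3
    have h5 : L 1 = S (Z x) := by
      change S ((1 : ℂ) • (Z (ψ 0 x) : E)) = _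
      rw [one_smul]
      exact congrArg (fun y => S (Z y : E)) (hψ.zero x)
    have h6 := h4.hasDerivAt
    rw [h5] at h6
    exact h6
  have h2 := hasDerivAt_mfderiv_zero hψ hint hfix (F x)
  have h3 := (hasDerivAt_ray a h1).hasDerivWithinAt (s := Ici 0)
  have h4 : HasDerivWithinAt
      (fun t : ℝ => ((mfderiv 𝓘(ℂ, E) 𝓘(ℂ, E) (ψ (a * t)) p : E → E) (F x) : E))
      (a • w) (Ici 0) 0 :=
    (hasDerivAt_ray (E := E)
      (f := fun ζ => ((mfderiv 𝓘(ℂ, E) 𝓘(ℂ, E) (ψ ζ) p : E → E) (F x) : E))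
      (v := linPart Z p (F x)) a h2).hasDerivWithinAt
  have h5 : HasDerivWithinAt (fun t : ℝ => (F (ψ (a * t) x) : E)) (a • w) (Ici 0) 0 :=
    h4.congr (fun t ht => hF t ht x) (hF 0 le_rfl x)
  have h6 : a • v = a • w := (uniqueDiffWithinAt_Ici (0:ℝ)).eq_deriv _ h3 h5
  exact smul_right_injective E ha h6

variable [IsManifold 𝓘(ℝ, E) ∞ M]
  [RiemannianBundle (fun x : M => TangentSpace 𝓘(ℝ, E) x)]
  [IsContMDiffRiemannianBundle 𝓘(ℝ, E) ∞ E (fun x : M => TangentSpace 𝓘(ℝ, E) x)]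
  [IsRiemannianManifold 𝓘(ℝ, E) M]

/-- linearization of a flow with an attracting fixed point -/
theorem main_attr_or (hK : IsKahler E M) [CompleteSpace M] [NoncompactSpace M]
    [ConnectedSpace M] (hnn : ∀ x : M, NonnegBisectionalAt E x) {ρ : ℝ → M → M}
    (hψ : IsHolCFlow E ψ) (he : ∀ t : ℝ, 0 ≤ t → ∀ x, ψ t x = ρ t x)
    (hp : S445.IsAttrFixedPoint E ρ p)
    (hpos : PosBisectionalAt E p ∨ H565.HasGlobalCoordinatesAt E p) :
    ∃ F : M ≃ₘ^1⟮𝓘(ℂ, E), 𝓘(ℂ, E)⟯ E, F p = 0 ∧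
      (∀ v : E, (mfderiv 𝓘(ℂ, E) 𝓘(ℂ, E) F p : E → E) v = v) ∧
      ∀ t : ℝ, 0 ≤ t → ∀ x : M, F (ρ t x) =
        (mfderiv 𝓘(ℂ, E) 𝓘(ℂ, E) (ρ t) p : E → E) (F x) := by
  rcases hpos with hpos | hf
  · exact S445.main_attr hK hnn hψ he hp hpos
  · exact H565.main_attr_coord hψ he hp hf

/-- uniformization from a complete vector field with a radial zero -/
theorem unif_of_complete (hK : IsKahler E M) [CompleteSpace M] [NoncompactSpace M]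
    [ConnectedSpace M] (hnn : ∀ x : M, NonnegBisectionalAt E x) (hZ : IsHolField Z)
    (hψ : IsHolCFlow E ψ) (hint : ∀ x ζ, IntAt Z (fun w => ψ w x) ζ) (hp : IsRadialZero E Z p)
    (hpos : PosBisectionalAt E p ∨ H565.HasGlobalCoordinatesAt E p) :
    ∃ F : M ≃ₘ^1⟮𝓘(ℂ, E), 𝓘(ℂ, E)⟯ E, F p = 0 ∧
      (∀ v : E, (mfderiv 𝓘(ℂ, E) 𝓘(ℂ, E) F p : E → E) v = v) ∧
      ∀ x : M, (mfderiv 𝓘(ℂ, E) 𝓘(ℂ, E) F x : E → E) (Z x) = linPart Z p (F x) := by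
  obtain ⟨a, ha, h1⟩ := isAttrFixedPoint_of_zero hZ hψ hint hp
  obtain ⟨F, hF0, hF1, hF2⟩ := main_attr_or hK hnn (rescale hψ a)
    (ρ := fun t x => ψ (a * t) x) (fun _ _ _ => rfl) h1 hpos
  exact ⟨F, hF0, hF1, conj_field hψ hint (fixed_of_zero hZ hψ hint hp.1) F ha hF2⟩

variable (E) in
/-- almost linear growth of the vector field `Z`, on a sequence of annuli: for some point `o` and
every `ε > 0` there are arbitrarily large `R` and `D > 0` such that the length of `Z` is at most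
`D * R ^ ε` at the points whose distance from `o` is between `R - D` and `R + D` (for example
`D = R / 2`) -/
def SlowGrowth (Z : (x : M) → TangentSpace 𝓘(ℂ, E) x) : Prop :=
  ∃ o : M, ∀ ε : ℝ, 0 < ε → ∀ R₀ : ℝ, ∃ R > R₀, ∃ D : ℝ, 0 < D ∧
    ∀ x : M, |dist x o - R| ≤ D → fnorm E Z x ≤ D * R ^ ε

omit [IsManifold 𝓘(ℂ, E) 1 M] [IsManifold 𝓘(ℝ, E) ∞ M]
  [RiemannianBundle (fun x : M => TangentSpace 𝓘(ℝ, E) x)]
  [IsContMDiffRiemannianBundle 𝓘(ℝ, E) ∞ E (fun x : M => TangentSpace 𝓘(ℝ, E) x)]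
  [IsRiemannianManifold 𝓘(ℝ, E) M] [FiniteDimensional ℂ E] in
variable (E) in
/-- the radius of existence of the complex-time orbits of `Z` decays slower than every power of
the distance, on a sequence of spheres: for some point `o` and every `ε > 0` there are arbitrarily
large `R` such that for all points `x` at distance `R` from `o` the complex-time orbit of `x`
exists for the times `t` with `|t| < R ^ (-ε)` -/
def SlowRadius (Z : (x : M) → TangentSpace 𝓘(ℂ, E) x) : Prop :=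
  ∃ o : M, ∀ ε : ℝ, 0 < ε → ∀ R₀ : ℝ, ∃ R > R₀, ∀ x : M, dist x o = R →
    ∃ f : ℂ → M, f 0 = x ∧ ∀ t ∈ ball (0:ℂ) (R ^ (-ε)), IntAt Z f t

/-- the criteria of completeness -/
theorem complete_iff (hK : IsKahler E M) [CompleteSpace M] [ConnectedSpace M]
    (hnn : ∀ x : M, NonnegBisectionalAt E x) (hZ : IsHolField Z)
    (h : SlowGrowth E Z ∨ SlowRadius E Z) :
    ∃! ψ : ℂ → M → M, IsHolCFlow E ψ ∧ ∀ x ζ, IntAt Z (fun w => ψ w x) ζ := by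
  rcases h with ⟨o, h⟩ | ⟨o, h⟩
  · exact field_complete_growth hK hnn hZ o h
  · exact field_complete_radius hK hnn hZ o h

/-- uniformization from a vector field of almost linear growth with an attracting zero -/
theorem unif (hK : IsKahler E M) [CompleteSpace M] [NoncompactSpace M]
    [ConnectedSpace M] (hnn : ∀ x : M, NonnegBisectionalAt E x) (hZ : IsHolField Z)
    (h : SlowGrowth E Z ∨ SlowRadius E Z) (hp : IsRadialZero E Z p)
    (hpos : PosBisectionalAt E p ∨ H565.HasGlobalCoordinatesAt E p) :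
    ∃ F : M ≃ₘ^1⟮𝓘(ℂ, E), 𝓘(ℂ, E)⟯ E, F p = 0 ∧
      (∀ v : E, (mfderiv 𝓘(ℂ, E) 𝓘(ℂ, E) F p : E → E) v = v) ∧
      ∀ x : M, (mfderiv 𝓘(ℂ, E) 𝓘(ℂ, E) F x : E → E) (Z x) = linPart Z p (F x) := by
  obtain ⟨ψ, ⟨hψ, hint⟩, -⟩ := complete_iff hK hnn hZ h
  exact unif_of_complete hK hnn hZ hψ hint hp hpos

/-- `ℂⁿ` has a complete vector field with a radial zero -/
theorem exists_field (F : M ≃ₘ^1⟮𝓘(ℂ, E), 𝓘(ℂ, E)⟯ E) :
    ∃ Z : (x : M) → TangentSpace 𝓘(ℂ, E) x, IsHolField Z ∧ SlowRadius E Z ∧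
      ∃ p : M, IsRadialZero E Z p ∧ H565.HasGlobalCoordinatesAt E p :=
  ⟨gen (hthom F), gen_field (hthom_flow F), ⟨F.symm 0, fun ε _ R₀ => ⟨R₀ + 1, by linarith,
    fun x _ => ⟨fun ζ => hthom F ζ x, (hthom_flow F).zero x,
      fun t _ => gen_int (hthom_flow F) x t⟩⟩⟩, F.symm 0, hthom_attr F,
    H565.hasGlobalCoordinatesAt_of_diffeo F _⟩

/-- the characterization of `ℂⁿ` -/
theorem unif_iff (hK : IsKahler E M) [CompleteSpace M] [NoncompactSpace M]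
    [ConnectedSpace M] (hnn : ∀ x : M, NonnegBisectionalAt E x) :
    Nonempty (M ≃ₘ^1⟮𝓘(ℂ, E), 𝓘(ℂ, E)⟯ E) ↔
      ∃ Z : (x : M) → TangentSpace 𝓘(ℂ, E) x, IsHolField Z ∧ SlowRadius E Z ∧
        ∃ p : M, IsRadialZero E Z p ∧ H565.HasGlobalCoordinatesAt E p := by
  constructor
  · rintro ⟨F⟩
    exact exists_field F
  · rintro ⟨Z, hZ, hr, p, hp, hf⟩
    obtain ⟨F, -⟩ := unif hK hnn hZ (Or.inr hr) hp (Or.inr hf)
    exact ⟨F⟩

/-- the characterization of `ℂⁿ` for positive curvature -/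
theorem unif_iff_pos (hK : IsKahler E M) [CompleteSpace M] [NoncompactSpace M]
    [ConnectedSpace M] (hnn : ∀ x : M, NonnegBisectionalAt E x)
    (hpos : ∀ x : M, PosBisectionalAt E x) :
    Nonempty (M ≃ₘ^1⟮𝓘(ℂ, E), 𝓘(ℂ, E)⟯ E) ↔
      ∃ Z : (x : M) → TangentSpace 𝓘(ℂ, E) x, IsHolField Z ∧ SlowRadius E Z ∧
        ∃ p : M, IsRadialZero E Z p := by
  constructor
  · rintro ⟨F⟩
    obtain ⟨Z, hZ, hr, p, hp, -⟩ := exists_field F
    exact ⟨Z, hZ, hr, p, hp⟩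
  · rintro ⟨Z, hZ, hr, p, hp⟩
    obtain ⟨F, -⟩ := unif hK hnn hZ (Or.inr hr) hp (Or.inl (hpos p))
    exact ⟨F⟩

end Vale.Agent.P253.H595
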