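import Vale.Agent.P253.H595.Crit

/-!
P253: zeros at which the vector field is linear with positive integer weights in suitable
holomorphic coordinates.
-/

open scoped Manifold ContDiff Topology Bundle
open Set Metric Complex Filter IsManifold Bundle Manifold Vale.Agent.P253.Mfd
  Vale.Agent.P253.CStar

set_option maxSynthPendingDepth 3
set_option linter.unusedSectionVars false

noncomputable section

namespace Vale.Agent.P253.H595

open Vale.Agent.P253.R2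

variable {E : Type*} [NormedAddCommGroup E] [NormedSpace ℂ E] [FiniteDimensional ℂ E]
  {M : Type*} [MetricSpace M] [ChartedSpace E M] [IsManifold 𝓘(ℂ, E) 1 M]
  {Z : (x : M) → TangentSpace 𝓘(ℂ, E) x} {ψ : ℂ → M → M} {p : M} {ι : Type*} [Fintype ι]
  {φ : E ≃L[ℂ] (ι → ℂ)} {m : ι → ℝ} {c : ℂ} {e : OpenPartialHomeomorph M E}

/-- the flow near a zero in coordinates in which the field is linear -/
theorem local_formula (hZ : IsHolField Z) (hψ : IsHolCFlow E ψ)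
    (hint : ∀ x ζ, IntAt Z (fun w => ψ w x) ζ) (he : e ∈ maximalAtlas 𝓘(ℂ, E) 1 M)
    (hps : p ∈ e.source) (hep : e p = 0) (hm : ∀ j, 0 < m j)
    (hlin : ∀ x ∈ e.source, comps Z e x = c • AE φ m (e x)) (ζ : ℂ) :
    ∀ᶠ x in 𝓝 p, ψ ζ x = e.symm (LE φ m (c * ζ) (e x)) := by
  set η : ℝ := |(c * ζ).re| + 1 with hη
  set Mm : ℝ := ∑ j, m j with hMm
  have hηpos : 0 < η := by positivity
  obtain ⟨δ, hδ, hball⟩ : ∃ δ > 0, ∀ z : E, ‖φ z‖ < δ → z ∈ e.target := by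
    have h1 : φ.symm ⁻¹' e.target ∈ 𝓝 (0 : ι → ℂ) := by
      apply φ.symm.continuous.continuousAt.preimage_mem_nhds
      rw [map_zero, ← hep]
      exact e.open_target.mem_nhds (e.map_source hps)
    obtain ⟨δ, hδ, h2⟩ := Metric.mem_nhds_iff.1 h1
    refine ⟨δ, hδ, fun z hz => ?_⟩
    have h3 := h2 (show φ z ∈ ball 0 δ by simpa using hz)
    simpa using h3
  have hcont : Tendsto (fun x => Real.exp (η * Mm) * ‖φ (e x)‖) (𝓝 p) (𝓝 0) := by
    have h1 : Tendsto (fun x => φ (e x)) (𝓝 p) (𝓝 0) := by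
      have h2 := (φ.continuous.tendsto (e p)).comp (e.continuousAt hps).tendsto
      rwa [hep, map_zero] at h2
    simpa using h1.norm.const_mul (Real.exp (η * Mm))
  filter_upwards [hcont.eventually (gt_mem_nhds hδ), e.open_source.mem_nhds hps] with x hx hxs
  set z := e x with hz
  let U : Set ℂ := (fun w : ℂ => (c * w).re) ⁻¹' Ioo (-η) η
  have hUo : IsOpen U := isOpen_Ioo.preimage (by fun_prop)
  have hUc : IsPreconnected U := by
    refine ((convex_Ioo (-η) η).is_linear_preimage (f := fun w : ℂ => (c * w).re)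
      ⟨fun a b => ?_, fun r a => ?_⟩).isPreconnected
    · simp only [mul_add, add_re]
    · simp only [smul_eq_mul, real_smul]
      rw [show c * ((r : ℂ) * a) = (r : ℂ) * (c * a) by ring, re_ofReal_mul]
  have hζU : ζ ∈ U := by
    change (c * ζ).re ∈ Ioo (-η) η
    have h1 := abs_lt.1 (lt_add_one |(c * ζ).re|)
    exact ⟨h1.1, h1.2⟩
  have h0U : (0:ℂ) ∈ U := by
    change (c * 0).re ∈ Ioo (-η) η
    simpa using hηpos
  have hin : ∀ w ∈ U, LE φ m (c * w) z ∈ e.target := by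
    intro w hw
    apply hball
    refine lt_of_le_of_lt ?_ hx
    rw [pi_norm_le_iff_of_nonneg (by positivity)]
    intro j
    rw [LE_coord, norm_mul, Complex.norm_exp]
    have h1 : (c * w * (m j : ℂ)).re = (c * w).re * m j := by simp
    rw [h1]
    have h2 : (c * w).re * m j ≤ η * Mm := by
      have h3 : m j ≤ Mm := Finset.single_le_sum (fun j _ => (hm j).le) (Finset.mem_univ j)
      have h4 : (c * w).re ≤ η := hw.2.le
      calc (c * w).re * m j ≤ η * m j := mul_le_mul_of_nonneg_right h4 (hm j).le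
        _ ≤ η * Mm := mul_le_mul_of_nonneg_left h3 hηpos.le
    exact mul_le_mul (Real.exp_le_exp.2 h2) (norm_le_pi_norm _ j) (norm_nonneg _)
      (Real.exp_pos _).le
  refine eqOn_of_int (locFlow_of_field hZ) hUo hUc (f := fun w => ψ w x)
    (g := fun w => e.symm (LE φ m (c * w) z)) (fun w _ => hint x w) (fun w hw => ?_) h0U ?_ hζU
  · refine intAt_of_hasDerivAt he (y := fun w => LE φ m (c * w) z) (hin w hw) ?_
    rw [hlin _ (e.map_target (hin w hw)), e.right_inv (hin w hw)]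
    have h1 : HasDerivAt (fun w : ℂ => c * w) c w := by
      simpa using (hasDerivAt_id w).const_mul c
    exact (hasDerivAt_LE (φ := φ) (m := m) (c * w) z).scomp w h1
  · simp only [mul_zero, hψ.zero, LE_zero, hz]
    rw [e.left_inv hxs]

/-- the differentials of the flow at a zero at which the field is linear -/
theorem exists_weights (hZ : IsHolField Z) (hψ : IsHolCFlow E ψ)
    (hint : ∀ x ζ, IntAt Z (fun w => ψ w x) ζ) (he : e ∈ maximalAtlas 𝓘(ℂ, E) 1 M)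
    (hps : p ∈ e.source) (hep : e p = 0) (hm : ∀ j, 0 < m j)
    (hlin : ∀ x ∈ e.source, comps Z e x = c • AE φ m (e x)) :
    ∃ φ' : E ≃L[ℂ] (ι → ℂ), ∀ (ζ : ℂ) (v : E),
      (mfderiv 𝓘(ℂ, E) 𝓘(ℂ, E) (ψ ζ) p : E → E) v = LE φ' m (c * ζ) v := by
  let D : E →L[ℂ] E := mfderiv 𝓘(ℂ, E) 𝓘(ℂ, E) e p
  let D' : E →L[ℂ] E := mfderiv 𝓘(ℂ, E) 𝓘(ℂ, E) e.symm (e p)
  have hD : ∀ v : E, D' (D v) = v := fun v => mfderiv_symm_comps (Z := fun _ => v) he hps
  have hinj : Function.Injective D.toLinearMap := fun v w hvw => by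
    have h1 : D v = D w := hvw
    rw [← hD v, h1, hD w]
  let Q : E ≃L[ℂ] E := (LinearEquiv.ofInjectiveEndo D.toLinearMap hinj).toContinuousLinearEquiv
  have hQ : ∀ v, Q v = D v := fun v => rfl
  have hQ' : ∀ v, D' v = Q.symm v := by
    intro v
    conv_lhs => rw [← Q.apply_symm_apply v, hQ]
    rw [hD]
  refine ⟨Q.trans φ, fun ζ v => ?_⟩
  have h1 : HasMFDerivAt 𝓘(ℂ, E) 𝓘(ℂ, E) e p D := (mdiff_of_mem he hps).hasMFDerivAt
  let L : E →L[ℂ] E := LEL φ m (c * ζ)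
  have h2 : HasMFDerivAt 𝓘(ℂ, E) 𝓘(ℂ, E) (LE φ m (c * ζ)) (e p) L :=
    (L.hasFDerivAt (x := e p)).hasMFDerivAt
  have h3 : ∀ y : E, y = e p → HasMFDerivAt 𝓘(ℂ, E) 𝓘(ℂ, E) e.symm y D' := by
    rintro _ rfl
    exact (mdiff_symm_of_mem he (e.map_source hps)).hasMFDerivAt
  have h40 : LE φ m (c * ζ) (e p) = e p := by rw [hep, LE_zero_right]
  have h4 : HasMFDerivAt 𝓘(ℂ, E) 𝓘(ℂ, E) (e.symm ∘ LE φ m (c * ζ) ∘ e) p
      (D'.comp (L.comp D)) :=
    HasMFDerivAt.comp p (g := e.symm) (f := LE φ m (c * ζ) ∘ e) (h3 _ h40)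
      (HasMFDerivAt.comp p (g := LE φ m (c * ζ)) (f := e) h2 h1)
  have h5 : HasMFDerivAt 𝓘(ℂ, E) 𝓘(ℂ, E) (ψ ζ) p (D'.comp (L.comp D)) :=
    h4.congr_of_eventuallyEq (local_formula hZ hψ hint he hps hep hm hlin ζ)
  have h6 : (mfderiv 𝓘(ℂ, E) 𝓘(ℂ, E) (ψ ζ) p : E →L[ℂ] E) = D'.comp (L.comp D) := h5.mfderiv
  have h7 : (mfderiv 𝓘(ℂ, E) 𝓘(ℂ, E) (ψ ζ) p : E →L[ℂ] E) v = D' (LE φ m (c * ζ) (Q v)) :=
    congrArg (fun L : E →L[ℂ] E => L v) h6
  rw [hQ'] at h7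
  exact h7

variable (E) in
/-- `p` is a zero of the vector field `Z`, and `Z` is the linear field
`c diag (m_1, ..., m_n)`, `c ≠ 0` a complex number and `m_j > 0` integers, in suitable holomorphic
coordinates near `p` -/
def IsLinearZero (Z : (x : M) → TangentSpace 𝓘(ℂ, E) x) (p : M) : Prop :=
  ∃ e ∈ maximalAtlas 𝓘(ℂ, E) 1 M, p ∈ e.source ∧ e p = 0 ∧
    ∃ c : ℂ, c ≠ 0 ∧
      ∃ (b : Module.Basis (Fin (Module.finrank ℂ E)) ℂ E) (m : Fin (Module.finrank ℂ E) → ℕ),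
        (∀ j, 0 < m j) ∧
        ∀ x ∈ e.source, comps Z e x = ∑ j, (c * m j * b.repr (e x) j) • b j

theorem sum_eq_AE (b : Module.Basis (Fin (Module.finrank ℂ E)) ℂ E)
    (m : Fin (Module.finrank ℂ E) → ℕ) (c : ℂ) (z : E) :
    ∑ j, (c * m j * b.repr z j) • b j =
      c • AE b.equivFun.toContinuousLinearEquiv (fun j => (m j : ℝ)) z := by
  have h1 : AE b.equivFun.toContinuousLinearEquiv (fun j => (m j : ℝ)) z =
      b.equivFun.symm (fun j => ((m j : ℝ) : ℂ) * b.repr z j) := rfl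
  rw [h1, Module.Basis.equivFun_symm_apply, Finset.smul_sum]
  refine Finset.sum_congr rfl fun j _ => ?_
  rw [smul_smul]
  congr 1
  push_cast
  ring

variable [IsManifold 𝓘(ℝ, E) ∞ M]
  [RiemannianBundle (fun x : M => TangentSpace 𝓘(ℝ, E) x)]
  [IsContMDiffRiemannianBundle 𝓘(ℝ, E) ∞ E (fun x : M => TangentSpace 𝓘(ℝ, E) x)]
  [IsRiemannianManifold 𝓘(ℝ, E) M]

/-- uniformization from a complete vector field which is linear near a zero -/
theorem unif_linear (hK : IsKahler E M) [CompleteSpace M] [NoncompactSpace M]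
    [ConnectedSpace M] (hnn : ∀ x : M, NonnegBisectionalAt E x) (hZ : IsHolField Z)
    (hψ : IsHolCFlow E ψ) (hint : ∀ x ζ, IntAt Z (fun w => ψ w x) ζ) (hp : IsLinearZero E Z p)
    (hpos : PosBisectionalAt E p ∨ H565.HasGlobalCoordinatesAt E p) :
    ∃ F : M ≃ₘ^1⟮𝓘(ℂ, E), 𝓘(ℂ, E)⟯ E, F p = 0 ∧
      (∀ v : E, (mfderiv 𝓘(ℂ, E) 𝓘(ℂ, E) F p : E → E) v = v) ∧
      ∀ x : M, (mfderiv 𝓘(ℂ, E) 𝓘(ℂ, E) F x : E → E) (Z x) = linPart Z p (F x) := by
  obtain ⟨e, he, hps, hep, c, hc, b, m, hm, hlin0⟩ := hp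
  set φ : E ≃L[ℂ] (Fin (Module.finrank ℂ E) → ℂ) := b.equivFun.toContinuousLinearEquiv with hφ
  set m' : Fin (Module.finrank ℂ E) → ℝ := fun j => (m j : ℝ) with hm'
  have hm0 : ∀ j, 0 < m' j := fun j => Nat.cast_pos.2 (hm j)
  have hlin : ∀ x ∈ e.source, comps Z e x = c • AE φ m' (e x) := fun x hx => by
    rw [hlin0 x hx, sum_eq_AE]
  -- the zero
  have hZp : (Z p : E) = 0 := by
    have h1 := mfderiv_symm_comps (Z := Z) he hps
    rw [hlin p hps, hep] at h1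
    have h2 : AE φ m' (0 : E) = 0 := by
      apply ext_coord (φ := φ)
      intro j
      simp [AE_coord]
    rw [h2, smul_zero] at h1
    let T : E →L[ℂ] E := mfderiv 𝓘(ℂ, E) 𝓘(ℂ, E) e.symm 0
    have h3 : T 0 = (Z p : E) := h1
    have h4 : T 0 = 0 := T.map_zero
    exact h3.symm.trans h4
  have hfix := fixed_of_zero hZ hψ hint hZp
  obtain ⟨φ', hw⟩ := exists_weights hZ hψ hint he hps hep hm0 hlin
  have hperiod : ∀ x, ψ (c⁻¹ * (2 * Real.pi * I)) x = x := by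
    refine H577.eq_id_of_eventually (S445.cflow_mdiff hψ _) (p := p) ?_
    filter_upwards [local_formula hZ hψ hint he hps hep hm0 hlin (c⁻¹ * (2 * Real.pi * I)),
      e.open_source.mem_nhds hps] with x hx hxs
    rw [hx]
    have h1 : c * (c⁻¹ * (2 * Real.pi * I)) = 2 * Real.pi * I := by field_simp
    rw [h1]
    have h2 : LE φ m' (2 * Real.pi * I) (e x) = e x := by
      apply ext_coord (φ := φ)
      intro j
      rw [LE_coord]
      have h3 : exp (2 * Real.pi * I * (m' j : ℂ)) = 1 := by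
        rw [exp_eq_one_iff]
        refine ⟨m j, ?_⟩
        simp only [hm']
        push_cast
        ring
      rw [h3, one_mul]
    rw [h2, e.left_inv hxs]
  have hr := rescale hψ c⁻¹
  have hC : HolC E (fun ζ x => ψ (c⁻¹ * ζ) x) := ⟨hr.zero, hr.add, hperiod, hr.holo⟩
  have hw' : ∀ (ζ : ℂ) (v : E), (mfderiv 𝓘(ℂ, E) 𝓘(ℂ, E) (ψ (c⁻¹ * ζ)) p : E → E) v =
      LE φ' m' ζ v := by
    intro ζ v
    have h1 := hw (c⁻¹ * ζ) v
    have h2 : c * (c⁻¹ * ζ) = ζ := by field_simp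
    rw [h2] at h1
    exact h1
  obtain ⟨F, h0, h1, h2⟩ : ∃ F : M ≃ₘ^1⟮𝓘(ℂ, E), 𝓘(ℂ, E)⟯ E, F p = 0 ∧
      (∀ v : E, (mfderiv 𝓘(ℂ, E) 𝓘(ℂ, E) F p : E → E) v = v) ∧
      ∀ (ζ : ℂ) (x : M), F (ψ (c⁻¹ * ζ) x) = LE φ' m' ζ (F x) := by
    rcases hpos with hpos | ⟨f, hf, hfp⟩
    · obtain ⟨F, h0, h1, h2, -⟩ := main_psi hK hnn hpos hC (fun ζ => hfix _) φ' hm0 hw'
      exact ⟨F, h0, h1, h2⟩
    · have hprop : ProperSpace M := properSpace_riemannian E M
      have hfp' : ∀ v : E, (mfderiv 𝓘(ℂ, E) 𝓘(ℂ, E) f p : E → E) v = 0 → v = 0 := by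
        intro v hv
        let T : E →L[ℂ] E := mfderiv 𝓘(ℂ, E) 𝓘(ℂ, E) f p
        have h1 : Function.Injective T := hfp
        apply h1
        rw [map_zero]
        exact hv
      exact H565.main_psi_fun hf hfp' hC (fun ζ => hfix _) φ' hm0 hw'
  exact ⟨F, h0, h1, conj_field hψ hint hfix F (inv_ne_zero hc) fun t _ x =>
    (h2 t x).trans (hw' t (F x)).symm⟩

end Vale.Agent.P253.H595
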