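import Vale.Agent.P253.H595.Lin
import Vale.Agent.P253.H595.Per

/-!
P253: the final forms of the growth criterion.
-/

open scoped Manifold ContDiff Topology Bundle
open Set Metric Complex Filter IsManifold Bundle Manifold Vale.Agent.P253.Mfd
  Vale.Agent.P253.CStar

set_option maxSynthPendingDepth 3
set_option linter.unusedSectionVars false

noncomputable section

namespace Vale.Agent.P253.H595

open Vale.Agent.P253.R2

variable {E : Type*} [NormedAddCommGroup E] [NormedSpace ℂ E] [FiniteDimensional ℂ E]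
  {M : Type*} [MetricSpace M] [ChartedSpace E M] [IsManifold 𝓘(ℂ, E) 1 M]
  {Z : (x : M) → TangentSpace 𝓘(ℂ, E) x} {p : M}
  [IsManifold 𝓘(ℝ, E) ∞ M]
  [RiemannianBundle (fun x : M => TangentSpace 𝓘(ℝ, E) x)]
  [IsContMDiffRiemannianBundle 𝓘(ℝ, E) ∞ E (fun x : M => TangentSpace 𝓘(ℝ, E) x)]
  [IsRiemannianManifold 𝓘(ℝ, E) M]

/-- uniformization from a vector field of almost linear growth with a radial or linear zero -/
theorem unif_all (hK : IsKahler E M) [CompleteSpace M] [NoncompactSpace M]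
    [ConnectedSpace M] (hnn : ∀ x : M, NonnegBisectionalAt E x) (hZ : IsHolField Z)
    (h : SlowGrowth E Z ∨ SlowRadius E Z) (hp : IsRadialZero E Z p ∨ IsLinearZero E Z p)
    (hpos : PosBisectionalAt E p ∨ H565.HasGlobalCoordinatesAt E p) :
    ∃ F : M ≃ₘ^1⟮𝓘(ℂ, E), 𝓘(ℂ, E)⟯ E, F p = 0 ∧
      (∀ v : E, (mfderiv 𝓘(ℂ, E) 𝓘(ℂ, E) F p : E → E) v = v) ∧
      ∀ x : M, (mfderiv 𝓘(ℂ, E) 𝓘(ℂ, E) F x : E → E) (Z x) = linPart Z p (F x) := by
  obtain ⟨ψ, ⟨hψ, hint⟩, -⟩ := complete_iff hK hnn hZ h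
  rcases hp with hp | hp
  · exact unif_of_complete hK hnn hZ hψ hint hp hpos
  · exact unif_linear hK hnn hZ hψ hint hp hpos

/-- the characterization of `ℂⁿ` -/
theorem all_iff (hK : IsKahler E M) [CompleteSpace M] [NoncompactSpace M]
    [ConnectedSpace M] (hnn : ∀ x : M, NonnegBisectionalAt E x) :
    Nonempty (M ≃ₘ^1⟮𝓘(ℂ, E), 𝓘(ℂ, E)⟯ E) ↔
      ∃ Z : (x : M) → TangentSpace 𝓘(ℂ, E) x, IsHolField Z ∧ SlowRadius E Z ∧
        ∃ p : M, (IsRadialZero E Z p ∨ IsLinearZero E Z p) ∧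
          H565.HasGlobalCoordinatesAt E p := by
  constructor
  · rintro ⟨F⟩
    obtain ⟨Z, hZ, hr, p, hp, hf⟩ := exists_field F
    exact ⟨Z, hZ, hr, p, Or.inl hp, hf⟩
  · rintro ⟨Z, hZ, hr, p, hp, hf⟩
    obtain ⟨F, -⟩ := unif_all hK hnn hZ (Or.inr hr) hp (Or.inr hf)
    exact ⟨F⟩

/-- the characterization of `ℂⁿ` for positive curvature -/
theorem all_iff_pos (hK : IsKahler E M) [CompleteSpace M] [NoncompactSpace M]
    [ConnectedSpace M] (hnn : ∀ x : M, NonnegBisectionalAt E x)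
    (hpos : ∀ x : M, PosBisectionalAt E x) :
    Nonempty (M ≃ₘ^1⟮𝓘(ℂ, E), 𝓘(ℂ, E)⟯ E) ↔
      ∃ Z : (x : M) → TangentSpace 𝓘(ℂ, E) x, IsHolField Z ∧ SlowRadius E Z ∧
        ∃ p : M, IsRadialZero E Z p ∨ IsLinearZero E Z p := by
  constructor
  · rintro ⟨F⟩
    obtain ⟨Z, hZ, hr, p, hp, -⟩ := exists_field F
    exact ⟨Z, hZ, hr, p, Or.inl hp⟩
  · rintro ⟨Z, hZ, hr, p, hp⟩
    obtain ⟨F, -⟩ := unif_all hK hnn hZ (Or.inr hr) hp (Or.inl (hpos p))
    exact ⟨F⟩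

end Vale.Agent.P253.H595
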