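import Vale.Agent.P253.H595.Open

/-!
P253: the final forms of the growth criterion, with the local criterion.
-/

open scoped Manifold ContDiff Topology Bundle
open Set Metric Complex Filter IsManifold Bundle Manifold Vale.Agent.P253.Mfd
  Vale.Agent.P253.CStar

set_option maxSynthPendingDepth 3
set_option linter.unusedSectionVars false

noncomputable section

namespace Vale.Agent.P253.H595

open Vale.Agent.P253.R2

variable {E : Type*} [NormedAddCommGroup E] [NormedSpace ℂ E] [FiniteDimensional ℂ E]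
  {M : Type*} [MetricSpace M] [ChartedSpace E M]
  {Z : (x : M) → TangentSpace 𝓘(ℂ, E) x} {p : M}

variable (E) in
/-- all complex-time orbits of `Z` which start in some nonempty open set are entire -/
def EntireOnOpen (Z : (x : M) → TangentSpace 𝓘(ℂ, E) x) : Prop :=
  ∃ U : Set M, IsOpen U ∧ U.Nonempty ∧ ∀ x ∈ U,
    ∃ f : ℂ → M, f 0 = x ∧ ∀ t : ℂ, IntAt Z f t

variable [IsManifold 𝓘(ℂ, E) 1 M] [IsManifold 𝓘(ℝ, E) ∞ M]
  [RiemannianBundle (fun x : M => TangentSpace 𝓘(ℝ, E) x)]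
  [IsContMDiffRiemannianBundle 𝓘(ℝ, E) ∞ E (fun x : M => TangentSpace 𝓘(ℝ, E) x)]
  [IsRiemannianManifold 𝓘(ℝ, E) M]

/-- completeness from an open set of entire orbits -/
theorem field_complete_open (hK : IsKahler E M) [CompleteSpace M] [ConnectedSpace M]
    (hnn : ∀ x : M, NonnegBisectionalAt E x) (hZ : IsHolField Z) (h : EntireOnOpen E Z) :
    ∃! ψ : ℂ → M → M, IsHolCFlow E ψ ∧ ∀ x ζ, IntAt Z (fun w => ψ w x) ζ := by
  have hLF := locFlow_of_field hZ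
  obtain ⟨U, hU, hne, h⟩ := h
  obtain ⟨hD, h0, hadd, hsm⟩ := complete_of_open (R2.H451.kp_prop hK hnn) hLF hU hne
    (fun x hx t => by
      obtain ⟨f, hf0, hf⟩ := h x hx
      exact StarInt.mem_DF (U := univ) (f := f)
        ⟨isOpen_univ, starConvex_univ 0, mem_univ _, fun ζ _ => hf ζ, hf0⟩ (mem_univ t))
  refine ⟨FF (IntAt Z), ⟨⟨h0, hadd, hsm⟩, fun x ζ => FF_int hLF (hD ▸ mem_univ _)⟩, ?_⟩
  rintro ψ ⟨hψ, hint⟩
  exact action_unique hZ hψ.zero h0 hint (fun x ζ => FF_int hLF (hD ▸ mem_univ _))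

/-- the criteria of completeness -/
theorem completeB (hK : IsKahler E M) [CompleteSpace M] [ConnectedSpace M]
    (hnn : ∀ x : M, NonnegBisectionalAt E x) (hZ : IsHolField Z)
    (h : SlowGrowth E Z ∨ SlowRadius E Z ∨ EntireOnOpen E Z) :
    ∃! ψ : ℂ → M → M, IsHolCFlow E ψ ∧ ∀ x ζ, IntAt Z (fun w => ψ w x) ζ := by
  rcases h with h | h | h
  · exact complete_iff hK hnn hZ (Or.inl h)
  · exact complete_iff hK hnn hZ (Or.inr h)
  · exact field_complete_open hK hnn hZ h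

/-- uniformization from a vector field with a radial or linear zero -/
theorem unifB (hK : IsKahler E M) [CompleteSpace M] [NoncompactSpace M]
    [ConnectedSpace M] (hnn : ∀ x : M, NonnegBisectionalAt E x) (hZ : IsHolField Z)
    (h : SlowGrowth E Z ∨ SlowRadius E Z ∨ EntireOnOpen E Z)
    (hp : IsRadialZero E Z p ∨ IsLinearZero E Z p)
    (hpos : PosBisectionalAt E p ∨ H565.HasGlobalCoordinatesAt E p) :
    ∃ F : M ≃ₘ^1⟮𝓘(ℂ, E), 𝓘(ℂ, E)⟯ E, F p = 0 ∧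
      (∀ v : E, (mfderiv 𝓘(ℂ, E) 𝓘(ℂ, E) F p : E → E) v = v) ∧
      ∀ x : M, (mfderiv 𝓘(ℂ, E) 𝓘(ℂ, E) F x : E → E) (Z x) = linPart Z p (F x) := by
  obtain ⟨ψ, ⟨hψ, hint⟩, -⟩ := completeB hK hnn hZ h
  rcases hp with hp | hp
  · exact unif_of_complete hK hnn hZ hψ hint hp hpos
  · exact unif_linear hK hnn hZ hψ hint hp hpos

/-- domains of `ℂⁿ` on which a contracting linear field is complete -/
theorem target_univB (hK : IsKahler E M) [CompleteSpace M] [ConnectedSpace M]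
    (hnn : ∀ x : M, NonnegBisectionalAt E x) (hZ : IsHolField Z)
    (h : SlowGrowth E Z ∨ SlowRadius E Z ∨ EntireOnOpen E Z) {e : OpenPartialHomeomorph M E}
    (he : e ∈ maximalAtlas 𝓘(ℂ, E) 1 M) (hs : e.source = univ) {A : E →L[ℂ] E}
    (hA : ∀ z : E, (0 : E) ∈ closure (range fun ζ : ℂ => NormedSpace.exp (ζ • A) z))
    (h0 : (0 : E) ∈ e.target) (hZA : ∀ x : M, comps Z e x = A (e x)) : e.target = univ := by
  obtain ⟨ψ, ⟨hψ, hint⟩, -⟩ := completeB hK hnn hZ h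
  exact target_univ_of_linear hψ hint he hs hA h0 hZA

/-- `ℂⁿ` has an entire vector field with a radial zero -/
theorem exists_fieldB (F : M ≃ₘ^1⟮𝓘(ℂ, E), 𝓘(ℂ, E)⟯ E) :
    ∃ Z : (x : M) → TangentSpace 𝓘(ℂ, E) x, IsHolField Z ∧ (SlowRadius E Z ∧ EntireOnOpen E Z) ∧
      ∃ p : M, IsRadialZero E Z p ∧ H565.HasGlobalCoordinatesAt E p :=
  ⟨gen (hthom F), gen_field (hthom_flow F), ⟨⟨F.symm 0, fun ε _ R₀ => ⟨R₀ + 1, by linarith,
    fun x _ => ⟨fun ζ => hthom F ζ x, (hthom_flow F).zero x,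
      fun t _ => gen_int (hthom_flow F) x t⟩⟩⟩, univ, isOpen_univ, ⟨F.symm 0, mem_univ _⟩,
      fun x _ => ⟨fun ζ => hthom F ζ x, (hthom_flow F).zero x,
        fun t => gen_int (hthom_flow F) x t⟩⟩, F.symm 0, hthom_attr F,
    H565.hasGlobalCoordinatesAt_of_diffeo F _⟩

/-- the characterization of `ℂⁿ` -/
theorem all_iffB (hK : IsKahler E M) [CompleteSpace M] [NoncompactSpace M]
    [ConnectedSpace M] (hnn : ∀ x : M, NonnegBisectionalAt E x) :
    Nonempty (M ≃ₘ^1⟮𝓘(ℂ, E), 𝓘(ℂ, E)⟯ E) ↔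
      ∃ Z : (x : M) → TangentSpace 𝓘(ℂ, E) x, IsHolField Z ∧
        (SlowRadius E Z ∨ EntireOnOpen E Z) ∧
        ∃ p : M, (IsRadialZero E Z p ∨ IsLinearZero E Z p) ∧
          H565.HasGlobalCoordinatesAt E p := by
  constructor
  · rintro ⟨F⟩
    obtain ⟨Z, hZ, hr, p, hp, hf⟩ := exists_fieldB F
    exact ⟨Z, hZ, Or.inl hr.1, p, Or.inl hp, hf⟩
  · rintro ⟨Z, hZ, hr, p, hp, hf⟩
    obtain ⟨F, -⟩ := unifB hK hnn hZ (Or.inr hr) hp (Or.inr hf)
    exact ⟨F⟩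

/-- the characterization of `ℂⁿ` for positive curvature -/
theorem all_iff_posB (hK : IsKahler E M) [CompleteSpace M] [NoncompactSpace M]
    [ConnectedSpace M] (hnn : ∀ x : M, NonnegBisectionalAt E x)
    (hpos : ∀ x : M, PosBisectionalAt E x) :
    Nonempty (M ≃ₘ^1⟮𝓘(ℂ, E), 𝓘(ℂ, E)⟯ E) ↔
      ∃ Z : (x : M) → TangentSpace 𝓘(ℂ, E) x, IsHolField Z ∧
        (SlowRadius E Z ∨ EntireOnOpen E Z) ∧
        ∃ p : M, IsRadialZero E Z p ∨ IsLinearZero E Z p := by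
  constructor
  · rintro ⟨F⟩
    obtain ⟨Z, hZ, hr, p, hp, hf⟩ := exists_fieldB F
    exact ⟨Z, hZ, Or.inl hr.1, p, Or.inl hp⟩
  · rintro ⟨Z, hZ, hr, p, hp⟩
    obtain ⟨F, -⟩ := unifB hK hnn hZ (Or.inr hr) hp (Or.inl (hpos p))
    exact ⟨F⟩

end Vale.Agent.P253.H595
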