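import Vale.Agent.P253.H595.Vf

/-!
P253: the radius of existence of complex-time integral curves from a bound for the length of the
vector field.
-/

open scoped Manifold ContDiff Topology Bundle
open Set Metric Complex Filter IsManifold Bundle MeasureTheory Vale.Agent.P253.Mfd

set_option maxSynthPendingDepth 3
set_option linter.unusedSectionVars false

noncomputable section

namespace Vale.Agent.P253.H595

variable {E : Type*} [NormedAddCommGroup E] [NormedSpace ℂ E] [FiniteDimensional ℂ E]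
  {M : Type*} [MetricSpace M] [ChartedSpace E M]
  [IsManifold 𝓘(ℂ, E) 1 M] [IsManifold 𝓘(ℝ, E) ∞ M]

/-- holomorphic curves are smooth for the underlying real structures -/
theorem contMDiffAt_real_curve {f : ℂ → M} {c : ℂ}
    (hf : ∀ᶠ ζ in 𝓝 c, MDifferentiableAt 𝓘(ℂ, ℂ) 𝓘(ℂ, E) f ζ) :
    ContMDiffAt 𝓘(ℝ, ℂ) 𝓘(ℝ, E) ∞ f c := by
  have hCE : CompleteSpace E := FiniteDimensional.complete ℂ E
  have he : chartAt E (f c) ∈ maximalAtlas 𝓘(ℂ, E) 1 M := chart_mem_maximalAtlas (f c)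
  rw [contMDiffAt_iff]
  refine ⟨hf.self_of_nhds.continuousAt, ?_⟩
  set e := chartAt E (f c) with hedef
  have h1 : ∀ᶠ ζ in 𝓝 c, f ζ ∈ e.source :=
    hf.self_of_nhds.continuousAt.eventually (e.open_source.mem_nhds (mem_chart_source E (f c)))
  obtain ⟨W, hW, hWo, hcW⟩ := _root_.eventually_nhds_iff.1 (hf.and h1)
  have hd : DifferentiableOn ℂ (e ∘ f) W := fun z hz =>
    (MDifferentiableAt.comp z (g := e) (f := f) (mdiff_of_mem he (hW z hz).2)
      (hW z hz).1).differentiableAt.differentiableWithinAt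
  have h4 : ContDiffAt ℝ ∞ (e ∘ f) c :=
    ((contDiffOn_of_differentiableOn_complex hWo hd).restrict_scalars ℝ).contDiffAt
      (hWo.mem_nhds hcW)
  simp only [extChartAt, mfld_simps]
  exact h4.contDiffWithinAt

/-- the velocity of the restriction of a complex-time integral curve to a real line -/
theorem mfderiv_line {Z : (x : M) → TangentSpace 𝓘(ℂ, E) x} {f : ℂ → M} {t : ℂ} {r : ℝ}
    (h : IntAt Z f (r * t)) :
    HasMFDerivAt 𝓘(ℝ, ℝ) 𝓘(ℝ, E) (fun r : ℝ => f (r * t)) r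
      ((1 : ℝ →L[ℝ] ℝ).smulRight (show TangentSpace 𝓘(ℝ, E) (f (r * t)) from
        (t • (Z (f (r * t)) : E)))) := by
  let z : E := Z (f (r * t))
  let L : ℂ →L[ℂ] E := (1 : ℂ →L[ℂ] ℂ).smulRight z
  have h1 : HasMFDerivAt 𝓘(ℝ, ℂ) 𝓘(ℝ, E) f (r * t) (L.restrictScalars ℝ) := by
    have h2 := h.2
    exact ⟨h.1, HasFDerivWithinAt.restrictScalars ℝ h2⟩
  have h2 : HasFDerivAt (fun r : ℝ => (r : ℂ) * t) ((1 : ℝ →L[ℝ] ℝ).smulRight t) r := by
    have h3 : HasDerivAt (fun r : ℝ => (r : ℂ) * t) t r := by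
      simpa using ((hasDerivAt_id r).ofReal_comp).mul_const t
    exact h3.hasFDerivAt
  have h3 := h1.comp r h2.hasMFDerivAt
  have h4 : (L.restrictScalars ℝ).comp ((1 : ℝ →L[ℝ] ℝ).smulRight t) =
      (1 : ℝ →L[ℝ] ℝ).smulRight (t • z) := by
    ext
    simp [L]
  exact h3.congr_mfderiv h4

section metric

variable [RiemannianBundle (fun x : M => TangentSpace 𝓘(ℝ, E) x)]
  [IsContMDiffRiemannianBundle 𝓘(ℝ, E) ∞ E (fun x : M => TangentSpace 𝓘(ℝ, E) x)]

/-- the length of a tangent vector in the Riemannian metric -/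
def tnorm (x : M) (v : E) : ℝ := ‖(show TangentSpace 𝓘(ℝ, E) x from v)‖

theorem dsymm_chartAt (x : M) :
    dsymm (chartAt E x) (chartAt E x x) = ContinuousLinearMap.id ℝ E := by
  have he : chartAt E x ∈ maximalAtlas 𝓘(ℂ, E) 1 M := chart_mem_maximalAtlas x
  have her := mem_maximalAtlas_real he
  have hx : x ∈ (chartAt E x).source := mem_chart_source E x
  have h1 := hasFDerivAt_dsymm her ((chartAt E x).map_source hx)
  rw [(chartAt E x).left_inv hx] at h1
  refine h1.unique ((hasFDerivAt_id _).congr_of_eventuallyEq ?_)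
  filter_upwards [(chartAt E x).open_target.mem_nhds ((chartAt E x).map_source hx)] with z hz
  exact (chartAt E x).right_inv hz

theorem tnorm_sq (x : M) (v : E) : tnorm x v ^ 2 = innerAt x v v := by
  unfold tnorm innerAt
  rw [← real_inner_self_eq_norm_sq]

variable (E) in
/-- the length of the vector `Z x` in the Riemannian metric -/
def fnorm (Z : (x : M) → TangentSpace 𝓘(ℂ, E) x) (x : M) : ℝ :=
  ‖(show TangentSpace 𝓘(ℝ, E) x from Z x)‖

theorem tnorm_nonneg (x : M) (v : E) : 0 ≤ tnorm x v := norm_nonneg _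

theorem tnorm_I (hK : IsKahler E M) (x : M) (v : E) : tnorm x (I • v) = tnorm x v := by
  have he : chartAt E x ∈ maximalAtlas 𝓘(ℂ, E) 1 M := chart_mem_maximalAtlas x
  have hx : x ∈ (chartAt E x).source := mem_chart_source E x
  have h1 := (hK _ he _ ((chartAt E x).map_source hx)).1 v v
  have h2 : ∀ w : E, chartMetric (chartAt E x) (chartAt E x x) w w = innerAt x w w := by
    intro w
    have h3 : chartMetric (chartAt E x) (chartAt E x x) w w =
        innerAt ((chartAt E x).symm (chartAt E x x)) (dsymm (chartAt E x) (chartAt E x x) w)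
          (dsymm (chartAt E x) (chartAt E x x) w) := rfl
    rw [h3, dsymm_chartAt, (chartAt E x).left_inv hx]
    rfl
  rw [h2, h2, ← tnorm_sq, ← tnorm_sq] at h1
  exact (pow_left_inj₀ (tnorm_nonneg _ _) (tnorm_nonneg _ _) two_ne_zero).1 h1

theorem tnorm_smul_le (hK : IsKahler E M) (x : M) (t : ℂ) (v : E) :
    tnorm x (t • v) ≤ 2 * ‖t‖ * tnorm x v := by
  have h1 : t • v = t.re • v + t.im • (I • v) := by
    conv_lhs => rw [← re_add_im t, add_smul, mul_smul]
    rfl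
  have h2 : tnorm x (t • v) ≤ tnorm x (t.re • v) + tnorm x (t.im • (I • v)) := by
    rw [h1]
    exact norm_add_le (show TangentSpace 𝓘(ℝ, E) x from (t.re • v))
      (show TangentSpace 𝓘(ℝ, E) x from (t.im • (I • v)))
  have h3 : tnorm x (t.re • v) = |t.re| * tnorm x v := by
    have := norm_smul t.re (show TangentSpace 𝓘(ℝ, E) x from v)
    rw [Real.norm_eq_abs] at this
    exact this
  have h4 : tnorm x (t.im • (I • v)) = |t.im| * tnorm x v := by
    have := norm_smul t.im (show TangentSpace 𝓘(ℝ, E) x from (I • v))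
    rw [Real.norm_eq_abs] at this
    rw [← tnorm_I hK x v]
    exact this
  rw [h3, h4] at h2
  have h5 := abs_re_le_norm t
  have h6 := abs_im_le_norm t
  have h7 := tnorm_nonneg x v
  nlinarith

variable [IsRiemannianManifold 𝓘(ℝ, E) M]

open scoped ENNReal

/-- a point of the ball of radius `D` around `x` is not left before the time `D / (2 C)` -/
theorem dist_FF_le (hK : IsKahler E M) {Z : (x : M) → TangentSpace 𝓘(ℂ, E) x}
    (hZ : IsHolField Z) {x : M} {C D : ℝ} (hC : 0 ≤ C)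
    (hb : ∀ y, dist x y ≤ D → fnorm E Z y ≤ C) {t : ℂ} {b : ℝ} (hb0 : 0 ≤ b)
    (hD : ∀ r ∈ Icc (0:ℝ) b, ((r : ℂ) * t, x) ∈ DF (IntAt Z)) (htb : 2 * ‖t‖ * C * b < D) :
    dist x (FF (IntAt Z) (b * t) x) ≤ 2 * ‖t‖ * C * b := by
  have hLF := locFlow_of_field hZ
  set P := IntAt Z with hP
  set L : ℝ := 2 * ‖t‖ * C with hL
  have hL0 : 0 ≤ L := by positivity
  set γ : ℝ → M := fun r => FF P (r * t) x with hγ
  have hγ0 : γ 0 = x := by simp only [hγ, ofReal_zero, zero_mul, FF_zero hLF]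
  have hγs : ∀ r ∈ Icc (0:ℝ) b, ContMDiffAt 𝓘(ℝ, ℝ) 𝓘(ℝ, E) ∞ γ r := by
    intro r hr
    have h1 : ∀ᶠ ζ in 𝓝 ((r:ℂ) * t), MDifferentiableAt 𝓘(ℂ, ℂ) 𝓘(ℂ, E) (fun w => FF P w x) ζ := by
      filter_upwards [(isOpen_slice (P := P) x).mem_nhds (hD r hr)] with ζ hζ
      exact hLF.mdiff (FF_int hLF hζ)
    have h2 := contMDiffAt_real_curve h1
    have h3 : ContMDiffAt 𝓘(ℝ, ℝ) 𝓘(ℝ, ℂ) ∞ (fun r : ℝ => (r : ℂ) * t) r := by
      have : ContDiff ℝ ∞ (fun r : ℝ => (r : ℂ) * t) := ofRealCLM.contDiff.mul contDiff_const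
      exact this.contMDiff.contMDiffAt
    exact ContMDiffAt.comp r (g := fun w => FF P w x) (f := fun r : ℝ => (r : ℂ) * t) h2 h3
  have hspeed : ∀ r ∈ Icc (0:ℝ) b, dist x (γ r) ≤ D →
      ‖(mfderiv 𝓘(ℝ, ℝ) 𝓘(ℝ, E) γ r 1 : TangentSpace 𝓘(ℝ, E) (γ r))‖ ≤ L := by
    intro r hr hd
    have h1 := (mfderiv_line (Z := Z) (f := fun w => FF P w x) (t := t) (r := r)
      (FF_int hLF (hD r hr))).mfderiv
    have h2 : (mfderiv 𝓘(ℝ, ℝ) 𝓘(ℝ, E) γ r 1 : TangentSpace 𝓘(ℝ, E) (γ r)) =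
        (show TangentSpace 𝓘(ℝ, E) (γ r) from (t • (Z (γ r) : E))) := by
      have h3 := congrArg (fun T : ℝ →L[ℝ] E => T 1) h1
      refine Eq.trans h3 ?_
      change (1:ℝ) • (t • (Z (γ r) : E)) = _
      rw [one_smul]
    rw [h2]
    refine (tnorm_smul_le (E := E) hK (γ r) t (Z (γ r))).trans ?_
    rw [hL]
    exact mul_le_mul_of_nonneg_left (hb _ hd) (by positivity)
  have hdist : ∀ c ∈ Icc (0:ℝ) b, (∀ r ∈ Icc (0:ℝ) c, dist x (γ r) ≤ D) →
      dist x (γ c) ≤ L * c := by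
    intro c hc hbd
    have hsub : Icc (0:ℝ) c ⊆ Icc 0 b := Icc_subset_Icc_right hc.2
    have h1 : edist (γ 0) (γ c) ≤
        ∫⁻ r in Ioo 0 c, ‖(mfderiv 𝓘(ℝ, ℝ) 𝓘(ℝ, E) γ r 1 : TangentSpace 𝓘(ℝ, E) (γ r))‖ₑ := by
      rw [IsRiemannianManifold.out (I := 𝓘(ℝ, E)) (γ 0) (γ c)]
      refine (Manifold.riemannianEDist_le_pathELength (γ := γ) (a := 0) (b := c)
        (fun r hr => ((hγs r (hsub hr)).of_le (by simp)).contMDiffWithinAt) rfl rfl
          hc.1).trans_eq ?_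
      rw [Manifold.pathELength_eq_lintegral_mfderiv_Ioo]
    have h2 : ∫⁻ r in Ioo 0 c, ‖(mfderiv 𝓘(ℝ, ℝ) 𝓘(ℝ, E) γ r 1 : TangentSpace 𝓘(ℝ, E) (γ r))‖ₑ ≤
        ∫⁻ r in Ioo 0 c, ENNReal.ofReal L := by
      apply setLIntegral_mono measurable_const
      intro r hr
      rw [← ofReal_norm]
      apply ENNReal.ofReal_le_ofReal
      exact hspeed r (hsub (Ioo_subset_Icc_self hr)) (hbd r (Ioo_subset_Icc_self hr))
    rw [setLIntegral_const, Real.volume_Ioo, ← ENNReal.ofReal_mul hL0] at h2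
    have h3 := h1.trans h2
    rw [edist_dist, ENNReal.ofReal_le_ofReal_iff (mul_nonneg hL0 (by linarith [hc.1])), hγ0,
      sub_zero] at h3
    exact h3
  have hin : ∀ r ∈ Icc (0:ℝ) b, dist x (γ r) < D := by
    intro t₁ ht₁
    by_contra hcon
    push Not at hcon
    set S : Set ℝ := {r ∈ Icc (0:ℝ) t₁ | D ≤ dist x (γ r)} with hS
    have hsub : Icc (0:ℝ) t₁ ⊆ Icc 0 b := Icc_subset_Icc_right ht₁.2
    have hcont : ContinuousOn (fun r => dist x (γ r)) (Icc 0 t₁) := fun r hr =>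
      ContinuousAt.continuousWithinAt (continuousAt_const.dist (hγs r (hsub hr)).continuousAt)
    have hSc : IsClosed S := by
      have := hcont.preimage_isClosed_of_isClosed isClosed_Icc (isClosed_Ici (a := D))
      exact this
    have hSne : S.Nonempty := ⟨t₁, ⟨ht₁.1, le_rfl⟩, hcon⟩
    have hSb : BddBelow S := ⟨0, fun t ht => ht.1.1⟩
    have ht₀ := hSc.csInf_mem hSne hSb
    set t₀ := sInf S with ht₀d
    have hlow : ∀ r ∈ Ico (0:ℝ) t₀, dist x (γ r) < D := by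
      intro r hr
      by_contra h
      push Not at h
      have : t₀ ≤ r := csInf_le hSb ⟨⟨hr.1, hr.2.le.trans ht₀.1.2⟩, h⟩
      linarith [hr.2]
    have hDpos : 0 < D := lt_of_le_of_lt (mul_nonneg hL0 hb0) htb
    have ht₀pos : 0 < t₀ := by
      rcases ht₀.1.1.eq_or_lt with h | h
      · exfalso
        have h1 := ht₀.2
        rw [← h, hγ0, dist_self] at h1
        linarith
      · exact h
    have hle : dist x (γ t₀) ≤ D := by
      have h1 : Tendsto (fun r => dist x (γ r)) (𝓝[<] t₀) (𝓝 (dist x (γ t₀))) := by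
        have h2 : ContinuousAt (fun r => dist x (γ r)) t₀ :=
          continuousAt_const.dist (hγs t₀ (hsub ht₀.1)).continuousAt
        exact h2.tendsto.mono_left nhdsWithin_le_nhds
      refine le_of_tendsto h1 ?_
      filter_upwards [Ioo_mem_nhdsLT ht₀pos] with r hr
      exact (hlow r ⟨hr.1.le, hr.2⟩).le
    have h1 := hdist t₀ (hsub ht₀.1) (fun r hr => by
      rcases hr.2.lt_or_eq with h | h
      · exact (hlow r ⟨hr.1, h⟩).le
      · rw [h]; exact hle)
    have h2 : L * t₀ ≤ L * b := mul_le_mul_of_nonneg_left (hsub ht₀.1).2 hL0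
    linarith [ht₀.2]
  exact hdist b ⟨hb0, le_rfl⟩ fun r hr => (hin r hr).le

/-- the orbit of `x` is defined for `2 ‖t‖ C < D` if the field is bounded by `C` on the ball of
radius `D` around `x` -/
theorem mem_DF_of_bound (hK : IsKahler E M) [ProperSpace M]
    {Z : (x : M) → TangentSpace 𝓘(ℂ, E) x} (hZ : IsHolField Z) {x : M} {C D : ℝ} (hC : 0 ≤ C)
    (hb : ∀ y, dist x y ≤ D → fnorm E Z y ≤ C) {t : ℂ} (ht : 2 * ‖t‖ * C < D) :
    (t, x) ∈ DF (IntAt Z) := by
  have hLF := locFlow_of_field hZ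
  set P := IntAt Z with hP
  by_contra hcon
  set S : Set ℝ := {r ∈ Icc (0:ℝ) 1 | ((r : ℂ) * t, x) ∉ DF P} with hS
  have hSc : IsClosed S := by
    have h1 : IsClosed {r : ℝ | ((r : ℂ) * t, x) ∉ DF P} := by
      have h2 : IsOpen {r : ℝ | ((r : ℂ) * t, x) ∈ DF P} :=
        (isOpen_slice (P := P) x).preimage (f := fun r : ℝ => (r : ℂ) * t) (by fun_prop)
      exact h2.isClosed_compl
    exact isClosed_Icc.inter h1
  have hSne : S.Nonempty := ⟨1, ⟨zero_le_one, le_rfl⟩, by simpa using hcon⟩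
  have hSb : BddBelow S := ⟨0, fun r hr => hr.1.1⟩
  have hr₁ := hSc.csInf_mem hSne hSb
  set r₁ := sInf S with hr₁d
  have hlow : ∀ r ∈ Ico (0:ℝ) r₁, ((r : ℂ) * t, x) ∈ DF P := by
    intro r hr
    by_contra h
    have : r₁ ≤ r := csInf_le hSb ⟨⟨hr.1, hr.2.le.trans hr₁.1.2⟩, h⟩
    linarith [hr.2]
  have hr₁pos : 0 < r₁ := by
    rcases hr₁.1.1.eq_or_lt with h | h
    · exfalso
      apply hr₁.2
      rw [← h, ofReal_zero, zero_mul]
      exact zero_mem_DF hLF x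
    · exact h
  have hesc := tendsto_cocompact hLF (t₀ := (r₁ : ℂ) * t) (x₀ := x) hr₁.2 (fun s hs => by
    have h1 : (s : ℂ) * ((r₁ : ℂ) * t) = ((s * r₁ : ℝ) : ℂ) * t := by push_cast; ring
    rw [h1]
    refine hlow _ ⟨mul_nonneg hs.1 hr₁pos.le, ?_⟩
    nlinarith [hs.2])
  have hcurve : Tendsto (fun r : ℝ => ((r : ℂ) * t, x)) (𝓝[<] r₁) (𝓝[DF P] ((r₁ : ℂ) * t, x)) := by
    refine tendsto_nhdsWithin_of_tendsto_nhds_of_eventually_within _ ?_ ?_
    · have hc : Continuous (fun r : ℝ => ((r : ℂ) * t, x)) := by fun_prop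
      exact (hc.tendsto r₁).mono_left nhdsWithin_le_nhds
    · filter_upwards [Ioo_mem_nhdsLT hr₁pos] with r hr
      exact hlow r ⟨hr.1.le, hr.2⟩
  have h1 := hesc.comp hcurve
  have h2 : ∀ᶠ y in cocompact M, y ∉ closedBall x D :=
    (isCompact_closedBall x D).compl_mem_cocompact
  obtain ⟨r, h3, h4⟩ := ((h1.eventually h2).and (Ioo_mem_nhdsLT hr₁pos)).exists
  apply h3
  have h5 := dist_FF_le hK hZ hC hb (t := t) (b := r) h4.1.le
    (fun s hs => hlow s ⟨hs.1, hs.2.trans_lt h4.2⟩) (by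
      have h6 : 0 ≤ 2 * ‖t‖ * C := by positivity
      nlinarith [h4.2, hr₁.1.2])
  rw [mem_closedBall, dist_comm]
  simp only [Function.comp_apply]
  refine h5.trans ?_
  have h6 : 0 ≤ 2 * ‖t‖ * C := by positivity
  nlinarith [h4.2, hr₁.1.2]

end metric

end Vale.Agent.P253.H595
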