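import Vale.Agent.P253.R2.H618.Liou2
import Vale.Agent.P253.H595.Cfg2

/-!
P253: the radius of existence of complex-time orbits. On a complete Kähler manifold of nonnegative
bisectional curvature the flow is complete if the radius of existence decays slower than every
power of the distance (along a sequence of spheres).
-/

open scoped Manifold ContDiff Topology
open Set Metric Complex Filter IsManifold Bundle Vale.Agent.P253.Mfd

set_option maxSynthPendingDepth 3
set_option linter.unusedSectionVars false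

noncomputable section

namespace Vale.Agent.P253.H595

variable {E : Type*} [NormedAddCommGroup E] [NormedSpace ℂ E] [FiniteDimensional ℂ E]
  {M : Type*} [MetricSpace M] [ChartedSpace E M]
  {P : (ℂ → M) → ℂ → Prop}

variable (P) in
/-- the logarithm of the radius of the largest disc on which the orbit of `x` is defined -/
def lr (x : M) : EReal := ⨅ (t : ℂ) (_ : (t, x) ∉ DF P), ((Real.log ‖t‖ : ℝ) : EReal)

theorem lr_le {x : M} {t : ℂ} (h : (t, x) ∉ DF P) : lr P x ≤ ((Real.log ‖t‖ : ℝ) : EReal) :=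
  iInf₂_le (f := fun (t : ℂ) (_ : (t, x) ∉ DF P) => ((Real.log ‖t‖ : ℝ) : EReal)) t h

theorem le_lr {x : M} {T : EReal} (h : ∀ t : ℂ, (t, x) ∉ DF P → T ≤ ((Real.log ‖t‖ : ℝ) : EReal)) :
    T ≤ lr P x := le_iInf₂ h

theorem ne_zero_of_notMem (hZ : LocFlow E P) {x : M} {t : ℂ} (h : (t, x) ∉ DF P) : t ≠ 0 := by
  rintro rfl
  exact h (zero_mem_DF hZ x)

/-- the orbit is defined on the disc -/
theorem mem_DF_of_norm (hZ : LocFlow E P) {x : M} {T : ℝ} (h : (T : EReal) ≤ lr P x) {t : ℂ}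
    (ht : ‖t‖ < Real.exp T) : (t, x) ∈ DF P := by
  by_contra hcon
  have h0 : 0 < ‖t‖ := norm_pos_iff.2 (ne_zero_of_notMem hZ hcon)
  have h1 := h.trans (lr_le hcon)
  have h2 : T ≤ Real.log ‖t‖ := by exact_mod_cast h1
  have h3 := (Real.log_lt_iff_lt_exp h0).2 ht
  linarith

theorem le_lr_of_ball (hZ : LocFlow E P) {x : M} {δ : ℝ} (hδ : 0 < δ)
    (h : ∀ t ∈ ball (0:ℂ) δ, (t, x) ∈ DF P) : ((Real.log δ : ℝ) : EReal) ≤ lr P x := by
  refine le_lr fun t ht => ?_
  have h1 : δ ≤ ‖t‖ := by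
    by_contra h2
    rw [not_le] at h2
    exact ht (h t (by rwa [mem_ball_zero_iff]))
  exact_mod_cast Real.log_le_log hδ h1

theorem lr_ne_bot (hZ : LocFlow E P) (x : M) : lr P x ≠ ⊥ := by
  obtain ⟨δ, hδ, U, -, hx, h1⟩ := exists_local_FF hZ x
  have h2 := le_lr_of_ball hZ hδ fun t ht => (h1 x hx t ht).1
  intro h3
  rw [h3] at h2
  exact absurd h2 (not_le.2 (EReal.bot_lt_coe _))

/-- the infimum is attained -/
theorem exists_obstruction' (hZ : LocFlow E P) {x : M} {T : ℝ} (hT : lr P x = T) :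
    ∃ t₀ : ℂ, ‖t₀‖ = Real.exp T ∧ (t₀, x) ∉ DF P ∧
      ∀ s ∈ Ico (0:ℝ) 1, ((s : ℂ) * t₀, x) ∈ DF P := by
  set C : Set ℂ := {t | (t, x) ∉ DF P} with hC
  have hCc : IsClosed C := (isOpen_slice (P := P) x).isClosed_compl
  have hne : C.Nonempty := by
    by_contra h1
    rw [not_nonempty_iff_eq_empty] at h1
    have h2 : ∀ t : ℂ, (t, x) ∈ DF P := by
      intro t
      by_contra h3
      have : t ∈ C := h3
      rw [h1] at this
      exact this
    have h3 : lr P x = ⊤ := by
      refine top_le_iff.1 (le_lr fun w hw => absurd (h2 _) hw)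
    rw [h3] at hT
    exact EReal.coe_ne_top _ hT.symm
  obtain ⟨t₀, ht₀, hmin⟩ := hCc.exists_infDist_eq_dist hne 0
  have hmin' : ∀ t ∈ C, ‖t₀‖ ≤ ‖t‖ := by
    intro t ht
    have h1 := infDist_le_dist_of_mem (x := (0:ℂ)) ht
    rw [hmin, dist_zero_left, dist_zero_left] at h1
    exact h1
  have h0 : 0 < ‖t₀‖ := norm_pos_iff.2 (ne_zero_of_notMem hZ ht₀)
  have h1 : lr P x = ((Real.log ‖t₀‖ : ℝ) : EReal) := by
    refine le_antisymm (lr_le ht₀) (le_lr fun t ht => ?_)
    exact_mod_cast Real.log_le_log h0 (hmin' t ht)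
  have h2 : ‖t₀‖ = Real.exp T := by
    rw [h1] at hT
    have h3 : Real.log ‖t₀‖ = T := by exact_mod_cast hT
    rw [← h3, Real.exp_log h0]
  refine ⟨t₀, h2, ht₀, fun s hs => ?_⟩
  refine mem_DF_of_norm hZ hT.ge ?_
  rw [norm_mul, norm_real, Real.norm_of_nonneg hs.1, h2]
  have := Real.exp_pos T
  nlinarith [hs.2]

theorem lsc_lr (hZ : LocFlow E P) : LowerSemicontinuous (lr P) := by
  intro x y hy
  obtain ⟨t, ht1, ht2⟩ := EReal.lt_iff_exists_real_btwn.1 hy
  obtain ⟨t', ht3, ht4⟩ := EReal.lt_iff_exists_real_btwn.1 ht2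
  have htt : t < t' := by exact_mod_cast ht3
  have h1 : ∀ τ ∈ closedBall (0:ℂ) (Real.exp t), ∀ᶠ z : M × ℂ in 𝓝 (x, τ), (z.2, z.1) ∈ DF P := by
    intro τ hτ
    have h2 : (τ, x) ∈ DF P := by
      refine mem_DF_of_norm hZ ht4.le (lt_of_le_of_lt (mem_closedBall_zero_iff.1 hτ) ?_)
      exact Real.exp_lt_exp.2 htt
    have h3 : ContinuousAt (fun z : M × ℂ => (z.2, z.1)) (x, τ) := by fun_prop
    exact h3.eventually ((isOpen_DF hZ).mem_nhds h2)
  have h2 := (isCompact_closedBall (0:ℂ) (Real.exp t)).eventually_forall_of_forall_eventually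
    (x₀ := x) (P := fun (x' : M) (τ : ℂ) => (τ, x') ∈ DF P) h1
  filter_upwards [h2] with x' hx'
  refine lt_of_lt_of_le ht1 (le_lr fun w hw => ?_)
  have h3 : Real.exp t < ‖w‖ := by
    by_contra hcon
    rw [not_lt] at hcon
    exact hw (hx' w (mem_closedBall_zero_iff.2 hcon))
  have h4 := (Real.lt_log_iff_exp_lt ((Real.exp_pos t).trans h3)).2 h3
  exact_mod_cast h4.le

theorem usc_neg_lr (hZ : LocFlow E P) : UpperSemicontinuous (fun x => -lr P x) := by
  intro x y hy
  have h1 : -y < lr P x := EReal.neg_lt_comm.1 hy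
  filter_upwards [lsc_lr hZ x (-y) h1] with x' hx'
  exact EReal.neg_lt_comm.1 hx'

/-- orbits on a uniform disc: the flow is complete -/
theorem univ_of_uniform (hZ : LocFlow E P) {δ : ℝ} (hδ : 0 < δ)
    (hsmall : ∀ t ∈ ball (0:ℂ) δ, ∀ x' : M, (t, x') ∈ DF P) : DF P = univ := by
  rw [eq_univ_iff_forall]
  rintro ⟨ζ, x⟩
  have hstep : ∀ n : ℕ, ∀ t : ℂ, ‖t‖ < (n + 1) * (δ / 2) → (t, x) ∈ DF P := by
    intro n
    induction n with
    | zero =>
      intro t ht
      refine hsmall t ?_ x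
      rw [mem_ball_zero_iff]
      push_cast at ht
      linarith
    | succ n ih =>
      intro t ht
      push_cast at ht
      have hn2 : (0:ℝ) < n + 2 := by positivity
      have hn1 : (0:ℝ) < n + 1 := by positivity
      set w : ℂ := (((n + 1) / (n + 2) : ℝ) : ℂ) * t with hw
      have hwn : ‖w‖ < (n + 1) * (δ / 2) := by
        rw [hw, norm_mul, norm_real, Real.norm_of_nonneg (by positivity), div_mul_eq_mul_div,
          div_lt_iff₀ hn2]
        nlinarith
      have hwD := ih w hwn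
      have htw : t - w = ((1 / (n + 2) : ℝ) : ℂ) * t := by
        have h1 : ((n:ℂ) + 2) ≠ 0 := by exact_mod_cast hn2.ne'
        rw [hw]
        push_cast
        field_simp
        ring
      have h1 := FF_radial hZ (w := w) (t := t) hwD (δ := δ) (g := fun ζ => FF P ζ (FF P w x))
        (fun ζ hζ => FF_int hZ (hsmall ζ hζ _)) (c := 0) (mem_ball_self hδ) (FF_zero hZ _)
        (κ := (n + 2) / (n + 1)) (by positivity)
        (by
          have h1 : ((n:ℂ) + 2) ≠ 0 := by exact_mod_cast hn2.ne'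
          have h2 : ((n:ℂ) + 1) ≠ 0 := by exact_mod_cast hn1.ne'
          rw [hw]
          push_cast
          field_simp)
        (by
          rw [add_zero, mem_ball_zero_iff, htw, norm_mul, norm_real,
            Real.norm_of_nonneg (by positivity), div_mul_eq_mul_div, one_mul, div_lt_iff₀ hn2]
          nlinarith)
      exact h1.1
  obtain ⟨n, hn⟩ := exists_nat_gt (‖ζ‖ / (δ / 2))
  refine hstep n ζ ?_
  rw [div_lt_iff₀ (by positivity)] at hn
  have : (n:ℝ) * (δ / 2) ≤ (n + 1) * (δ / 2) := by gcongr; linarith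
  linarith

variable [IsManifold 𝓘(ℂ, E) 1 M] [IsManifold 𝓘(ℝ, E) ∞ M]

open Vale.Agent.P253.R2.H156 (KP NoTouch)

/-- minus the logarithm of the radius of existence is plurisubharmonic in the viscosity sense -/
theorem noTouch_lr (hKP : KP E M) (hZ : LocFlow E P) : NoTouch E (fun x => -lr P x) := by
  intro a h T c r hc hr ha hh hT h0 hle
  have hT' : lr P (a 0) = ((-T : ℝ) : EReal) := by
    have := congrArg (fun x : EReal => -x) hT
    simpa using this
  obtain ⟨t₀, ht₀, hout, hrad⟩ := exists_obstruction' hZ hT'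
  -- a smaller disc
  have h0b : (0:ℂ) ∈ closedBall (0:ℂ) r := mem_closedBall_self hr.le
  have hev3 : ∀ᶠ z in 𝓝 (0:ℂ), ‖h z‖ < 1 := by
    have h1 : ContinuousAt (fun z => ‖h z‖) 0 := (hh 0 h0b).continuousAt.norm
    have h2 : Tendsto (fun z => ‖h z‖) (𝓝 0) (𝓝 0) := by
      have h3 := h1.tendsto
      rwa [h0, norm_zero] at h3
    exact h2.eventually (gt_mem_nhds one_pos)
  obtain ⟨r₁, hr₁, hgood⟩ := Metric.eventually_nhds_iff_ball.1
    (hev3.and (show ∀ᶠ z in 𝓝 (0:ℂ), z ∈ closedBall (0:ℂ) r from closedBall_mem_nhds 0 hr))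
  have hsub : ∀ z ∈ closedBall (0:ℂ) (r₁ / 2), z ∈ ball (0:ℂ) r₁ := fun z hz =>
    closedBall_subset_ball (by linarith) hz
  set m : ℂ → ℂ := fun z => t₀ * Complex.exp (-h z) with hm
  have hm0 : m 0 = t₀ := by simp only [hm, h0, neg_zero, Complex.exp_zero, mul_one]
  have hmn : ∀ z, ‖m z‖ = Real.exp (-T - (h z).re) := by
    intro z
    simp only [hm, norm_mul, ht₀, Complex.norm_exp, neg_re]
    rw [← Real.exp_add]
    rfl
  obtain ⟨G, Φ, c0, c1, U, r', hG, hΦ, hinj, hr', hU, hUr, hc0, hc1, hin, hout', hesc⟩ :=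
    exists_config_gen hZ (a := a) (m := m) (κ₀ := 0) (η := Real.exp (-T - 1)) (r := r₁ / 2)
      (Real.exp_pos _) (by positivity) (fun z hz => ha z (hgood z (hsub z hz)).2)
      (fun z hz => by
        have h1 := hh z (hgood z (hsub z hz)).2
        exact (h1.neg.cexp).const_mul t₀)
      (by rw [hm0]; exact hout) (by rw [hm0]; exact hrad)
      (fun z hz s hs hsz t' ht' τ hτ => by
        obtain ⟨h1, h2⟩ := hgood z (hsub z hz)
        have habs := abs_lt.1 ((abs_re_le_norm (h z)).trans_lt h1)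
        have h3 := EReal.neg_le_neg_iff.2 (hle z h2)
        rw [neg_neg, ← EReal.coe_neg] at h3
        have hz0 : 0 ≤ c * ‖z‖ ^ 2 := by positivity
        refine mem_DF_of_norm hZ h3 ?_
        set R : ℝ := -(T + (h z).re - c * ‖z‖ ^ 2) with hR
        have h4 : ‖t'‖ < Real.exp R := by
          refine ht'.trans_le (Real.exp_le_exp.2 ?_)
          rw [hR]; linarith [habs.2]
        have h5 : ‖m z + s * (0 - m z)‖ < Real.exp R := by
          have h6 : m z + s * (0 - m z) = ((1 - s : ℝ) : ℂ) * m z := by push_cast; ring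
          rw [h6, norm_mul, norm_real, Real.norm_of_nonneg (by linarith [hs.2]), hmn]
          have h7 := Real.exp_pos (-T - (h z).re)
          rcases hs.1.eq_or_lt with h8 | h8
          · have hzne : z ≠ 0 := by
              rintro rfl
              exact hsz (by rw [← h8])
            have h9 : 0 < c * ‖z‖ ^ 2 := by positivity
            rw [← h8, sub_zero, one_mul]
            refine Real.exp_lt_exp.2 ?_
            rw [hR]; linarith
          · have h9 : Real.exp (-T - (h z).re) ≤ Real.exp R := Real.exp_le_exp.2 (by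
              rw [hR]; linarith)
            nlinarith
        have h6 := (convex_ball (0:ℂ) (Real.exp R)) (mem_ball_zero_iff.2 h4)
          (mem_ball_zero_iff.2 h5) (a := 1 - τ) (b := τ) (by linarith [hτ.2]) hτ.1 (by ring)
        rw [mem_ball_zero_iff] at h6
        simp only [real_smul] at h6
        push_cast at h6
        exact h6)
  exact hKP G Φ c0 c1 U r' hG hΦ hinj hr' hU hUr hc0 hc1 hin hout' hesc

variable [RiemannianBundle (fun x : M => TangentSpace 𝓘(ℝ, E) x)]
  [IsContMDiffRiemannianBundle 𝓘(ℝ, E) ∞ E (fun x : M => TangentSpace 𝓘(ℝ, E) x)]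
  [IsRiemannianManifold 𝓘(ℝ, E) M]

/-- if the radius of existence decays slower than every power of the distance, along a sequence of
spheres, then the flow is complete -/
theorem complete_of_radius (hK : IsKahler E M) [CompleteSpace M] [ConnectedSpace M]
    (hnn : ∀ x : M, NonnegBisectionalAt E x) (hKP : KP E M) (hZ : LocFlow E P) (p : M)
    (hgr : ∀ ε > 0, ∀ R₀ : ℝ, ∃ R > R₀, ∀ x, dist x p = R →
      ∀ t : ℂ, ‖t‖ < Real.exp (-(ε * Real.log R)) → (t, x) ∈ DF P) :
    DF P = univ ∧ (∀ x, FF P 0 x = x) ∧ (∀ s t x, FF P (s + t) x = FF P s (FF P t x)) ∧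
      ContMDiff (𝓘(ℂ, ℂ).prod 𝓘(ℂ, E)) 𝓘(ℂ, E) 1 (fun q : ℂ × M => FF P q.1 q.2) := by
  have htop : ∀ x : M, -lr P x ≠ ⊤ := fun x h => lr_ne_bot hZ x (by
    have := congrArg (fun y : EReal => -y) h
    simpa using this)
  obtain ⟨C, hC⟩ := R2.H618.liouville_growth hK hnn (usc_neg_lr hZ) htop
    (R2.H618.circMaj_of_noTouch (usc_neg_lr hZ) htop (noTouch_lr hKP hZ)) p
    (fun ε hε R₀ => by
      obtain ⟨R, hR, h1⟩ := hgr ε hε R₀
      refine ⟨R, hR, fun x hx => ?_⟩
      have h2 := le_lr_of_ball hZ (x := x) (Real.exp_pos (-(ε * Real.log R)))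
        (fun t ht => h1 x hx t (mem_ball_zero_iff.1 ht))
      rw [Real.log_exp, EReal.coe_neg] at h2
      exact EReal.neg_le_of_neg_le h2)
  have hlr : ∀ x, lr P x = -C := fun x => by rw [← hC x, neg_neg]
  obtain ⟨x₀⟩ : Nonempty M := inferInstance
  have hbot : (⊥ : EReal) < -C := by
    rw [← hlr x₀]
    exact bot_lt_iff_ne_bot.2 (lr_ne_bot hZ x₀)
  obtain ⟨T, -, hT2⟩ := EReal.lt_iff_exists_real_btwn.1 hbot
  have hD : DF P = univ := univ_of_uniform hZ (Real.exp_pos T) fun t ht x' =>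
    mem_DF_of_norm hZ (by rw [hlr x']; exact hT2.le) (mem_ball_zero_iff.1 ht)
  have hm : ∀ q : ℂ × M, q ∈ DF P := fun q => hD ▸ mem_univ q
  refine ⟨hD, FF_zero hZ, fun s t x => ?_, fun q => ?_⟩
  · have h1 := (FF_add hZ (ζ := t) (ζ' := s) (x := x) fun r _ => hm _).2
    rw [h1, add_comm]
  · exact R2.H156.contMDiffAt_prod isOpen_univ (mem_univ q) fun p _ => mdiff_FF hZ (hm p)

end Vale.Agent.P253.H595
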