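import Vale.Agent.P253.R2.H451.KPProp
import Vale.Agent.P253.R2.H445.Defs
import Vale.Agent.P253.H595.Rad
import Vale.Agent.P253.H595.Len

/-!
P253: holomorphic vector fields on a complete Kähler manifold of nonnegative bisectional curvature:
completeness from the growth of the field.
-/

open scoped Manifold ContDiff Topology Bundle
open Set Metric Complex Filter IsManifold Bundle Vale.Agent.P253.Mfd

set_option maxSynthPendingDepth 3
set_option linter.unusedSectionVars false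

noncomputable section

namespace Vale.Agent.P253.H595

variable {E : Type*} [NormedAddCommGroup E] [NormedSpace ℂ E] [FiniteDimensional ℂ E]
  {M : Type*} [MetricSpace M] [ChartedSpace E M]
  [IsManifold 𝓘(ℂ, E) 1 M]
  {Z : (x : M) → TangentSpace 𝓘(ℂ, E) x}

/-- the holomorphic action of `ℂ` generated by a vector field is unique -/
theorem action_unique (hZ : IsHolField Z) {ψ ψ' : ℂ → M → M} (h0 : ∀ x, ψ 0 x = x)
    (h0' : ∀ x, ψ' 0 x = x) (h : ∀ x ζ, IntAt Z (fun w => ψ w x) ζ)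
    (h' : ∀ x ζ, IntAt Z (fun w => ψ' w x) ζ) : ψ = ψ' := by
  funext ζ x
  exact eqOn_of_int (locFlow_of_field hZ) isOpen_univ isPreconnected_univ
    (fun w _ => h x w) (fun w _ => h' x w) (mem_univ (0:ℂ)) (by rw [h0, h0']) (mem_univ ζ)

variable [IsManifold 𝓘(ℝ, E) ∞ M]
  [RiemannianBundle (fun x : M => TangentSpace 𝓘(ℝ, E) x)]
  [IsContMDiffRiemannianBundle 𝓘(ℝ, E) ∞ E (fun x : M => TangentSpace 𝓘(ℝ, E) x)]
  [IsRiemannianManifold 𝓘(ℝ, E) M]

/-- completeness from the radius of existence -/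
theorem field_complete_radius (hK : IsKahler E M) [CompleteSpace M] [ConnectedSpace M]
    (hnn : ∀ x : M, NonnegBisectionalAt E x) (hZ : IsHolField Z) (p : M)
    (hgr : ∀ ε : ℝ, 0 < ε → ∀ R₀ : ℝ, ∃ R > R₀, ∀ x, dist x p = R →
      ∃ f : ℂ → M, f 0 = x ∧ ∀ t ∈ ball (0:ℂ) (R ^ (-ε)), IntAt Z f t) :
    ∃! ψ : ℂ → M → M, R2.IsHolCFlow E ψ ∧ ∀ x ζ, IntAt Z (fun w => ψ w x) ζ := by
  have hLF := locFlow_of_field hZ
  obtain ⟨hD, h0, hadd, hsm⟩ := complete_of_radius hK hnn (R2.H451.kp_prop hK hnn) hLF p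
    (fun ε hε R₀ => by
      obtain ⟨R, hR, h1⟩ := hgr ε hε (max R₀ 1)
      have hR1 : 1 < R := (le_max_right _ _).trans_lt hR
      refine ⟨R, (le_max_left _ _).trans_lt hR, fun x hx t ht => ?_⟩
      obtain ⟨f, hf0, hf⟩ := h1 x hx
      have hpow : R ^ (-ε) = Real.exp (-(ε * Real.log R)) := by
        rw [Real.rpow_def_of_pos (by linarith)]
        congr 1
        ring
      have hpos : 0 < R ^ (-ε) := by rw [hpow]; exact Real.exp_pos _
      exact StarInt.mem_DF (U := ball (0:ℂ) (R ^ (-ε))) (f := f)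
        ⟨isOpen_ball, (convex_ball 0 _).starConvex (mem_ball_self hpos), mem_ball_self hpos, hf,
          hf0⟩ (by rw [mem_ball_zero_iff, hpow]; exact ht))
  refine ⟨FF (IntAt Z), ⟨⟨h0, hadd, hsm⟩, fun x ζ => FF_int hLF (hD ▸ mem_univ _)⟩, ?_⟩
  rintro ψ ⟨hψ, hint⟩
  exact action_unique hZ hψ.zero h0 hint (fun x ζ => FF_int hLF (hD ▸ mem_univ _))

/-- completeness from the growth of the vector field -/
theorem field_complete_growth (hK : IsKahler E M) [CompleteSpace M] [ConnectedSpace M]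
    (hnn : ∀ x : M, NonnegBisectionalAt E x) (hZ : IsHolField Z) (p : M)
    (hgr : ∀ ε : ℝ, 0 < ε → ∀ R₀ : ℝ, ∃ R > R₀, ∃ D : ℝ, 0 < D ∧
      ∀ x, |dist x p - R| ≤ D → fnorm E Z x ≤ D * R ^ ε) :
    ∃! ψ : ℂ → M → M, R2.IsHolCFlow E ψ ∧ ∀ x ζ, IntAt Z (fun w => ψ w x) ζ := by
  have hprop : ProperSpace M := properSpace_riemannian E M
  have hLF := locFlow_of_field hZ
  refine field_complete_radius hK hnn hZ p fun ε hε R₀ => ?_
  obtain ⟨R₁, hR₁⟩ : ∃ R₁ : ℝ, ∀ R > R₁, 2 ≤ R ^ (ε / 2) := by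
    have h1 := (tendsto_rpow_atTop (half_pos hε)).eventually (eventually_ge_atTop 2)
    obtain ⟨R₁, h2⟩ := eventually_atTop.1 h1
    exact ⟨R₁, fun R hR => h2 R hR.le⟩
  obtain ⟨R, hR, D, hD, h1⟩ := hgr (ε / 2) (half_pos hε) (max (max R₀ 1) R₁)
  have hR1 : 1 < R := ((le_max_right R₀ 1).trans (le_max_left _ _)).trans_lt hR
  have hR0 : R₀ < R := ((le_max_left R₀ 1).trans (le_max_left _ _)).trans_lt hR
  have hR2 : 2 ≤ R ^ (ε / 2) := hR₁ R ((le_max_right _ _).trans_lt hR)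
  have hRpos : 0 < R := by linarith
  refine ⟨R, hR0, fun x hx => ⟨fun ζ => FF (IntAt Z) ζ x, FF_zero hLF x, fun t ht => ?_⟩⟩
  refine FF_int hLF (mem_DF_of_bound hK hZ (C := D * R ^ (ε / 2)) (D := D) (by positivity)
    (fun y hy => h1 y ?_) ?_)
  · rw [abs_le]
    have h2 := dist_triangle y x p
    have h3 := dist_triangle x y p
    rw [dist_comm y x] at h2
    constructor <;> linarith
  · rw [mem_ball_zero_iff] at ht
    have h2 : R ^ (-ε) * R ^ (ε / 2) * R ^ (ε / 2) = 1 := by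
      rw [← Real.rpow_add hRpos, ← Real.rpow_add hRpos]
      have : -ε + ε / 2 + ε / 2 = 0 := by ring
      rw [this, Real.rpow_zero]
    have h3 : 0 < R ^ (ε / 2) := by positivity
    have h4 : 0 < R ^ (-ε) := by positivity
    have h5 : ‖t‖ * R ^ (ε / 2) < R ^ (-ε) * R ^ (ε / 2) := mul_lt_mul_of_pos_right ht h3
    have h7 : 0 < R ^ (-ε) * R ^ (ε / 2) := mul_pos h4 h3
    have h6 := mul_le_mul_of_nonneg_left hR2 h7.le
    rw [h2] at h6
    have h8 : 2 * ‖t‖ * (D * R ^ (ε / 2)) = D * (2 * (‖t‖ * R ^ (ε / 2))) := by ring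
    rw [h8]
    have h9 : 2 * (‖t‖ * R ^ (ε / 2)) < 1 := by linarith
    calc D * (2 * (‖t‖ * R ^ (ε / 2))) < D * 1 := mul_lt_mul_of_pos_left h9 hD
      _ = D := mul_one D

end Vale.Agent.P253.H595
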