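import Vale.Agent.P253.H595.Crit
import Mathlib.Analysis.SpecialFunctions.Exponential
import Mathlib.Analysis.ODE.Gronwall

/-!
P253: domains on which a linear vector field has almost linear growth.
-/

open scoped Manifold ContDiff Topology Bundle NNReal
open Set Metric Complex Filter IsManifold Bundle Manifold Vale.Agent.P253.Mfd
  Vale.Agent.P253.CStar

set_option maxSynthPendingDepth 3
set_option linter.unusedSectionVars false

noncomputable section

namespace Vale.Agent.P253.H595

open Vale.Agent.P253.R2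

variable {E : Type*} [NormedAddCommGroup E] [NormedSpace ℂ E] [FiniteDimensional ℂ E]
  {M : Type*} [MetricSpace M] [ChartedSpace E M] [IsManifold 𝓘(ℂ, E) 1 M]
  {Z : (x : M) → TangentSpace 𝓘(ℂ, E) x} {ψ : ℂ → M → M}

theorem hasDerivAt_real' {f : ℂ → E} {a : E} {t : ℝ} (h : HasDerivAt f a (t:ℂ)) :
    HasDerivAt (fun t : ℝ => f (t : ℂ)) a t := by
  have h2 : HasDerivAt (fun t : ℝ => (t:ℂ)) 1 t := by
    simpa using (hasDerivAt_id t).ofReal_comp
  have h3 := HasDerivAt.scomp t h h2
  rw [one_smul] at h3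
  exact h3

/-- a domain which is invariant under the flow of a linear vector field all of whose orbits in
complex time accumulate at `0` -/
theorem target_univ_of_linear (hψ : IsHolCFlow E ψ)
    (hint : ∀ x ζ, IntAt Z (fun w => ψ w x) ζ) {e : OpenPartialHomeomorph M E}
    (he : e ∈ maximalAtlas 𝓘(ℂ, E) 1 M) (hs : e.source = univ) {A : E →L[ℂ] E}
    (hA : ∀ z : E, (0 : E) ∈ closure (range fun ζ : ℂ => NormedSpace.exp (ζ • A) z))
    (h0 : (0 : E) ∈ e.target) (hZA : ∀ x : M, comps Z e x = A (e x)) : e.target = univ := by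
  have hCE : CompleteSpace E := FiniteDimensional.complete ℂ E
  refine eq_univ_of_forall fun z => ?_
  obtain ⟨y, hyt, ζ, hy⟩ := mem_closure_iff_nhds.1 (hA z) _ (e.open_target.mem_nhds h0)
  simp only at hy
  set x : M := e.symm y with hx
  let c : ℝ → ℂ := fun s => ((s : ℂ) - 1) * ζ
  let c' : ℝ → ℂ := fun s => s * ζ
  have hc : ∀ s : ℝ, HasDerivAt c ζ s := by
    intro s
    have h1 : HasDerivAt (fun s : ℝ => s - 1) 1 s := (hasDerivAt_id s).sub_const 1
    simpa using h1.ofReal_comp.mul_const ζ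
  have hc' : ∀ s : ℝ, HasDerivAt c' ζ s := by
    intro s
    simpa using ((hasDerivAt_id s).ofReal_comp).mul_const ζ
  let h : ℝ → E := fun s => e (ψ (c s) x)
  let k : ℝ → E := fun s => NormedSpace.exp (c' s • A) z
  have hh : ∀ s : ℝ, HasDerivAt h (ζ • A (h s)) s := by
    intro s
    have h1 : HasDerivAt (fun w => e (ψ w x)) (A (e (ψ (c s) x))) (c s) := by
      have h2 := (hint x (c s)).hasDerivAt he (hs ▸ mem_univ _)
      rw [hZA] at h2
      exact h2
    exact HasDerivAt.scomp s h1 (hc s)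
  have hk : ∀ s : ℝ, HasDerivAt k (ζ • A (k s)) s := by
    intro s
    have h1 := hasDerivAt_exp_smul_const' (𝕂 := ℂ) A (c' s)
    have h2 : HasDerivAt (fun u : ℂ => NormedSpace.exp (u • A) z)
        ((A * NormedSpace.exp (c' s • A)) z) (c' s) := by
      have h3 := h1.clm_apply (hasDerivAt_const (c' s) z)
      simpa using h3
    exact HasDerivAt.scomp s h2 (hc' s)
  have heq : h = k := by
    refine ODE_solution_unique_univ (v := fun _ z => (ζ • A) z) (s := fun _ => univ)
      (K := ‖ζ • A‖₊) (t₀ := 1) (fun _ => (ζ • A).lipschitz.lipschitzOnWith)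
      (fun s => ⟨hh s, mem_univ _⟩) (fun s => ⟨hk s, mem_univ _⟩) ?_
    simp only [h, k, c, c', sub_self, zero_mul, hψ.zero, ofReal_one, one_mul]
    rw [hx, e.right_inv hyt, hy]
  have h1 : h 0 = z := by
    rw [heq]
    simp only [k, c', ofReal_zero, zero_mul, zero_smul, NormedSpace.exp_zero]
    rfl
  rw [← h1]
  exact e.map_source (hs ▸ mem_univ _)

variable [IsManifold 𝓘(ℝ, E) ∞ M]
  [RiemannianBundle (fun x : M => TangentSpace 𝓘(ℝ, E) x)]
  [IsContMDiffRiemannianBundle 𝓘(ℝ, E) ∞ E (fun x : M => TangentSpace 𝓘(ℝ, E) x)]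
  [IsRiemannianManifold 𝓘(ℝ, E) M]

/-- domains of `ℂⁿ` on which a contracting linear field has almost linear growth -/
theorem target_univ (hK : IsKahler E M) [CompleteSpace M] [ConnectedSpace M]
    (hnn : ∀ x : M, NonnegBisectionalAt E x) (hZ : IsHolField Z)
    (h : SlowGrowth E Z ∨ SlowRadius E Z) {e : OpenPartialHomeomorph M E}
    (he : e ∈ maximalAtlas 𝓘(ℂ, E) 1 M) (hs : e.source = univ) {A : E →L[ℂ] E}
    (hA : ∀ z : E, (0 : E) ∈ closure (range fun ζ : ℂ => NormedSpace.exp (ζ • A) z))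
    (h0 : (0 : E) ∈ e.target) (hZA : ∀ x : M, comps Z e x = A (e x)) : e.target = univ := by
  obtain ⟨ψ, ⟨hψ, hint⟩, -⟩ := complete_iff hK hnn hZ h
  exact target_univ_of_linear hψ hint he hs hA h0 hZA

end Vale.Agent.P253.H595
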