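import Vale.Agent.P253.H595.Fin

/-!
P253: a holomorphic vector field whose complex-time orbits are entire on a nonempty open set is
complete.
-/

open scoped Manifold ContDiff Topology Bundle
open Set Metric Complex Filter IsManifold Bundle Manifold Vale.Agent.P253.Mfd
  Vale.Agent.P253.CStar

set_option maxSynthPendingDepth 3
set_option linter.unusedSectionVars false

noncomputable section

namespace Vale.Agent.P253.H595

open Vale.Agent.P253.R2 Vale.Agent.P253.R2.H618

variable {E : Type*} [NormedAddCommGroup E] [NormedSpace ℂ E] [FiniteDimensional ℂ E]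
  {M : Type*} [MetricSpace M] [ChartedSpace E M] [IsManifold 𝓘(ℂ, E) 1 M]
  [IsManifold 𝓘(ℝ, E) ∞ M]

/-- propagation of the value `⊥` -/
theorem bot_propagate {e : OpenPartialHomeomorph M E} (he : e ∈ maximalAtlas 𝓘(ℂ, E) 1 M)
    {u : M → EReal} (hu : UpperSemicontinuous u) (htop : ∀ x, u x ≠ ⊤) (hc : CircMaj E u) {x : M}
    (hx : x ∈ e.source) {Y : E} {r : ℝ}
    (hr : ∀ w : ℂ, ‖w‖ ≤ 1 → e x + r • (w • Y) ∈ e.target)
    (hbot : ∀ᶠ y in 𝓝 (pt e x Y r 1), u y = ⊥) : u x = ⊥ := by
  -- an upper bound on the circle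
  obtain ⟨B, hB⟩ : ∃ B : ℝ, ∀ w ∈ sphere (0:ℂ) 1, u (pt e x Y r w) ≤ (B : EReal) := by
    have hcpt : IsCompact (pt e x Y r '' sphere (0:ℂ) 1) :=
      (isCompact_sphere 0 1).image_of_continuousOn
        ((pt_continuousOn hr).mono sphere_subset_closedBall)
    have hne : (pt e x Y r '' sphere (0:ℂ) 1).Nonempty := ⟨_, mem_image_of_mem _ (by simp : (1:ℂ) ∈ sphere (0:ℂ) 1)⟩
    obtain ⟨y, -, hy⟩ := (hu.upperSemicontinuousOn _).exists_isMaxOn hne hcpt
    have hyt : u y < ⊤ := lt_top_iff_ne_top.2 (htop y)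
    obtain ⟨B, hB1, -⟩ := EReal.lt_iff_exists_real_btwn.1 hyt
    exact ⟨B, fun w hw => (hy (mem_image_of_mem _ hw)).trans hB1.le⟩
  have hcw : ContinuousWithinAt (pt e x Y r) (closedBall 0 1) 1 :=
    pt_continuousOn hr 1 (by simp)
  have hev : ∀ᶠ w in 𝓝[closedBall (0:ℂ) 1] 1, u (pt e x Y r w) = ⊥ := hcw.eventually hbot
  obtain ⟨δ, hδ, hball⟩ := Metric.mem_nhdsWithin_iff.1 hev
  set ψ : ℂ → ℝ := fun w => max 0 (1 - dist w 1 / δ) with hψ
  have hψc : Continuous ψ := by simp only [hψ]; fun_prop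
  have hψe : Continuous (fun θ : ℝ => ψ (exp (θ * I))) :=
    hψc.comp (by fun_prop : Continuous fun θ : ℝ => exp (θ * I))
  set J : ℝ := ∫ θ in (0:ℝ)..(2 * Real.pi), ψ (exp (θ * I)) with hJ
  have hpos : 0 < J := by
    refine intervalIntegral.integral_pos (by positivity)
      (hψe).continuousOn (fun θ _ => ?_) ⟨0, ⟨le_rfl, by positivity⟩, ?_⟩
    · simp only [hψ]; exact le_max_left _ _
    · simp [hψ]
  have hkey : ∀ K : ℝ, u x ≤ ((B - K * ((2 * Real.pi)⁻¹ * J) : ℝ) : EReal) := by
    intro K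
    set W : ℂ → ℝ := fun w => B - K * ψ w with hW
    have hWc : Continuous W := by simp only [hW]; fun_prop
    have hle : ∀ w ∈ sphere (0:ℂ) 1, u (pt e x Y r w) ≤ ((W w : ℝ) : EReal) := by
      intro w hw
      by_cases h : dist w 1 < δ
      · have h1 : u (pt e x Y r w) = ⊥ := hball ⟨h, sphere_subset_closedBall hw⟩
        rw [h1]
        exact bot_le
      · have h2 : ψ w = 0 := by
          simp only [hψ]
          apply max_eq_left
          push Not at h
          have : 1 ≤ dist w 1 / δ := by rw [le_div_iff₀ hδ]; linarith only [h]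
          linarith only [this]
        simp only [hW, h2, mul_zero, sub_zero]
        exact hB w hw
    have h3 := hc e he x hx Y r hr W hWc.continuousOn hle
    have hint : ∫ θ in (0:ℝ)..(2 * Real.pi), W (exp (θ * I)) = 2 * Real.pi * B - K * J := by
      simp only [hW]
      rw [intervalIntegral.integral_sub (intervalIntegrable_const)
        ((hψe.const_mul _).intervalIntegrable _ _),
        intervalIntegral.integral_const_mul, intervalIntegral.integral_const, sub_zero,
        smul_eq_mul]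
    have h4 : Real.circleAverage W 0 1 = B - K * ((2 * Real.pi)⁻¹ * J) := by
      rw [Real.circleAverage_def, smul_eq_mul]
      have h5 : ∫ θ in (0:ℝ)..(2 * Real.pi), W (circleMap 0 1 θ) =
          ∫ θ in (0:ℝ)..(2 * Real.pi), W (exp (θ * I)) := by
        apply intervalIntegral.integral_congr
        intro θ _
        simp [circleMap]
      rw [h5, hint]
      have : (2 * Real.pi : ℝ) ≠ 0 := by positivity
      field_simp
    rw [h4] at h3
    exact h3
  by_contra hne
  have hne' : ⊥ < u x := bot_lt_iff_ne_bot.2 hne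
  obtain ⟨T, -, hT⟩ := EReal.lt_iff_exists_real_btwn.1 hne'
  have hJ' : 0 < (2 * Real.pi)⁻¹ * J := by positivity
  have h1 := hT.trans_le (hkey ((B - T) / ((2 * Real.pi)⁻¹ * J)))
  have h2 : B - (B - T) / ((2 * Real.pi)⁻¹ * J) * ((2 * Real.pi)⁻¹ * J) = T := by
    rw [div_mul_cancel₀ _ hJ'.ne']
    ring
  rw [h2] at h1
  exact lt_irrefl _ h1

/-- a plurisubharmonic function which is `⊥` on a nonempty open set is `⊥` -/
theorem eq_bot_of_open [ConnectedSpace M] {u : M → EReal} (hu : UpperSemicontinuous u)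
    (htop : ∀ x, u x ≠ ⊤) (hc : CircMaj E u) {U : Set M} (hU : IsOpen U) (hne : U.Nonempty)
    (h : ∀ x ∈ U, u x = ⊥) (x : M) : u x = ⊥ := by
  set A : Set M := {x | ∀ᶠ y in 𝓝 x, u y = ⊥} with hA
  have hAo : IsOpen A := isOpen_setOfPred_eventually_nhds
  have hAc : IsClosed A := by
    refine isClosed_of_closure_subset fun x hx => ?_
    have he : chartAt E x ∈ maximalAtlas 𝓘(ℂ, E) 1 M := chart_mem_maximalAtlas x
    set e := chartAt E x with hedef
    have hxs : x ∈ e.source := mem_chart_source E x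
    obtain ⟨ρ, hρ, hball⟩ := Metric.isOpen_iff.1 e.open_target (e x) (e.map_source hxs)
    have hnear1 : ∀ᶠ y in 𝓝 x, y ∈ e.source := e.open_source.mem_nhds hxs
    have hnear : ∀ᶠ y in 𝓝 x, y ∈ e.source ∧ e y ∈ ball (e x) (ρ / 4) :=
      hnear1.and ((e.continuousAt hxs).eventually (ball_mem_nhds _ (by positivity)))
    obtain ⟨a, ⟨has, hae⟩, haA⟩ := mem_closure_iff_nhds.1 hx _ hnear
    filter_upwards [hnear] with y hy
    obtain ⟨hys, hye⟩ := hy
    have hr : ∀ w : ℂ, ‖w‖ ≤ 1 → e y + (1:ℝ) • (w • (e a - e y)) ∈ e.target := by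
      intro w hw
      apply hball
      rw [mem_ball, dist_eq_norm] at hae hye ⊢
      have h1 : e y + (1:ℝ) • (w • (e a - e y)) - e x =
          (e y - e x) + w • ((e a - e x) - (e y - e x)) := by
        rw [one_smul]
        have : e a - e x - (e y - e x) = e a - e y := by abel
        rw [this]
        abel
      rw [h1]
      have h2 : ‖w • ((e a - e x) - (e y - e x))‖ ≤ 1 * (‖e a - e x‖ + ‖e y - e x‖) := by
        rw [norm_smul]
        exact mul_le_mul hw (norm_sub_le _ _) (norm_nonneg _) zero_le_one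
      have h3 := norm_add_le (e y - e x) (w • ((e a - e x) - (e y - e x)))
      linarith
    refine bot_propagate he hu htop hc hys hr ?_
    have h1 : pt e y (e a - e y) 1 1 = a := by
      simp only [pt, one_smul]
      rw [add_sub_cancel, e.left_inv has]
    rw [h1]
    exact haA
  have hAu : A = univ := by
    obtain ⟨y, hy⟩ := hne
    refine IsClopen.eq_univ ⟨hAc, hAo⟩ ⟨y, ?_⟩
    filter_upwards [hU.mem_nhds hy] with z hz using h z hz
  have h1 : x ∈ A := hAu ▸ mem_univ x
  exact h1.self_of_nhds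

/-- completeness from an open set of entire orbits -/
theorem complete_of_open [RiemannianBundle (fun x : M => TangentSpace 𝓘(ℝ, E) x)]
    [IsContMDiffRiemannianBundle 𝓘(ℝ, E) ∞ E (fun x : M => TangentSpace 𝓘(ℝ, E) x)]
    [IsRiemannianManifold 𝓘(ℝ, E) M] {P : (ℂ → M) → ℂ → Prop}
    [ConnectedSpace M] (hKP : R2.H156.KP E M) (hZ : LocFlow E P) {U : Set M} (hU : IsOpen U)
    (hne : U.Nonempty) (h : ∀ x ∈ U, ∀ t : ℂ, (t, x) ∈ DF P) :
    DF P = univ ∧ (∀ x, FF P 0 x = x) ∧ (∀ s t x, FF P (s + t) x = FF P s (FF P t x)) ∧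
      ContMDiff (𝓘(ℂ, ℂ).prod 𝓘(ℂ, E)) 𝓘(ℂ, E) 1 (fun q : ℂ × M => FF P q.1 q.2) := by
  have htop : ∀ x : M, -lr P x ≠ ⊤ := fun x h => lr_ne_bot hZ x (by
    have := congrArg (fun y : EReal => -y) h
    simpa using this)
  have hbot := eq_bot_of_open (usc_neg_lr hZ) htop
    (circMaj_of_noTouch (usc_neg_lr hZ) htop (noTouch_lr hKP hZ)) hU hne (fun x hx => by
      have h1 : lr P x = ⊤ := top_le_iff.1 (le_lr fun t ht => absurd (h x hx t) ht)
      rw [h1, EReal.neg_top])
  have hlr : ∀ x, lr P x = ⊤ := fun x => by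
    have h1 := congrArg (fun y : EReal => -y) (hbot x)
    simpa using h1
  have hD : DF P = univ := by
    refine eq_univ_of_forall fun q => ?_
    obtain ⟨t, x⟩ := q
    by_contra hcon
    have h1 := lr_le hcon
    rw [hlr x] at h1
    exact absurd (top_le_iff.1 h1) (EReal.coe_ne_top _)
  have hm : ∀ q : ℂ × M, q ∈ DF P := fun q => hD ▸ mem_univ q
  refine ⟨hD, FF_zero hZ, fun s t x => ?_, fun q => ?_⟩
  · have h1 := (FF_add hZ (ζ := t) (ζ' := s) (x := x) fun r _ => hm _).2
    rw [h1, add_comm]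
  · exact R2.H156.contMDiffAt_prod isOpen_univ (mem_univ q) fun p _ => mdiff_FF hZ (hm p)

end Vale.Agent.P253.H595
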