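import Vale.Agent.P253.H595.Crit

/-!
P253: uniformization from a one-parameter semigroup with a fixed point whose differentials are
`diag (exp (c m_j t))`, `c ≠ 0` a complex number (contracting, expanding, rotating or spiralling).
-/

open scoped Manifold ContDiff Topology Bundle
open Set Metric Complex Filter IsManifold Bundle Manifold Vale.Agent.P253.Mfd
  Vale.Agent.P253.CStar

set_option maxSynthPendingDepth 3
set_option linter.unusedSectionVars false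

noncomputable section

namespace Vale.Agent.P253.H595

open Vale.Agent.P253.R2

variable {E : Type*} [NormedAddCommGroup E] [NormedSpace ℂ E] [FiniteDimensional ℂ E]
  {M : Type*} [MetricSpace M] [ChartedSpace E M] [IsManifold 𝓘(ℂ, E) 1 M]
  {ρ : ℝ → M → M} {ψ : ℂ → M → M} {p : M}

variable (E) in
/-- `p` is a fixed point of the semigroup `ρ` and the differentials of `ρ t`, `t ≥ 0`,
at `p` are `diag (exp (c m_j t))` in a basis of the tangent space, with a complex number `c ≠ 0` and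
integers `m_j > 0` such that `m_i < 2 m_j` for all `i`, `j` -/
def IsRadialFixedPoint (ρ : ℝ → M → M) (p : M) : Prop :=
  (∀ t : ℝ, 0 ≤ t → ρ t p = p) ∧
  ∃ c : ℂ, c ≠ 0 ∧
    ∃ (b : Module.Basis (Fin (Module.finrank ℂ E)) ℂ E) (m : Fin (Module.finrank ℂ E) → ℕ),
      (∀ j, 0 < m j) ∧ (∀ i j, m i < 2 * m j) ∧
      ∀ t : ℝ, 0 ≤ t → ∀ j,
        mfderiv 𝓘(ℂ, E) 𝓘(ℂ, E) (ρ t) p (b j) = exp (c * m j * t) • b j

/-- an attracting fixed point is a radial fixed point -/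
theorem IsRadialFixedPoint.of_attr (h : S445.IsAttrFixedPoint E ρ p) :
    IsRadialFixedPoint E ρ p := by
  obtain ⟨hfix, b, m, hm, hpinch, hw⟩ := h
  refine ⟨hfix, -1, by simp, b, m, hm, hpinch, fun t ht j => ?_⟩
  have h1 : -1 * (m j : ℂ) * t = -(t * m j) := by ring
  rw [h1]
  exact hw t ht j

/-- the eigenvectors of the differentials along the positive real axis are eigenvectors of the
linear part of the generator -/
theorem linPart_gen_of_pos (hψ : IsHolCFlow E ψ) (hfix : ∀ ζ, ψ ζ p = p) {v : E} {c : ℂ}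
    (h : ∀ t : ℝ, 0 ≤ t → (mfderiv 𝓘(ℂ, E) 𝓘(ℂ, E) (ψ t) p : E → E) v = exp (c * t) • v) :
    linPart (gen (E := E) ψ) p v = c • v := by
  have h1 := hasDerivAt_mfderiv_zero hψ (gen_int hψ) hfix v
  have h2 : HasDerivWithinAt
      (fun t : ℝ => ((mfderiv 𝓘(ℂ, E) 𝓘(ℂ, E) (ψ (1 * t)) p : E → E) v : E))
      ((1:ℂ) • linPart (gen (E := E) ψ) p v) (Ici 0) 0 :=
    (hasDerivAt_ray (E := E)
      (f := fun ζ => ((mfderiv 𝓘(ℂ, E) 𝓘(ℂ, E) (ψ ζ) p : E → E) v : E))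
      (v := linPart (gen (E := E) ψ) p v) 1 h1).hasDerivWithinAt
  have h3 : HasDerivAt (fun ζ : ℂ => exp (c * ζ) • v) (c • v) 0 := by
    have h4 : HasDerivAt (fun ζ : ℂ => c * ζ) c 0 := by
      simpa using (hasDerivAt_id (0:ℂ)).const_mul c
    have h5 := h4.cexp.smul_const v
    simpa using h5
  have h4 : HasDerivWithinAt (fun t : ℝ => (exp (c * (1 * t)) • v : E)) ((1:ℂ) • (c • v))
      (Ici 0) 0 :=
    (hasDerivAt_ray (E := E) (f := fun ζ => exp (c * ζ) • v) 1 h3).hasDerivWithinAt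
  have h5 : HasDerivWithinAt
      (fun t : ℝ => ((mfderiv 𝓘(ℂ, E) 𝓘(ℂ, E) (ψ (1 * t)) p : E → E) v : E))
      ((1:ℂ) • (c • v)) (Ici 0) 0 := by
    refine h4.congr (fun t ht => ?_) ?_
    · rw [one_mul]
      exact h t ht
    · rw [one_mul]
      exact h 0 le_rfl
  have h6 : (1:ℂ) • linPart (gen (E := E) ψ) p v = (1:ℂ) • (c • v) :=
    (uniqueDiffWithinAt_Ici (0:ℝ)).eq_deriv _ h2 h5
  simpa only [one_smul] using h6

/-- the differentials of the flow depend holomorphically on the time -/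
theorem differentiable_mfderiv (hψ : IsHolCFlow E ψ) {Z : (x : M) → TangentSpace 𝓘(ℂ, E) x}
    (hint : ∀ x ζ, IntAt Z (fun w => ψ w x) ζ) (hfix : ∀ ζ, ψ ζ p = p)
    (b : Module.Basis (Fin (Module.finrank ℂ E)) ℂ E) {lam : Fin (Module.finrank ℂ E) → ℂ}
    (hb : ∀ j, linPart Z p (b j) = lam j • b j) (v : E) :
    Differentiable ℂ (fun ζ => ((mfderiv 𝓘(ℂ, E) 𝓘(ℂ, E) (ψ ζ) p : E → E) v : E)) := by
  have h1 : (fun ζ => ((mfderiv 𝓘(ℂ, E) 𝓘(ℂ, E) (ψ ζ) p : E → E) v : E)) =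
      fun ζ => ∑ j, b.repr v j • (exp (lam j * ζ) • b j) := by
    funext ζ
    let T : E →L[ℂ] E := mfderiv 𝓘(ℂ, E) 𝓘(ℂ, E) (ψ ζ) p
    have h2 : ∀ j, T (b j) = exp (lam j * ζ) • b j := fun j => mfderiv_eigen hψ hint hfix (hb j) ζ
    have h3 : T v = ∑ j, b.repr v j • (exp (lam j * ζ) • b j) := by
      conv_lhs => rw [← b.sum_repr v]
      rw [map_sum]
      refine Finset.sum_congr rfl fun j _ => ?_
      rw [map_smul, h2]
    exact h3
  rw [h1]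
  fun_prop

variable [IsManifold 𝓘(ℝ, E) ∞ M]
  [RiemannianBundle (fun x : M => TangentSpace 𝓘(ℝ, E) x)]
  [IsContMDiffRiemannianBundle 𝓘(ℝ, E) ∞ E (fun x : M => TangentSpace 𝓘(ℝ, E) x)]
  [IsRiemannianManifold 𝓘(ℝ, E) M]

/-- uniformization from a semigroup with a radial fixed point -/
theorem main_radial (hK : IsKahler E M) [CompleteSpace M] [NoncompactSpace M] [ConnectedSpace M]
    (hnn : ∀ x : M, NonnegBisectionalAt E x) (hψ : IsHolCFlow E ψ)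
    (he : ∀ t : ℝ, 0 ≤ t → ∀ x, ψ t x = ρ t x) (hp : IsRadialFixedPoint E ρ p)
    (hpos : PosBisectionalAt E p ∨ H565.HasGlobalCoordinatesAt E p) :
    ∃ F : M ≃ₘ^1⟮𝓘(ℂ, E), 𝓘(ℂ, E)⟯ E, F p = 0 ∧
      (∀ v : E, (mfderiv 𝓘(ℂ, E) 𝓘(ℂ, E) F p : E → E) v = v) ∧
      ∀ t : ℝ, 0 ≤ t → ∀ x : M, F (ρ t x) =
        (mfderiv 𝓘(ℂ, E) 𝓘(ℂ, E) (ρ t) p : E → E) (F x) := by
  have hCE : CompleteSpace E := FiniteDimensional.complete ℂ E
  obtain ⟨hfix, c, hc, b, m, hm, hpinch, hw⟩ := hp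
  have hfixψ : ∀ ζ, ψ ζ p = p := S445.fixed_pos hψ (fun t ht => by rw [he t ht, hfix t ht])
  have hρ : ∀ t : ℝ, 0 ≤ t → ψ t = ρ t := fun t ht => funext fun x => he t ht x
  have hlin : ∀ j, linPart (gen (E := E) ψ) p (b j) = (c * m j) • b j := by
    intro j
    refine linPart_gen_of_pos hψ hfixψ fun t ht => ?_
    rw [hρ t ht]
    exact hw t ht j
  have hint := gen_int (E := E) hψ
  have hattr : S445.IsAttrFixedPoint E (fun t x => ψ (-c⁻¹ * t) x) p := by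
    refine ⟨fun t _ => hfixψ _, b, m, hm, hpinch, fun t _ j => ?_⟩
    have h1 := mfderiv_eigen hψ hint hfixψ (hlin j) (-c⁻¹ * t)
    have h2 : (c * m j) * (-c⁻¹ * t) = -(t * m j) := by field_simp
    rw [h2] at h1
    exact h1
  obtain ⟨F, hF0, hF1, hF2⟩ := main_attr_or hK hnn (rescale hψ (-c⁻¹))
    (ρ := fun t x => ψ (-c⁻¹ * t) x) (fun _ _ _ => rfl) hattr hpos
  refine ⟨F, hF0, hF1, fun t ht x => ?_⟩
  have hdF : Differentiable ℂ (fun ζ : ℂ => F (ψ (-c⁻¹ * ζ) x)) := by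
    intro ζ
    have h1 : MDifferentiableAt 𝓘(ℂ, ℂ) 𝓘(ℂ, E) (fun ζ : ℂ => ψ (-c⁻¹ * ζ) x) ζ :=
      orbit_mdiff (rescale hψ (-c⁻¹)) x ζ
    exact ((F.contMDiff.mdifferentiable (by simp) _).comp ζ h1).differentiableAt
  have hdT : Differentiable ℂ
      (fun ζ : ℂ => ((mfderiv 𝓘(ℂ, E) 𝓘(ℂ, E) (ψ (-c⁻¹ * ζ)) p : E → E) (F x) : E)) :=
    (differentiable_mfderiv hψ hint hfixψ b hlin (F x)).comp
      ((differentiable_const _).mul differentiable_id)
  let g : ℂ → E := fun ζ => F (ψ ζ x)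
  let k : ℂ → E := fun ζ => (mfderiv 𝓘(ℂ, E) 𝓘(ℂ, E) (ψ ζ) p : E → E) (F x)
  have h1 : g (-c⁻¹ * (-c * t)) = k (-c⁻¹ * (-c * t)) :=
    S445.eq_of_pos hdF hdT (fun t ht => hF2 t ht x) (-c * t)
  have h2 : -c⁻¹ * (-c * t) = t := by field_simp
  rw [h2] at h1
  have h3 : F (ψ t x) = (mfderiv 𝓘(ℂ, E) 𝓘(ℂ, E) (ψ t) p : E → E) (F x) := h1
  rw [hρ t ht] at h3
  exact h3

end Vale.Agent.P253.H595
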